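import Vale.Agent.Lib.P219.Ce.Bern

/-! # P219 certificates: computable polynomials and the kernel polynomials -/

namespace Vale.Agent.Lib.P219.Bern

noncomputable section

/-- ring operations -/
structure Rg (α : Type) where
  add : α → α → α
  mul : α → α → α
  zero : α
  ofI : ℤ → α

section rg
variable {α : Type}

/-- product of polynomials -/
def pml (R : Rg α) (l m : List α) : List α :=
  List.rec (motive := fun _ => List α) []
    (fun a _ ih => zadd R.add (mp (R.mul a) m) (R.zero :: ih)) l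

def Rg.poly (R : Rg α) : Rg (List α) where
  add := zadd R.add
  mul := pml R
  zero := []
  ofI := fun z => [R.ofI z]

structure IsEv (R : Rg α) (e : α → ℝ) : Prop where
  add : ∀ a b, e (R.add a b) = e a + e b
  mul : ∀ a b, e (R.mul a b) = e a * e b
  zero : e R.zero = 0
  ofI : ∀ z : ℤ, e (R.ofI z) = z

theorem pev_zadd (x : ℝ) (l m : List ℝ) : pev x (zadd (· + ·) l m) = pev x l + pev x m := by
  induction l generalizing m with
  | nil => simp [zadd_nil, pev]
  | cons a l ih =>
    cases m with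
    | nil => rw [zadd_nil']; simp [pev]
    | cons b m => rw [zadd_cons, pev, ih, pev, pev]; ring

variable {R : Rg α} {e : α → ℝ}

theorem IsEv.pev_add (h : IsEv R e) (x : ℝ) (l m : List α) :
    pev x ((zadd R.add l m).map e) = pev x (l.map e) + pev x (m.map e) := by
  rw [map_zadd (add' := (· + ·)) (fun a b => h.add a b), pev_zadd]

theorem IsEv.pev_map_mul (h : IsEv R e) (x : ℝ) (a : α) (l : List α) :
    pev x ((mp (R.mul a) l).map e) = e a * pev x (l.map e) := by
  rw [mp_eq]
  induction l with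
  | nil => simp [pev]
  | cons b l ih =>
    simp only [List.map_cons, pev] at ih ⊢
    rw [ih, h.mul]; ring

theorem IsEv.poly (h : IsEv R e) (x : ℝ) : IsEv R.poly (fun l => pev x (l.map e)) where
  add := fun a b => h.pev_add x a b
  mul := fun a b => by
    change pev x ((pml R a b).map e) = _
    induction a with
    | nil => simp [pml, pev]
    | cons c a ih =>
      change pev x ((zadd R.add (mp (R.mul c) b) (R.zero :: pml R a b)).map e) = _
      rw [h.pev_add, h.pev_map_mul, List.map_cons, pev, ih, h.zero, List.map_cons, pev]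
      ring
  zero := by simp [Rg.poly, pev]
  ofI := fun z => by simp [Rg.poly, pev, h.ofI]

/-- subtraction -/
def Rg.sub (R : Rg α) (a b : α) : α := R.add a (R.mul (R.ofI (-1)) b)

theorem IsEv.sub (h : IsEv R e) (a b : α) : e (R.sub a b) = e a - e b := by
  rw [Rg.sub, h.add, h.mul, h.ofI]; push_cast; ring

/-- Horner -/
def hor (R : Rg α) (r : α) (l : List α) : α :=
  List.rec (motive := fun _ => α) R.zero (fun a _ ih => R.add a (R.mul r ih)) l

theorem IsEv.hor (h : IsEv R e) (r : α) (l : List α) : e (hor R r l) = pev (e r) (l.map e) := by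
  induction l with
  | nil => exact h.zero
  | cons a l ih =>
    change e (R.add a (R.mul r (Bern.hor R r l))) = _
    rw [h.add, h.mul, ih]; rfl

/-- powers -/
def pw (R : Rg α) (p : α) (k : ℕ) : α :=
  Nat.rec (motive := fun _ => α) (R.ofI 1) (fun _ ih => R.mul p ih) k

theorem IsEv.pw (h : IsEv R e) (p : α) (k : ℕ) : e (pw R p k) = e p ^ k := by
  induction k with
  | zero => change e (R.ofI 1) = _; rw [h.ofI]; simp
  | succ k ih => change e (R.mul p (Bern.pw R p k)) = _; rw [h.mul, ih, pow_succ']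

/-- power sums -/
def psm (R : Rg α) (s p : α) (k : ℕ) : α × α :=
  Nat.rec (motive := fun _ => α × α) (R.ofI 2, s)
    (fun _ ih => (ih.2, R.sub (R.mul s ih.2) (R.mul p ih.1))) k

theorem IsEv.psm (h : IsEv R e) (s p : α) (c d : ℝ) (hs : e s = c + d) (hp : e p = c * d)
    (k : ℕ) : e (psm R s p k).1 = c ^ k + d ^ k ∧ e (psm R s p k).2 = c ^ (k + 1) + d ^ (k + 1) := by
  induction k with
  | zero =>
    refine ⟨?_, ?_⟩
    · change e (R.ofI 2) = _; rw [h.ofI]; norm_num
    · change e s = _; rw [hs]; ring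
  | succ k ih =>
    refine ⟨ih.2, ?_⟩
    change e (R.sub (R.mul s (Bern.psm R s p k).2) (R.mul p (Bern.psm R s p k).1)) = _
    rw [h.sub, h.mul, h.mul, ih.1, ih.2, hs, hp]
    ring

/-- `c^a d^b + c^b d^a` -/
def Es (R : Rg α) (s p : α) (a b : ℕ) : α :=
  R.mul (pw R p (Nat.sub a (Nat.sub a b))) (psm R s p (Nat.add (Nat.sub a b) (Nat.sub b a))).1

theorem IsEv.Es (h : IsEv R e) (s p : α) (c d : ℝ) (hs : e s = c + d) (hp : e p = c * d)
    (a b : ℕ) : e (Es R s p a b) = c ^ a * d ^ b + c ^ b * d ^ a := by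
  rw [Bern.Es, h.mul, h.pw, (h.psm s p c d hs hp _).1, hp]
  change (c * d) ^ (a - (a - b)) * (c ^ ((a - b) + (b - a)) + d ^ ((a - b) + (b - a))) = _
  rcases le_total a b with hab | hab
  · obtain ⟨k, rfl⟩ := Nat.exists_eq_add_of_le hab
    have e1 : a - (a - (a + k)) = a := by omega
    have e2 : (a - (a + k)) + (a + k - a) = k := by omega
    rw [e1, e2]; ring
  · obtain ⟨k, rfl⟩ := Nat.exists_eq_add_of_le hab
    have e1 : b + k - (b + k - b) = b := by omega
    have e2 : (b + k - b) + (b - (b + k)) = k := by omega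
    rw [e1, e2]; ring

/-! ## sparse polynomials -/

/-- evaluation of a sparse polynomial -/
def sev (y : ℝ) (h : List (ℕ × ℤ)) : ℝ := (h.map (fun kz => (kz.2 : ℝ) * y ^ kz.1)).sum

/-- `x * y^k` as a list -/
def atk (R : Rg α) (k : ℕ) (x : α) : List α :=
  Nat.rec (motive := fun _ => List α) [x] (fun _ ih => R.zero :: ih) k

theorem IsEv.atk (h : IsEv R e) (y : ℝ) (k : ℕ) (x : α) :
    pev y ((atk R k x).map e) = y ^ k * e x := by
  induction k with
  | zero => simp [Bern.atk, pev]
  | succ k ih =>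
    change pev y ((R.zero :: Bern.atk R k x).map e) = _
    rw [List.map_cons, pev, ih, h.zero]; ring

/-- `x * h(y)` as a list -/
def spl (R : Rg α) (x : α) (h : List (ℕ × ℤ)) : List α :=
  List.rec (motive := fun _ => List α) []
    (fun kz _ ih => zadd R.add (atk R kz.1 (R.mul (R.ofI kz.2) x)) ih) h

theorem IsEv.spl (h : IsEv R e) (y : ℝ) (x : α) (g : List (ℕ × ℤ)) :
    pev y ((spl R x g).map e) = sev y g * e x := by
  induction g with
  | nil => simp [Bern.spl, pev, sev]
  | cons kz g ih =>
    change pev y ((zadd R.add (Bern.atk R kz.1 (R.mul (R.ofI kz.2) x)) (Bern.spl R x g)).map e) = _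
    rw [h.pev_add, h.atk, ih, h.mul, h.ofI, sev, sev, List.map_cons, List.sum_cons]
    ring

/-! ## monomials of a certificate on a piece -/

structure Mo where
  he : List (ℕ × ℤ)
  hr : List (ℕ × ℤ)
  hq : List (ℕ × ℤ)
  j : ℕ

/-- assemble -/
def asm (R : Rg α) (Te Tr Tq : ℕ → α) (c : α) (H : List (ℕ × ℤ)) (M : List Mo) : List α :=
  List.rec (motive := fun _ => List α) (spl R c H)
    (fun m _ ih => zadd R.add (spl R (Te m.j) m.he) (zadd R.add (spl R (Tr m.j) m.hr)
      (zadd R.add (spl R (Tq m.j) m.hq) ih))) M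

theorem IsEv.asm (h : IsEv R e) (y : ℝ) (Te Tr Tq : ℕ → α) (c : α) (H : List (ℕ × ℤ))
    (M : List Mo) : pev y ((asm R Te Tr Tq c H M).map e)
      = sev y H * e c + (M.map (fun m => sev y m.he * e (Te m.j) + sev y m.hr * e (Tr m.j)
        + sev y m.hq * e (Tq m.j))).sum := by
  induction M with
  | nil =>
    change pev y ((Bern.spl R c H).map e) = _
    rw [h.spl]; simp
  | cons m M ih =>
    change pev y ((zadd R.add (Bern.spl R (Te m.j) m.he) (zadd R.add (Bern.spl R (Tr m.j) m.hr)
      (zadd R.add (Bern.spl R (Tq m.j) m.hq) (Bern.asm R Te Tr Tq c H M)))).map e) = _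
    rw [h.pev_add, h.pev_add, h.pev_add, h.spl, h.spl, h.spl, ih, List.map_cons, List.sum_cons]
    ring

end rg

/-- integers -/
def RI : Rg ℤ := ⟨Int.add, Int.mul, 0, fun z => z⟩

theorem isEvI : IsEv RI (fun z : ℤ => (z : ℝ)) :=
  ⟨fun a b => Int.cast_add a b, fun a b => Int.cast_mul a b, Int.cast_zero, fun _ => rfl⟩

/-- polynomials in three variables -/
def R3 : Rg (List (List (List ℤ))) := RI.poly.poly.poly

theorem isEv3 (t x y : ℝ) : IsEv R3 (ev3 t x y) := by
  have h1 : IsEv RI.poly (ev1 y) := isEvI.poly y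
  have h2 : IsEv RI.poly.poly (ev2 x y) := h1.poly x
  exact h2.poly t

end

end Vale.Agent.Lib.P219.Bern
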