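import Mathlib.Algebra.BigOperators.Fin
import Mathlib.Algebra.CharP.Defs
import Mathlib.Algebra.Order.Archimedean.Real.Basic
import Mathlib.Algebra.Order.Ring.Star
import Mathlib.Data.Int.ConditionallyCompleteOrder
import Mathlib.Data.Int.Star
import Mathlib.Data.List.GetD
import Mathlib.Data.Nat.SuccPred
import Mathlib.Tactic.Positivity

/-! # P219 certificates: kernel checker for polynomial inequalities on boxes

Polynomials are tensors in homogeneous (Bernstein) form; the coefficients in the last variable are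
packed in one natural number. -/

namespace Vale.Agent.Lib.P219.Bern

noncomputable section

/-! ## list operations in recursor form -/

section ops
variable {α β : Type}

/-- padded pointwise addition -/
def zadd (add : α → α → α) (l : List α) : List α → List α :=
  List.rec (motive := fun _ => List α → List α) (fun m => m)
    (fun a l ih m => List.rec (motive := fun _ => List α) (a :: l)
      (fun b m _ => add a b :: ih m) m) l

/-- coefficients of `a v^k + (u+v) S` -/
def pas (add : α → α → α) (a : α) (l : List α) : List α :=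
  List.rec (motive := fun _ => α → List α) (fun a => [a]) (fun s _ ih a => add a s :: ih s) l a

/-- coefficients of `P (u+v, v)` -/
def sh (add : α → α → α) (l : List α) : List α :=
  List.rec (motive := fun _ => List α) [] (fun a _ ih => pas add a ih) l

/-- multiply the `i`-th coefficient by `2^i k` -/
def scm (smul : ℕ → α → α) (k : ℕ) (l : List α) : List α :=
  List.rec (motive := fun _ => ℕ → List α) (fun _ => [])
    (fun a _ ih k => smul k a :: ih (Nat.mul 2 k)) l k

/-- reverse with accumulator -/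
def rva (l : List α) (m : List α) : List α :=
  List.rec (motive := fun _ => List α → List α) (fun m => m) (fun a _ ih m => ih (a :: m)) l m

def mp (f : α → β) (l : List α) : List β :=
  List.rec (motive := fun _ => List β) [] (fun a _ ih => f a :: ih) l

/-- `P (2u+v, v)` -/
def spR (add : α → α → α) (smul : ℕ → α → α) (l : List α) : List α := scm smul 1 (sh add l)

/-- `P (u, u+2v)` -/
def spL (add : α → α → α) (smul : ℕ → α → α) (l : List α) : List α :=
  rva (spR add smul (rva l [])) []

/-- `P (u, u+v)` -/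
def shL (add : α → α → α) (l : List α) : List α := rva (sh add (rva l [])) []

/-- `k`-fold `shL` -/
def shLk (add : α → α → α) (k : ℕ) (l : List α) : List α :=
  Nat.rec (motive := fun _ => List α) l (fun _ ih => shL add ih) k

theorem zadd_nil (add : α → α → α) (m : List α) : zadd add [] m = m := rfl
theorem zadd_nil' (add : α → α → α) (m : List α) : zadd add m [] = m := by cases m <;> rfl
theorem zadd_cons (add : α → α → α) (a b : α) (l m : List α) :
    zadd add (a :: l) (b :: m) = add a b :: zadd add l m := rfl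
theorem pas_nil (add : α → α → α) (a : α) : pas add a [] = [a] := rfl
theorem pas_cons (add : α → α → α) (a s : α) (l : List α) :
    pas add a (s :: l) = add a s :: pas add s l := rfl
theorem sh_nil (add : α → α → α) : sh add [] = [] := rfl
theorem sh_cons (add : α → α → α) (a : α) (l : List α) :
    sh add (a :: l) = pas add a (sh add l) := rfl
theorem scm_nil (smul : ℕ → α → α) (k : ℕ) : scm smul k [] = [] := rfl
theorem scm_cons (smul : ℕ → α → α) (k : ℕ) (a : α) (l : List α) :
    scm smul k (a :: l) = smul k a :: scm smul (2 * k) l := rfl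
theorem mp_eq (f : α → β) (l : List α) : mp f l = l.map f := by
  induction l with
  | nil => rfl
  | cons a l ih =>
    change f a :: mp f l = _
    rw [ih]; rfl
theorem rva_eq (l m : List α) : rva l m = l.reverse ++ m := by
  induction l generalizing m with
  | nil => rfl
  | cons a l ih =>
    change rva l (a :: m) = _
    rw [ih]; simp
theorem rva_nil (l : List α) : rva l [] = l.reverse := by rw [rva_eq]; simp

/-! ## homomorphisms -/

variable {add : α → α → α} {add' : β → β → β} {φ : α → β}

theorem map_zadd (h : ∀ a b, φ (add a b) = add' (φ a) (φ b)) (l m : List α) :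
    (zadd add l m).map φ = zadd add' (l.map φ) (m.map φ) := by
  induction l generalizing m with
  | nil => rfl
  | cons a l ih =>
    cases m with
    | nil => rfl
    | cons b m =>
      rw [zadd_cons]
      simp only [List.map_cons]
      rw [zadd_cons, h, ih]

variable {Q : α → Prop}

theorem map_pas (hQ : ∀ a b, Q a → Q b → Q (add a b))
    (h : ∀ a b, Q a → Q b → φ (add a b) = add' (φ a) (φ b)) (l : List α) (a : α) (ha : Q a)
    (hl : ∀ x ∈ l, Q x) :
    (∀ x ∈ pas add a l, Q x) ∧ (pas add a l).map φ = pas add' (φ a) (l.map φ) := by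
  induction l generalizing a with
  | nil =>
    refine ⟨?_, rfl⟩
    intro x hx
    rw [pas_nil] at hx
    simp only [List.mem_singleton] at hx
    rw [hx]; exact ha
  | cons s l ih =>
    have hs : Q s := hl s (by simp)
    obtain ⟨h1, h2⟩ := ih s hs (fun x hx => hl x (by simp [hx]))
    refine ⟨?_, ?_⟩
    · intro x hx
      rw [pas_cons, List.mem_cons] at hx
      rcases hx with rfl | hx
      · exact hQ _ _ ha hs
      · exact h1 x hx
    · rw [pas_cons, List.map_cons, h2, List.map_cons, pas_cons, h _ _ ha hs]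

theorem map_sh (hQ : ∀ a b, Q a → Q b → Q (add a b))
    (h : ∀ a b, Q a → Q b → φ (add a b) = add' (φ a) (φ b)) (l : List α)
    (hl : ∀ x ∈ l, Q x) :
    (∀ x ∈ sh add l, Q x) ∧ (sh add l).map φ = sh add' (l.map φ) := by
  induction l with
  | nil => exact ⟨by simp [sh_nil], rfl⟩
  | cons a l ih =>
    obtain ⟨h1, h2⟩ := ih (fun x hx => hl x (by simp [hx]))
    obtain ⟨h3, h4⟩ := map_pas (φ := φ) (add' := add') hQ h (sh add l) a (hl a (by simp)) h1
    refine ⟨h3, ?_⟩
    rw [sh_cons, h4, h2]; rfl

variable {smul : ℕ → α → α} {smul' : ℕ → β → β}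

theorem map_scm (hQ : ∀ k a, Q a → Q (smul k a))
    (h : ∀ k a, Q a → φ (smul k a) = smul' k (φ a)) (l : List α) (k : ℕ)
    (hl : ∀ x ∈ l, Q x) :
    (∀ x ∈ scm smul k l, Q x) ∧ (scm smul k l).map φ = scm smul' k (l.map φ) := by
  induction l generalizing k with
  | nil => exact ⟨by simp [scm_nil], rfl⟩
  | cons a l ih =>
    have ha : Q a := hl a (by simp)
    obtain ⟨h1, h2⟩ := ih (2 * k) (fun x hx => hl x (by simp [hx]))
    refine ⟨?_, ?_⟩
    · intro x hx
      rw [scm_cons, List.mem_cons] at hx
      rcases hx with rfl | hx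
      · exact hQ _ _ ha
      · exact h1 x hx
    · rw [scm_cons, List.map_cons, h2, h _ _ ha]; rfl

theorem map_spR (hQ : ∀ a b, Q a → Q b → Q (add a b))
    (h : ∀ a b, Q a → Q b → φ (add a b) = add' (φ a) (φ b))
    (hQ' : ∀ k a, Q a → Q (smul k a))
    (h' : ∀ k a, Q a → φ (smul k a) = smul' k (φ a)) (l : List α) (hl : ∀ x ∈ l, Q x) :
    (∀ x ∈ spR add smul l, Q x) ∧ (spR add smul l).map φ = spR add' smul' (l.map φ) := by
  obtain ⟨h1, h2⟩ := map_sh (φ := φ) (add' := add') hQ h l hl
  obtain ⟨h3, h4⟩ := map_scm (φ := φ) (smul' := smul') hQ' h' (sh add l) 1 h1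
  exact ⟨h3, by rw [spR, h4, h2]; rfl⟩

theorem map_spL (hQ : ∀ a b, Q a → Q b → Q (add a b))
    (h : ∀ a b, Q a → Q b → φ (add a b) = add' (φ a) (φ b))
    (hQ' : ∀ k a, Q a → Q (smul k a))
    (h' : ∀ k a, Q a → φ (smul k a) = smul' k (φ a)) (l : List α) (hl : ∀ x ∈ l, Q x) :
    (∀ x ∈ spL add smul l, Q x) ∧ (spL add smul l).map φ = spL add' smul' (l.map φ) := by
  obtain ⟨h1, h2⟩ := map_spR (φ := φ) (add' := add') (smul' := smul') hQ h hQ' h' (rva l [])
    (by rw [rva_nil]; intro x hx; exact hl x (by simpa using hx))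
  refine ⟨?_, ?_⟩
  · intro x hx
    rw [spL, rva_nil, List.mem_reverse] at hx
    exact h1 x hx
  · rw [rva_nil, List.map_reverse] at h2
    rw [spL, spL, rva_nil, rva_nil, List.map_reverse, h2, rva_nil, rva_nil]

theorem map_shL (hQ : ∀ a b, Q a → Q b → Q (add a b))
    (h : ∀ a b, Q a → Q b → φ (add a b) = add' (φ a) (φ b)) (l : List α) (hl : ∀ x ∈ l, Q x) :
    (∀ x ∈ shL add l, Q x) ∧ (shL add l).map φ = shL add' (l.map φ) := by
  obtain ⟨h1, h2⟩ := map_sh (φ := φ) (add' := add') hQ h (rva l [])
    (by rw [rva_nil]; intro x hx; exact hl x (by simpa using hx))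
  refine ⟨?_, ?_⟩
  · intro x hx
    rw [shL, rva_nil, List.mem_reverse] at hx
    exact h1 x hx
  · rw [rva_nil, List.map_reverse] at h2
    rw [shL, shL, rva_nil, rva_nil, List.map_reverse, h2, rva_nil, rva_nil]

theorem map_shLk (hQ : ∀ a b, Q a → Q b → Q (add a b))
    (h : ∀ a b, Q a → Q b → φ (add a b) = add' (φ a) (φ b)) (k : ℕ) (l : List α)
    (hl : ∀ x ∈ l, Q x) :
    (∀ x ∈ shLk add k l, Q x) ∧ (shLk add k l).map φ = shLk add' k (l.map φ) := by
  induction k with
  | zero => exact ⟨hl, rfl⟩
  | succ k ih =>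
    obtain ⟨h1, h2⟩ := map_shL (φ := φ) (add' := add') hQ h (shLk add k l) ih.1
    refine ⟨h1, ?_⟩
    change (shL add (shLk add k l)).map φ = shL add' (shLk add' k (l.map φ))
    rw [h2, ih.2]

end ops

/-! ## lengths -/

section len
variable {α : Type}

theorem length_pas (add : α → α → α) (a : α) (l : List α) :
    (pas add a l).length = l.length + 1 := by
  induction l generalizing a with
  | nil => rfl
  | cons s l ih => rw [pas_cons, List.length_cons, ih, List.length_cons]

theorem length_sh (add : α → α → α) (l : List α) : (sh add l).length = l.length := by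
  induction l with
  | nil => rfl
  | cons a l ih => rw [sh_cons, length_pas, ih, List.length_cons]

theorem length_scm (smul : ℕ → α → α) (k : ℕ) (l : List α) :
    (scm smul k l).length = l.length := by
  induction l generalizing k with
  | nil => rfl
  | cons a l ih => rw [scm_cons, List.length_cons, ih, List.length_cons]

theorem length_spR (add : α → α → α) (smul : ℕ → α → α) (l : List α) :
    (spR add smul l).length = l.length := by
  rw [spR, length_scm, length_sh]

theorem length_spL (add : α → α → α) (smul : ℕ → α → α) (l : List α) :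
    (spL add smul l).length = l.length := by
  rw [spL, rva_nil, List.length_reverse, length_spR, rva_nil, List.length_reverse]

theorem length_shL (add : α → α → α) (l : List α) :
    (shL add l).length = l.length := by
  rw [shL, rva_nil, List.length_reverse, length_sh, rva_nil, List.length_reverse]

theorem length_shLk (add : α → α → α) (k : ℕ) (l : List α) :
    (shLk add k l).length = l.length := by
  induction k with
  | zero => rfl
  | succ k ih =>
    change (shL add (shLk add k l)).length = _
    rw [length_shL, ih]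

theorem length_zadd (add : α → α → α) (l m : List α) (h : l.length = m.length) :
    (zadd add l m).length = l.length := by
  induction l generalizing m with
  | nil => cases m with
    | nil => rfl
    | cons b m => simp at h
  | cons a l ih =>
    cases m with
    | nil => simp at h
    | cons b m =>
      rw [zadd_cons, List.length_cons, ih m (by simpa using h), List.length_cons]

end len

/-! ## homogeneous evaluation -/

/-- `Σ a_i u^i v^(d-i)` with `d = length - 1` -/
def hev (u v : ℝ) : List ℝ → ℝ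
  | [] => 0
  | a :: l => a * v ^ l.length + u * hev u v l

theorem hev_pas (u v a : ℝ) (l : List ℝ) :
    hev u v (pas (· + ·) a l) = a * v ^ l.length + (u + v) * hev u v l := by
  induction l generalizing a with
  | nil => simp [pas_nil, hev]
  | cons s l ih =>
    rw [pas_cons, hev, ih, length_pas, hev, List.length_cons, pow_succ]
    ring

theorem hev_sh (u v : ℝ) (l : List ℝ) : hev u v (sh (· + ·) l) = hev (u + v) v l := by
  induction l with
  | nil => rfl
  | cons a l ih => rw [sh_cons, hev_pas, ih, length_sh, hev]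

theorem hev_scm (u v : ℝ) (k : ℕ) (l : List ℝ) :
    hev u v (scm (fun k x => (k : ℝ) * x) k l) = k * hev (2 * u) v l := by
  induction l generalizing k with
  | nil => simp [scm_nil, hev]
  | cons a l ih =>
    rw [scm_cons, hev, ih, length_scm, hev]
    push_cast
    ring

theorem hev_spR (u v : ℝ) (l : List ℝ) :
    hev u v (spR (· + ·) (fun k x => (k : ℝ) * x) l) = hev (2 * u + v) v l := by
  rw [spR, hev_scm, hev_sh]; simp

theorem hev_append (u v a : ℝ) (l : List ℝ) :
    hev u v (l ++ [a]) = v * hev u v l + a * u ^ l.length := by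
  induction l with
  | nil => simp [hev]
  | cons b l ih =>
    rw [List.cons_append, hev, ih, hev, List.length_append, List.length_cons, List.length_cons,
      List.length_nil]
    ring

theorem hev_reverse (u v : ℝ) (l : List ℝ) : hev u v l.reverse = hev v u l := by
  induction l with
  | nil => rfl
  | cons a l ih =>
    rw [List.reverse_cons, hev_append, ih, List.length_reverse, hev]
    ring

theorem hev_spL (u v : ℝ) (l : List ℝ) :
    hev u v (spL (· + ·) (fun k x => (k : ℝ) * x) l) = hev u (u + 2 * v) l := by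
  rw [spL, rva_nil, hev_reverse, hev_spR, rva_nil, hev_reverse]
  ring_nf

theorem hev_shL (u v : ℝ) (l : List ℝ) : hev u v (shL (· + ·) l) = hev u (u + v) l := by
  rw [shL, rva_nil, hev_reverse, hev_sh, rva_nil, hev_reverse]
  ring_nf

theorem hev_shLk (u v : ℝ) (k : ℕ) (l : List ℝ) :
    hev u v (shLk (· + ·) k l) = hev u (v + k * u) l := by
  induction k generalizing v with
  | zero => simp [shLk]
  | succ k ih =>
    change hev u v (shL (· + ·) (shLk (· + ·) k l)) = _
    rw [hev_shL, ih]
    push_cast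
    ring_nf

theorem hev_zadd (u v : ℝ) (l m : List ℝ) (h : l.length = m.length) :
    hev u v (zadd (· + ·) l m) = hev u v l + hev u v m := by
  induction l generalizing m with
  | nil => cases m with
    | nil => simp [zadd_nil, hev]
    | cons b m => simp at h
  | cons a l ih =>
    cases m with
    | nil => simp at h
    | cons b m =>
      have h' : l.length = m.length := by simpa using h
      rw [zadd_cons, hev, ih m h', length_zadd _ _ _ h', hev, hev, h']
      ring

theorem hev_map_mul (u v k : ℝ) (l : List ℝ) :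
    hev u v (l.map (fun x => k * x)) = k * hev u v l := by
  induction l with
  | nil => simp [hev]
  | cons a l ih =>
    rw [List.map_cons, hev, ih, hev, List.length_map]
    ring

theorem hev_nonneg {u v : ℝ} (hu : 0 ≤ u) (hv : 0 ≤ v) (l : List ℝ) (h : ∀ x ∈ l, 0 ≤ x) :
    0 ≤ hev u v l := by
  induction l with
  | nil => simp [hev]
  | cons a l ih =>
    rw [hev]
    have h1 := h a (by simp)
    have h2 := ih (fun x hx => h x (by simp [hx]))
    positivity

/-- power basis evaluation -/
def pev (x : ℝ) : List ℝ → ℝ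
  | [] => 0
  | a :: l => a + x * pev x l

theorem hev_one (x : ℝ) (l : List ℝ) : hev x 1 l = pev x l := by
  induction l with
  | nil => rfl
  | cons a l ih => rw [hev, pev, ih]; simp

theorem pev_pad (x : ℝ) (l : List ℝ) (k : ℕ) : pev x (l ++ List.replicate k 0) = pev x l := by
  induction l with
  | nil =>
    induction k with
    | zero => rfl
    | succ k ih =>
      rw [List.nil_append] at ih ⊢
      rw [List.replicate_succ, pev.eq_2, ih]
      simp [pev]
  | cons a l ih => rw [List.cons_append, pev, ih, pev]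

theorem hev_sum {m : ℕ} (u v : ℝ) (l : List ℝ) (h : l.length = m) :
    hev u v l = ∑ i : Fin m, u ^ (i : ℕ) * v ^ (m - 1 - (i : ℕ)) * l.getD i 0 := by
  induction l generalizing m with
  | nil => subst h; simp [hev]
  | cons a l ih =>
    subst h
    rw [List.length_cons, Fin.sum_univ_succ, hev, ih rfl, Finset.mul_sum]
    congr 1
    · simp; ring
    · refine Finset.sum_congr rfl fun i _ => ?_
      have e1 : l.length + 1 - 1 - ((Fin.succ i : Fin (l.length + 1)) : ℕ)
          = l.length - 1 - (i : ℕ) := by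
        simp only [Fin.val_succ]; omega
      rw [e1]
      simp only [Fin.val_succ, List.getD_cons_succ]
      ring

/-! ## packed entries -/

/-- digits: positive and negative parts of the coefficients in the last variable -/
abbrev G (m : ℕ) := Fin m → ℕ × ℕ

def gadd {m : ℕ} (a b : G m) : G m := fun i => ((a i).1 + (b i).1, (a i).2 + (b i).2)
def gsmul {m : ℕ} (k : ℕ) (a : G m) : G m := fun i => (k * (a i).1, k * (a i).2)

def dig (K : ℕ) {m : ℕ} (f : Fin m → ℕ) : ℕ := ∑ i, f i * (2 ^ K) ^ (i : ℕ)

/-- the packed entry -/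
def pk (K : ℕ) {m : ℕ} (g : G m) : ℕ :=
  dig K (fun i => (g i).1) + 2 ^ (K * m) * dig K (fun i => (g i).2)
    + 2 ^ (2 * (K * m)) * ∑ i, ((g i).1 + (g i).2)

/-- value of a weight vector -/
def fval {m : ℕ} (w : Fin m → ℝ) (g : G m) : ℝ := ∑ i, w i * (((g i).1 : ℝ) - ((g i).2 : ℝ))

theorem pk_gadd (K : ℕ) {m : ℕ} (a b : G m) : pk K (gadd a b) = Nat.add (pk K a) (pk K b) := by
  change _ = pk K a + pk K b
  simp only [pk, dig, gadd, add_mul, Finset.sum_add_distrib]
  ring

theorem pk_gsmul (K : ℕ) {m : ℕ} (k : ℕ) (a : G m) : pk K (gsmul k a) = Nat.mul k (pk K a) := by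
  change _ = k * pk K a
  simp only [pk, dig, gsmul, mul_add, Finset.mul_sum, Finset.sum_add_distrib]
  congr 1
  · congr 1
    · refine Finset.sum_congr rfl fun i _ => by ring
    · refine Finset.sum_congr rfl fun i _ => by ring
  · congr 1 <;> (refine Finset.sum_congr rfl fun i _ => by ring)

theorem fval_gadd {m : ℕ} (w : Fin m → ℝ) (a b : G m) :
    fval w (gadd a b) = fval w a + fval w b := by
  simp only [fval, gadd, ← Finset.sum_add_distrib]
  refine Finset.sum_congr rfl fun i _ => ?_
  push_cast; ring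

theorem fval_gsmul {m : ℕ} (w : Fin m → ℝ) (k : ℕ) (a : G m) :
    fval w (gsmul k a) = (k : ℝ) * fval w a := by
  simp only [fval, gsmul, Finset.mul_sum]
  refine Finset.sum_congr rfl fun i _ => ?_
  push_cast; ring

theorem dig_succ (K : ℕ) {m : ℕ} (f : Fin (m + 1) → ℕ) :
    dig K f = f 0 + 2 ^ K * dig K (fun i => f i.succ) := by
  simp only [dig, Fin.sum_univ_succ, Finset.mul_sum]
  congr 1
  · simp
  · refine Finset.sum_congr rfl fun i _ => ?_
    simp only [Fin.val_succ, pow_succ]; ring

theorem dig_lt (K : ℕ) {m : ℕ} (f : Fin m → ℕ) (hf : ∀ i, f i < 2 ^ K) :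
    dig K f < 2 ^ (K * m) := by
  induction m with
  | zero => simp [dig]
  | succ m ih =>
    rw [dig_succ]
    have h1 := ih (fun i => f i.succ) (fun i => hf _)
    have h2 := hf 0
    calc f 0 + 2 ^ K * dig K (fun i => f i.succ) < 2 ^ K + 2 ^ K * dig K (fun i => f i.succ) := by
          omega
      _ = 2 ^ K * (dig K (fun i => f i.succ) + 1) := by ring
      _ ≤ 2 ^ K * 2 ^ (K * m) := Nat.mul_le_mul_left _ h1
      _ = 2 ^ (K * (m + 1)) := by rw [← pow_add]; ring_nf

/-- all digits of `N` (there are `m`) have their top bit -/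
theorem land_dig (K : ℕ) {m : ℕ} (f : Fin m → ℕ) (hf : ∀ i, f i < 2 ^ (K + 1))
    (h : Nat.land (dig (K + 1) f) (dig (K + 1) (fun _ : Fin m => 2 ^ K))
      = dig (K + 1) (fun _ : Fin m => 2 ^ K)) : ∀ i, 2 ^ K ≤ f i := by
  change (dig (K + 1) f) &&& (dig (K + 1) (fun _ : Fin m => 2 ^ K)) = _ at h
  induction m with
  | zero => intro i; exact i.elim0
  | succ m ih =>
    rw [dig_succ, dig_succ] at h
    have hB : (2 : ℕ) ^ K < 2 ^ (K + 1) := by
      rw [pow_succ]; have : 0 < (2 : ℕ) ^ K := by positivity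
      omega
    have h0 : f 0 &&& 2 ^ K = 2 ^ K := by
      have h1 := congrArg (fun z => z % 2 ^ (K + 1)) h
      simp only [Nat.and_mod_two_pow, Nat.add_mul_mod_self_left, Nat.mod_eq_of_lt (hf 0),
        Nat.mod_eq_of_lt hB] at h1
      exact h1
    have h2 : dig (K + 1) (fun i : Fin m => f i.succ) &&& dig (K + 1) (fun _ : Fin m => 2 ^ K)
        = dig (K + 1) (fun _ : Fin m => 2 ^ K) := by
      have h1 := congrArg (fun z => z / 2 ^ (K + 1)) h
      have hp : 0 < (2 : ℕ) ^ (K + 1) := by positivity
      simp only [Nat.and_div_two_pow, Nat.add_mul_div_left _ _ hp, Nat.div_eq_of_lt (hf 0),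
        Nat.div_eq_of_lt hB, zero_add] at h1
      exact h1
    intro i
    refine Fin.cases ?_ (fun j => ?_) i
    · rw [← h0]; exact Nat.and_le_left
    · exact ih (fun i => f i.succ) (fun i => hf _) h2 j

/-- `Σ_{i<m} 2^K (2^(K+1))^i` -/
def off (K m : ℕ) : ℕ :=
  Nat.rec (motive := fun _ => ℕ) 0 (fun _ ih => Nat.add (Nat.pow 2 K) (Nat.mul (Nat.pow 2 (Nat.succ K)) ih)) m

theorem off_eq (K m : ℕ) : off K m = dig (K + 1) (fun _ : Fin m => 2 ^ K) := by
  induction m with
  | zero => simp [off, dig]
  | succ m ih =>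
    rw [dig_succ, ← ih]; rfl

/-- check of one packed entry; the digit base is `2^(K+1)` -/
def chkE (K m N : ℕ) : Bool :=
  Bool.rec false (Nat.beq (Nat.land (Nat.sub (Nat.add (Nat.mod N (Nat.pow 2 (Nat.mul (Nat.succ K) m)))
      (off K m)) (Nat.mod (Nat.div N (Nat.pow 2 (Nat.mul (Nat.succ K) m)))
        (Nat.pow 2 (Nat.mul (Nat.succ K) m)))) (off K m)) (off K m))
    (Nat.blt (Nat.div N (Nat.pow 2 (Nat.mul 2 (Nat.mul (Nat.succ K) m)))) (Nat.pow 2 K))

theorem brec_eq (a b : Bool) : (Bool.rec (motive := fun _ => Bool) false a b) = (b && a) := by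
  cases b <;> rfl

theorem chkE_sound (K m : ℕ) (g : G m) (h : chkE K m (pk (K + 1) g) = true) :
    ∀ i, (g i).2 ≤ (g i).1 := by
  unfold chkE at h
  rw [brec_eq, Bool.and_eq_true] at h
  obtain ⟨h1, h2⟩ := h
  set N := pk (K + 1) g with hN
  set Y : ℕ := 2 ^ ((K + 1) * m) with hY
  have hYp : 0 < Y := by positivity
  have hZ : (2 : ℕ) ^ (2 * ((K + 1) * m)) = Y * Y := by rw [hY, ← pow_add]; ring_nf
  have hN' : N = dig (K + 1) (fun i => (g i).1) + Y * dig (K + 1) (fun i => (g i).2)
    + Y * Y * ∑ i, ((g i).1 + (g i).2) := by rw [hN, pk, hZ]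
  change Nat.blt (N / (2 ^ (2 * ((K + 1) * m)))) (2 ^ K) = true at h1
  rw [hZ, Nat.blt_eq] at h1
  have hs : ∑ i, ((g i).1 + (g i).2) < 2 ^ K := by
    refine lt_of_le_of_lt ?_ h1
    rw [Nat.le_div_iff_mul_le (by positivity), hN']
    nlinarith [Nat.zero_le (dig (K + 1) (fun i => (g i).1)),
      Nat.zero_le (Y * dig (K + 1) (fun i => (g i).2))]
  have hi : ∀ i, (g i).1 + (g i).2 < 2 ^ K := fun i =>
    lt_of_le_of_lt (Finset.single_le_sum (f := fun i => (g i).1 + (g i).2)
      (fun _ _ => Nat.zero_le _) (Finset.mem_univ i)) hs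
  have h2K : (2 : ℕ) ^ (K + 1) = 2 ^ K + 2 ^ K := by rw [pow_succ]; ring
  have hd1 : dig (K + 1) (fun i => (g i).1) < Y :=
    dig_lt _ _ (fun i => by have := hi i; omega)
  have hd2 : dig (K + 1) (fun i => (g i).2) < Y :=
    dig_lt _ _ (fun i => by have := hi i; omega)
  have hm1 : N % Y = dig (K + 1) (fun i => (g i).1) := by
    rw [hN', mul_assoc, Nat.add_mul_mod_self_left, Nat.add_mul_mod_self_left,
      Nat.mod_eq_of_lt hd1]
  have hm2 : (N / Y) % Y = dig (K + 1) (fun i => (g i).2) := by
    have : N / Y = dig (K + 1) (fun i => (g i).2) + Y * ∑ i, ((g i).1 + (g i).2) := by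
      rw [hN', add_assoc, mul_assoc, ← mul_add, Nat.add_mul_div_left _ _ hYp,
        Nat.div_eq_of_lt hd1, zero_add]
    rw [this, Nat.add_mul_mod_self_left, Nat.mod_eq_of_lt hd2]
  change Nat.beq (Nat.land (N % Y + off K m - (N / Y) % Y) (off K m)) (off K m) = true at h2
  rw [Nat.beq_eq, hm1, hm2, off_eq] at h2
  have hsub : dig (K + 1) (fun i => (g i).1) + dig (K + 1) (fun _ : Fin m => 2 ^ K)
      - dig (K + 1) (fun i => (g i).2)
      = dig (K + 1) (fun i => (g i).1 + 2 ^ K - (g i).2) := by
    have : dig (K + 1) (fun i => (g i).1 + 2 ^ K - (g i).2) + dig (K + 1) (fun i => (g i).2)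
        = dig (K + 1) (fun i => (g i).1) + dig (K + 1) (fun _ : Fin m => 2 ^ K) := by
      simp only [dig, ← Finset.sum_add_distrib, ← add_mul]
      refine Finset.sum_congr rfl fun i _ => ?_
      have := hi i
      congr 1
      omega
    omega
  rw [hsub] at h2
  have h3 := land_dig K (fun i => (g i).1 + 2 ^ K - (g i).2)
    (fun i => by have := hi i; omega) h2
  intro i
  have h4 := h3 i
  have h5 := hi i
  omega

/-! ## the tree check -/

inductive T where
  | leaf : T
  | n1 : T → T → T
  | n2 : T → T → T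

def smulL (k : ℕ) (l : List ℕ) : List ℕ := mp (Nat.mul k) l
def gsmulL {m : ℕ} (k : ℕ) (l : List (G m)) : List (G m) := mp (gsmul k) l

def all {α : Type} (p : α → Bool) (l : List α) : Bool :=
  List.rec (motive := fun _ => Bool) true (fun a _ ih => Bool.rec (motive := fun _ => Bool) false ih (p a)) l

theorem all_spec {α : Type} (p : α → Bool) (l : List α) (h : all p l = true) :
    ∀ x ∈ l, p x = true := by
  induction l with
  | nil => simp
  | cons a l ih =>
    have h' : (Bool.rec (motive := fun _ => Bool) false (all p l) (p a)) = true := h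
    rw [brec_eq, Bool.and_eq_true] at h'
    intro x hx
    rw [List.mem_cons] at hx
    rcases hx with rfl | hx
    · exact h'.1
    · exact ih h'.2 x hx

def chkT (c : ℕ → Bool) (t : T) : List (List ℕ) → Bool :=
  T.rec (motive := fun _ => List (List ℕ) → Bool)
    (fun P => all (all c) P)
    (fun _ _ ca cb P => Bool.rec (motive := fun _ => Bool) false
      (cb (spR (zadd Nat.add) smulL P)) (ca (spL (zadd Nat.add) smulL P)))
    (fun _ _ ca cb P => Bool.rec (motive := fun _ => Bool) false
      (cb (mp (spR Nat.add Nat.mul) P)) (ca (mp (spL Nat.add Nat.mul) P))) t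

/-- value of a row -/
def rval {m : ℕ} (w : Fin m → ℝ) (u v : ℝ) (row : List (G m)) : ℝ := hev u v (row.map (fval w))

theorem rval_zadd {m : ℕ} (w : Fin m → ℝ) (u v : ℝ) (a b : List (G m))
    (h : a.length = b.length) :
    rval w u v (zadd gadd a b) = rval w u v a + rval w u v b := by
  unfold rval
  rw [map_zadd (add' := (· + ·)) (fun a b => fval_gadd w a b), hev_zadd]
  simpa using h

theorem rval_smul {m : ℕ} (w : Fin m → ℝ) (u v : ℝ) (k : ℕ) (a : List (G m)) :
    rval w u v (gsmulL k a) = (k : ℝ) * rval w u v a := by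
  unfold rval gsmulL
  rw [mp_eq, List.map_map, ← hev_map_mul, List.map_map]
  congr 1
  refine List.map_congr_left fun x _ => ?_
  exact fval_gsmul w k x

theorem len_Q {m : ℕ} (n2 : ℕ) : ∀ a b : List (G m), a.length = n2 → b.length = n2 →
    (zadd gadd a b).length = n2 := fun a b ha hb => by
  rw [length_zadd _ _ _ (ha.trans hb.symm), ha]

theorem len_Q' {m : ℕ} (n2 : ℕ) : ∀ (k : ℕ) (a : List (G m)), a.length = n2 →
    (gsmulL k a).length = n2 := fun k a ha => by
  rw [gsmulL, mp_eq, List.length_map, ha]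

theorem map_pk_zadd (K : ℕ) {m : ℕ} (a b : List (G m)) :
    (zadd gadd a b).map (pk K) = zadd Nat.add (a.map (pk K)) (b.map (pk K)) :=
  map_zadd (fun a b => pk_gadd K a b) a b

theorem map_pk_smul (K : ℕ) {m : ℕ} (k : ℕ) (a : List (G m)) :
    (gsmulL k a).map (pk K) = smulL k (a.map (pk K)) := by
  rw [gsmulL, smulL, mp_eq, mp_eq, List.map_map, List.map_map]
  refine List.map_congr_left fun x _ => ?_
  exact pk_gsmul K k x

theorem chkT_sound (K m : ℕ) (t : T) : ∀ (P : List (List (G m))) (n2 : ℕ),
    (∀ row ∈ P, row.length = n2) →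
    chkT (chkE K m) t (P.map (List.map (pk (K + 1)))) = true →
    ∀ w : Fin m → ℝ, (∀ i, 0 ≤ w i) → ∀ u1 v1 u2 v2 : ℝ, 0 ≤ u1 → 0 ≤ v1 → 0 ≤ u2 → 0 ≤ v2 →
    0 ≤ hev u1 v1 (P.map (rval w u2 v2)) := by
  induction t with
  | leaf =>
    intro P n2 _ h w hw u1 v1 u2 v2 hu1 hv1 hu2 hv2
    change all (all (chkE K m)) _ = true at h
    refine hev_nonneg hu1 hv1 _ fun x hx => ?_
    rw [List.mem_map] at hx
    obtain ⟨row, hrow, rfl⟩ := hx
    refine hev_nonneg hu2 hv2 _ fun x hx => ?_
    rw [List.mem_map] at hx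
    obtain ⟨g, hg, rfl⟩ := hx
    have h1 := all_spec _ _ h (row.map (pk (K + 1))) (List.mem_map_of_mem hrow)
    have h2 := all_spec _ _ h1 (pk (K + 1) g) (List.mem_map_of_mem hg)
    have h3 := chkE_sound K m g h2
    refine Finset.sum_nonneg fun i _ => mul_nonneg (hw i) ?_
    have : ((g i).2 : ℝ) ≤ ((g i).1 : ℝ) := by exact_mod_cast h3 i
    linarith
  | n1 a b iha ihb =>
    intro P n2 hP h w hw u1 v1 u2 v2 hu1 hv1 hu2 hv2
    change (Bool.rec (motive := fun _ => Bool) false _ _) = true at h
    rw [brec_eq, Bool.and_eq_true] at h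
    obtain ⟨h1, h2⟩ := h
    rcases le_total u1 v1 with huv | huv
    · obtain ⟨q1, q2⟩ := map_spL (Q := fun r : List (G m) => r.length = n2)
        (add' := (· + ·)) (smul' := fun k x => (k : ℝ) * x) (φ := rval w u2 v2)
        (smul := gsmulL) (len_Q n2) (fun a b ha hb => rval_zadd w u2 v2 a b (ha.trans hb.symm))
        (len_Q' n2) (fun k a _ => rval_smul w u2 v2 k a) P hP
      obtain ⟨-, q3⟩ := map_spL (Q := fun _ : List (G m) => True)
        (add := zadd gadd) (smul := gsmulL)
        (add' := zadd Nat.add) (smul' := smulL) (φ := List.map (pk (K + 1)))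
        (fun _ _ _ _ => trivial) (fun a b _ _ => map_pk_zadd (K + 1) a b)
        (fun _ _ _ => trivial) (fun k a _ => map_pk_smul (K + 1) k a) P (fun _ _ => trivial)
      have h3 := iha (spL (zadd gadd) gsmulL P) n2 q1 (by rw [q3]; exact h1) w hw
        u1 ((v1 - u1) / 2) u2 v2 hu1 (by linarith) hu2 hv2
      rw [q2, hev_spL] at h3
      have e : u1 + 2 * ((v1 - u1) / 2) = v1 := by ring
      rwa [e] at h3
    · obtain ⟨q1, q2⟩ := map_spR (Q := fun r : List (G m) => r.length = n2)
        (add' := (· + ·)) (smul' := fun k x => (k : ℝ) * x) (φ := rval w u2 v2)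
        (smul := gsmulL) (len_Q n2) (fun a b ha hb => rval_zadd w u2 v2 a b (ha.trans hb.symm))
        (len_Q' n2) (fun k a _ => rval_smul w u2 v2 k a) P hP
      obtain ⟨-, q3⟩ := map_spR (Q := fun _ : List (G m) => True)
        (add := zadd gadd) (smul := gsmulL)
        (add' := zadd Nat.add) (smul' := smulL) (φ := List.map (pk (K + 1)))
        (fun _ _ _ _ => trivial) (fun a b _ _ => map_pk_zadd (K + 1) a b)
        (fun _ _ _ => trivial) (fun k a _ => map_pk_smul (K + 1) k a) P (fun _ _ => trivial)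
      have h3 := ihb (spR (zadd gadd) gsmulL P) n2 q1 (by rw [q3]; exact h2) w hw
        ((u1 - v1) / 2) v1 u2 v2 (by linarith) hv1 hu2 hv2
      rw [q2, hev_spR] at h3
      have e : 2 * ((u1 - v1) / 2) + v1 = u1 := by ring
      rwa [e] at h3
  | n2 a b iha ihb =>
    intro P n2 hP h w hw u1 v1 u2 v2 hu1 hv1 hu2 hv2
    change (Bool.rec (motive := fun _ => Bool) false _ _) = true at h
    rw [brec_eq, Bool.and_eq_true] at h
    obtain ⟨h1, h2⟩ := h
    rw [mp_eq] at h1 h2
    rcases le_total u2 v2 with huv | huv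
    · have q1 : ∀ row ∈ P.map (spL gadd gsmul), row.length = n2 := by
        intro row hrow
        rw [List.mem_map] at hrow
        obtain ⟨r, hr, rfl⟩ := hrow
        rw [length_spL, hP r hr]
      have q2 : ∀ u v : ℝ, (P.map (spL gadd gsmul)).map (rval w u v)
          = P.map (rval w u (u + 2 * v)) := by
        intro u v
        rw [List.map_map]
        refine List.map_congr_left fun r _ => ?_
        change hev u v ((spL gadd gsmul r).map (fval w)) = _
        rw [(map_spL (Q := fun _ : G m => True) (add' := (· + ·))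
          (smul' := fun k x => (k : ℝ) * x) (φ := fval w) (fun _ _ _ _ => trivial)
          (fun a b _ _ => fval_gadd w a b) (fun _ _ _ => trivial)
          (fun k a _ => fval_gsmul w k a) r (fun _ _ => trivial)).2, hev_spL]
        rfl
      have q3 : (P.map (spL gadd gsmul)).map (List.map (pk (K + 1)))
          = (P.map (List.map (pk (K + 1)))).map (spL Nat.add Nat.mul) := by
        rw [List.map_map, List.map_map]
        refine List.map_congr_left fun r _ => ?_
        exact (map_spL (Q := fun _ : G m => True) (add' := Nat.add)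
          (smul' := Nat.mul) (φ := pk (K + 1)) (fun _ _ _ _ => trivial)
          (fun a b _ _ => pk_gadd (K + 1) a b) (fun _ _ _ => trivial)
          (fun k a _ => pk_gsmul (K + 1) k a) r (fun _ _ => trivial)).2
      have h3 := iha _ n2 q1 (by rw [q3]; exact h1) w hw u1 v1 u2 ((v2 - u2) / 2) hu1 hv1 hu2
        (by linarith)
      rw [q2] at h3
      have e : u2 + 2 * ((v2 - u2) / 2) = v2 := by ring
      rwa [e] at h3
    · have q1 : ∀ row ∈ P.map (spR gadd gsmul), row.length = n2 := by
        intro row hrow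
        rw [List.mem_map] at hrow
        obtain ⟨r, hr, rfl⟩ := hrow
        rw [length_spR, hP r hr]
      have q2 : ∀ u v : ℝ, (P.map (spR gadd gsmul)).map (rval w u v)
          = P.map (rval w (2 * u + v) v) := by
        intro u v
        rw [List.map_map]
        refine List.map_congr_left fun r _ => ?_
        change hev u v ((spR gadd gsmul r).map (fval w)) = _
        rw [(map_spR (Q := fun _ : G m => True) (add' := (· + ·))
          (smul' := fun k x => (k : ℝ) * x) (φ := fval w) (fun _ _ _ _ => trivial)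
          (fun a b _ _ => fval_gadd w a b) (fun _ _ _ => trivial)
          (fun k a _ => fval_gsmul w k a) r (fun _ _ => trivial)).2, hev_spR]
        rfl
      have q3 : (P.map (spR gadd gsmul)).map (List.map (pk (K + 1)))
          = (P.map (List.map (pk (K + 1)))).map (spR Nat.add Nat.mul) := by
        rw [List.map_map, List.map_map]
        refine List.map_congr_left fun r _ => ?_
        exact (map_spR (Q := fun _ : G m => True) (add' := Nat.add)
          (smul' := Nat.mul) (φ := pk (K + 1)) (fun _ _ _ _ => trivial)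
          (fun a b _ _ => pk_gadd (K + 1) a b) (fun _ _ _ => trivial)
          (fun k a _ => pk_gsmul (K + 1) k a) r (fun _ _ => trivial)).2
      have h3 := ihb _ n2 q1 (by rw [q3]; exact h2) w hw u1 v1 ((u2 - v2) / 2) v2 hu1 hv1
        (by linarith) hv2
      rw [q2] at h3
      have e : 2 * ((u2 - v2) / 2) + v2 = u2 := by ring
      rwa [e] at h3

/-! ## from integer polynomials in three variables -/

/-- negative part -/
def ngp (z : ℤ) : ℕ := Int.rec (motive := fun _ => ℕ) (fun _ => 0) (fun n => Nat.succ n) z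
/-- positive part -/
def psp (z : ℤ) : ℕ := Int.rec (motive := fun _ => ℕ) (fun n => n) (fun _ => 0) z

theorem psp_ngp (z : ℤ) : ((psp z : ℕ) : ℝ) - ((ngp z : ℕ) : ℝ) = (z : ℝ) := by
  cases z with
  | ofNat n => simp [psp, ngp]
  | negSucc n => simp [psp, ngp, Int.negSucc_eq]

def len {α : Type} (l : List α) : ℕ :=
  List.rec (motive := fun _ => ℕ) 0 (fun _ _ ih => Nat.succ ih) l

theorem len_eq {α : Type} (l : List α) : len l = l.length := by
  induction l with
  | nil => rfl
  | cons a l ih => change Nat.succ (len l) = _; rw [ih]; rfl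

def repl {α : Type} (z : α) (n : ℕ) : List α :=
  Nat.rec (motive := fun _ => List α) [] (fun _ ih => z :: ih) n

theorem repl_eq {α : Type} (z : α) (n : ℕ) : repl z n = List.replicate n z := by
  induction n with
  | zero => rfl
  | succ n ih => change z :: repl z n = _; rw [ih]; rfl

/-- pad with `z` up to length `n` -/
def padr {α : Type} (z : α) (l : List α) (n : ℕ) : List α :=
  List.rec (motive := fun _ => ℕ → List α) (fun n => repl z n)
    (fun a _ ih n => a :: ih (Nat.pred n)) l n

theorem padr_eq {α : Type} (z : α) (l : List α) (n : ℕ) :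
    padr z l n = l ++ List.replicate (n - l.length) z := by
  induction l generalizing n with
  | nil => exact repl_eq z n
  | cons a l ih =>
    change a :: padr z l (n - 1) = _
    rw [ih, List.cons_append, List.length_cons]
    congr 3
    omega

theorem length_padr {α : Type} (z : α) (l : List α) (n : ℕ) (h : l.length ≤ n) :
    (padr z l n).length = n := by
  rw [padr_eq, List.length_append, List.length_replicate]; omega

/-- pack the positive parts -/
def pkp (K : ℕ) (l : List ℤ) : ℕ :=
  List.rec (motive := fun _ => ℕ) 0 (fun z _ ih => Nat.add (psp z) (Nat.mul (Nat.pow 2 K) ih)) l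
def pkn (K : ℕ) (l : List ℤ) : ℕ :=
  List.rec (motive := fun _ => ℕ) 0 (fun z _ ih => Nat.add (ngp z) (Nat.mul (Nat.pow 2 K) ih)) l
def pks (l : List ℤ) : ℕ :=
  List.rec (motive := fun _ => ℕ) 0 (fun z _ ih => Nat.add (Nat.add (psp z) (ngp z)) ih) l

/-- packed entry of a coefficient list of length `m` -/
def pkc (K m : ℕ) (l : List ℤ) : ℕ :=
  Nat.add (Nat.add (pkp K l) (Nat.mul (Nat.pow 2 (Nat.mul K m)) (pkn K l)))
    (Nat.mul (Nat.pow 2 (Nat.mul 2 (Nat.mul K m))) (pks l))

def gc (m : ℕ) (l : List ℤ) : G m := fun i => (psp (l.getD i 0), ngp (l.getD i 0))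

theorem pkp_eq (K m : ℕ) (l : List ℤ) (h : l.length = m) :
    pkp K l = dig K (fun i : Fin m => psp (l.getD i 0)) := by
  induction l generalizing m with
  | nil => subst h; simp [pkp, dig]
  | cons z l ih =>
    subst h
    change psp z + 2 ^ K * pkp K l = _
    rw [List.length_cons, dig_succ, ih l.length rfl]
    simp

theorem pkn_eq (K m : ℕ) (l : List ℤ) (h : l.length = m) :
    pkn K l = dig K (fun i : Fin m => ngp (l.getD i 0)) := by
  induction l generalizing m with
  | nil => subst h; simp [pkn, dig]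
  | cons z l ih =>
    subst h
    change ngp z + 2 ^ K * pkn K l = _
    rw [List.length_cons, dig_succ, ih l.length rfl]
    simp

theorem pks_eq (m : ℕ) (l : List ℤ) (h : l.length = m) :
    pks l = ∑ i : Fin m, (psp (l.getD i 0) + ngp (l.getD i 0)) := by
  induction l generalizing m with
  | nil => subst h; simp [pks]
  | cons z l ih =>
    subst h
    change psp z + ngp z + pks l = _
    rw [List.length_cons, Fin.sum_univ_succ, ih l.length rfl]
    simp

theorem pkc_eq (K m : ℕ) (l : List ℤ) (h : l.length = m) : pkc K m l = pk K (gc m l) := by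
  change pkp K l + 2 ^ (K * m) * pkn K l + 2 ^ (2 * (K * m)) * pks l = _
  rw [pkp_eq K m l h, pkn_eq K m l h, pks_eq m l h]
  rfl

/-- weights -/
def wt (m : ℕ) (u v : ℝ) : Fin m → ℝ := fun i => u ^ (i : ℕ) * v ^ (m - 1 - (i : ℕ))

theorem fval_gc (m : ℕ) (l : List ℤ) (h : l.length = m) (u v : ℝ) :
    fval (wt m u v) (gc m l) = hev u v (l.map (fun z : ℤ => (z : ℝ))) := by
  rw [hev_sum (m := m) _ _ _ (by rw [List.length_map, h])]
  refine Finset.sum_congr rfl fun i _ => ?_
  rw [gc, psp_ngp, wt]
  congr 1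
  have : ((0 : ℤ) : ℝ) = 0 := by simp
  rw [← this, List.getD_map]

/-- coefficient list to Bernstein form on `[0,1]` -/
def bz (m : ℕ) (c : List ℤ) : List ℤ := shL Int.add (padr 0 c m)

theorem bz_len (m : ℕ) (c : List ℤ) (h : c.length ≤ m) : (bz m c).length = m := by
  rw [bz, length_shL, length_padr _ _ _ h]

theorem bz_eval (m : ℕ) (c : List ℤ) (y : ℝ) :
    hev y (1 - y) ((bz m c).map (fun z : ℤ => (z : ℝ))) = pev y (c.map (fun z : ℤ => (z : ℝ))) := by
  rw [bz, (map_shL (Q := fun _ : ℤ => True) (add := Int.add) (add' := (· + ·))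
    (φ := fun z : ℤ => (z : ℝ)) (fun _ _ _ _ => trivial)
    (fun a b _ _ => Int.cast_add a b) _ (fun _ _ => trivial)).2, hev_shL]
  have e : y + (1 - y) = 1 := by ring
  rw [e, hev_one, padr_eq, List.map_append, List.map_replicate, Int.cast_zero, pev_pad]

/-- evaluation in the last variable -/
def ev1 (y : ℝ) (c : List ℤ) : ℝ := pev y (c.map (fun z : ℤ => (z : ℝ)))
/-- evaluation in the last two variables -/
def ev2 (x y : ℝ) (q : List (List ℤ)) : ℝ := pev x (q.map (ev1 y))
/-- evaluation of a polynomial in three variables -/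
def ev3 (t x y : ℝ) (P : List (List (List ℤ))) : ℝ := pev t (P.map (ev2 x y))

theorem pk_zero (K m : ℕ) : pk K (fun _ : Fin m => ((0 : ℕ), (0 : ℕ))) = 0 := by
  simp [pk, dig]

/-- one row; `f` is a transformation of the coefficient lists in the last variable -/
def row (K m n2 k2 : ℕ) (f : List ℤ → List ℤ) (q : List (List ℤ)) : List ℕ :=
  shLk Nat.add k2 (padr 0 (mp (fun c => pkc K m (f c)) q) n2)

def chkf (K m n2 k1 k2 : ℕ) (t : T) (f : List ℤ → List ℤ) (P : List (List (List ℤ))) : Bool :=
  chkT (chkE K m) t (shLk (zadd Nat.add) k1 (mp (row (Nat.succ K) m n2 k2 f) P))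

/-- sizes -/
def szs (m n2 : ℕ) (P : List (List (List ℤ))) : Bool :=
  all (fun q => Bool.rec (motive := fun _ => Bool) false (all (fun c => Nat.ble (len c) m) q)
      (Nat.ble (len q) n2)) P

theorem szs_spec (m n2 : ℕ) (P : List (List (List ℤ))) (hs : szs m n2 P = true) :
    ∀ q ∈ P, q.length ≤ n2 ∧ ∀ c ∈ q, c.length ≤ m := by
  intro q hq
  have := all_spec _ _ hs q hq
  rw [brec_eq, Bool.and_eq_true] at this
  obtain ⟨a1, a2⟩ := this
  refine ⟨by rw [← len_eq]; exact Nat.le_of_ble_eq_true a1, fun c hc => ?_⟩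
  have := all_spec _ _ a2 c hc
  rw [← len_eq]; exact Nat.le_of_ble_eq_true this

/-- partial evaluation: the last variable through `f` -/
def evf (f : List ℤ → List ℤ) (x1 x2 u v : ℝ) (P : List (List (List ℤ))) : ℝ :=
  pev x1 (P.map (fun q => pev x2 (q.map (fun c => hev u v ((f c).map (fun z : ℤ => (z : ℝ)))))))

theorem chkf_sound (K m n2 k1 k2 : ℕ) (t : T) (f : List ℤ → List ℤ) (P : List (List (List ℤ)))
    (hf : ∀ c : List ℤ, c.length ≤ m → (f c).length = m)
    (hs1 : ∀ q ∈ P, q.length ≤ n2 ∧ ∀ c ∈ q, c.length ≤ m)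
    (hT : chkf K m n2 k1 k2 t f P = true) (x1 x2 u v : ℝ) (h1 : 0 ≤ x1) (h1' : k1 * x1 ≤ 1)
    (h2 : 0 ≤ x2) (h2' : k2 * x2 ≤ 1) (hu : 0 ≤ u) (hv : 0 ≤ v) : 0 ≤ evf f x1 x2 u v P := by
  unfold chkf at hT
  -- ghost tensor
  let zG : G m := fun _ => (0, 0)
  let gr : List (List ℤ) → List (G m) := fun q =>
    shLk gadd k2 (padr zG (q.map (fun c => gc m (f c))) n2)
  have hgr_len : ∀ q ∈ P, (gr q).length = n2 := by
    intro q hq
    simp only [gr]
    rw [length_shLk, length_padr _ _ _ (by rw [List.length_map]; exact (hs1 q hq).1)]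
  have hgr_pk : ∀ q ∈ P, (gr q).map (pk (K + 1)) = row (K + 1) m n2 k2 f q := by
    intro q hq
    simp only [gr]
    rw [(map_shLk (Q := fun _ : G m => True) (add' := Nat.add) (fun _ _ _ _ => trivial)
      (fun a b _ _ => pk_gadd (K + 1) a b) k2 _ (fun _ _ => trivial)).2, row, padr_eq, padr_eq,
      List.map_append, List.map_replicate, List.map_map, mp_eq, List.length_map,
      List.length_map, pk_zero]
    congr 2
    refine List.map_congr_left fun c hc => ?_
    exact (pkc_eq (K + 1) m _ (hf c ((hs1 q hq).2 c hc))).symm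
  have hgr_val : ∀ q ∈ P, ∀ y : ℝ, rval (wt m u v) x2 y (gr q)
      = hev x2 (y + k2 * x2) ((padr zG (q.map (fun c => gc m (f c))) n2).map
        (fval (wt m u v))) := by
    intro q hq y
    simp only [gr, rval]
    rw [(map_shLk (Q := fun _ : G m => True) (add' := (· + ·)) (φ := fval (wt m u v))
      (fun _ _ _ _ => trivial)
      (fun a b _ _ => fval_gadd (wt m u v) a b) k2 _ (fun _ _ => trivial)).2, hev_shLk]
  have hgr_val' : ∀ q ∈ P, rval (wt m u v) x2 (1 - k2 * x2) (gr q)
      = pev x2 (q.map (fun c => hev u v ((f c).map (fun z : ℤ => (z : ℝ))))) := by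
    intro q hq
    rw [hgr_val q hq]
    have e : 1 - (k2 : ℝ) * x2 + k2 * x2 = 1 := by ring
    rw [e, hev_one, padr_eq, List.map_append, List.map_replicate, List.map_map]
    have z0 : fval (wt m u v) zG = 0 := by simp [fval, zG]
    rw [z0, pev_pad]
    congr 1
    refine List.map_congr_left fun c hc => ?_
    change fval (wt m u v) (gc m (f c)) = _
    rw [fval_gc _ _ (hf c ((hs1 q hq).2 c hc))]
  -- outer level
  have hrow : ∀ r ∈ P.map gr, r.length = n2 := by
    intro r hr
    rw [List.mem_map] at hr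
    obtain ⟨q, hq, rfl⟩ := hr
    exact hgr_len q hq
  have hpk : (shLk (zadd gadd) k1 (P.map gr)).map (List.map (pk (K + 1)))
      = shLk (zadd Nat.add) k1 (mp (row (Nat.succ K) m n2 k2 f) P) := by
    rw [(map_shLk (Q := fun _ : List (G m) => True) (add' := zadd Nat.add)
      (fun _ _ _ _ => trivial) (fun a b _ _ => map_pk_zadd (K + 1) a b) k1 _
      (fun _ _ => trivial)).2, mp_eq, List.map_map]
    congr 1
    refine List.map_congr_left fun q hq => ?_
    exact hgr_pk q hq
  obtain ⟨hq1, hq2⟩ := map_shLk (Q := fun r : List (G m) => r.length = n2)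
    (add' := (· + ·)) (φ := rval (wt m u v) x2 (1 - k2 * x2)) (len_Q n2)
    (fun a b ha hb => rval_zadd _ _ _ a b (ha.trans hb.symm)) k1 (P.map gr) hrow
  have hfin := chkT_sound K m t (shLk (zadd gadd) k1 (P.map gr)) n2 hq1
    (by rw [hpk]; exact hT) (wt m u v)
    (fun i => mul_nonneg (pow_nonneg hu _) (pow_nonneg hv _))
    x1 (1 - k1 * x1) x2 (1 - k2 * x2) h1 (by linarith) h2 (by linarith)
  rw [hq2, hev_shLk] at hfin
  have e : 1 - (k1 : ℝ) * x1 + k1 * x1 = 1 := by ring
  rw [e, hev_one, List.map_map] at hfin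
  have e2 : P.map (rval (wt m u v) x2 (1 - k2 * x2) ∘ gr)
      = P.map (fun q => pev x2 (q.map (fun c => hev u v ((f c).map (fun z : ℤ => (z : ℝ)))))) :=
    List.map_congr_left fun q hq => hgr_val' q hq
  rw [e2] at hfin
  exact hfin

/-- trees with splits of the last variable at the top -/
inductive T3 where
  | base : T → T3
  | n3 : T3 → T3 → T3

def smulI (k : ℕ) (z : ℤ) : ℤ := Int.mul (Int.ofNat k) z

def chk3 (K m n2 k1 k2 : ℕ) (t : T3) : (List ℤ → List ℤ) → List (List (List ℤ)) → Bool :=
  T3.rec (motive := fun _ => (List ℤ → List ℤ) → List (List (List ℤ)) → Bool)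
    (fun t f P => chkf K m n2 k1 k2 t f P)
    (fun _ _ ca cb f P => Bool.rec (motive := fun _ => Bool) false
      (cb (fun c => spR Int.add smulI (f c)) P) (ca (fun c => spL Int.add smulI (f c)) P)) t

theorem castI_spL (u v : ℝ) (l : List ℤ) :
    hev u v ((spL Int.add smulI l).map (fun z : ℤ => (z : ℝ)))
      = hev u (u + 2 * v) (l.map (fun z : ℤ => (z : ℝ))) := by
  rw [(map_spL (Q := fun _ : ℤ => True) (add := Int.add) (add' := (· + ·)) (smul := smulI)
    (smul' := fun k x => (k : ℝ) * x) (φ := fun z : ℤ => (z : ℝ)) (fun _ _ _ _ => trivial)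
    (fun a b _ _ => Int.cast_add a b) (fun _ _ _ => trivial)
    (fun k a _ => by rw [smulI]; exact (Int.cast_mul _ _).trans (by simp)) _
    (fun _ _ => trivial)).2, hev_spL]

theorem castI_spR (u v : ℝ) (l : List ℤ) :
    hev u v ((spR Int.add smulI l).map (fun z : ℤ => (z : ℝ)))
      = hev (2 * u + v) v (l.map (fun z : ℤ => (z : ℝ))) := by
  rw [(map_spR (Q := fun _ : ℤ => True) (add := Int.add) (add' := (· + ·)) (smul := smulI)
    (smul' := fun k x => (k : ℝ) * x) (φ := fun z : ℤ => (z : ℝ)) (fun _ _ _ _ => trivial)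
    (fun a b _ _ => Int.cast_add a b) (fun _ _ _ => trivial)
    (fun k a _ => by rw [smulI]; exact (Int.cast_mul _ _).trans (by simp)) _
    (fun _ _ => trivial)).2, hev_spR]

theorem chk3_sound (K m n2 k1 k2 : ℕ) (P : List (List (List ℤ)))
    (hs1 : ∀ q ∈ P, q.length ≤ n2 ∧ ∀ c ∈ q, c.length ≤ m) (x1 x2 : ℝ) (h1 : 0 ≤ x1)
    (h1' : k1 * x1 ≤ 1) (h2 : 0 ≤ x2) (h2' : k2 * x2 ≤ 1) (t : T3) :
    ∀ (f : List ℤ → List ℤ), (∀ c : List ℤ, c.length ≤ m → (f c).length = m) →
    chk3 K m n2 k1 k2 t f P = true → ∀ u v : ℝ, 0 ≤ u → 0 ≤ v → 0 ≤ evf f x1 x2 u v P := by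
  induction t with
  | base t =>
    intro f hf hT u v hu hv
    exact chkf_sound K m n2 k1 k2 t f P hf hs1 hT x1 x2 u v h1 h1' h2 h2' hu hv
  | n3 a b iha ihb =>
    intro f hf hT u v hu hv
    change (Bool.rec (motive := fun _ => Bool) false _ _) = true at hT
    rw [brec_eq, Bool.and_eq_true] at hT
    obtain ⟨hTa, hTb⟩ := hT
    rcases le_total u v with huv | huv
    · have h := iha (fun c => spL Int.add smulI (f c))
        (fun c hc => by rw [length_spL, hf c hc]) hTa u ((v - u) / 2) hu (by linarith)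
      have e : u + 2 * ((v - u) / 2) = v := by ring
      simpa only [evf, castI_spL, e] using h
    · have h := ihb (fun c => spR Int.add smulI (f c))
        (fun c hc => by rw [length_spR, hf c hc]) hTb ((u - v) / 2) v (by linarith) hv
      have e : 2 * ((u - v) / 2) + v = u := by ring
      simpa only [evf, castI_spR, e] using h

def chk (K m n2 k1 k2 : ℕ) (t : T3) (P : List (List (List ℤ))) : Bool :=
  Bool.rec (motive := fun _ => Bool) false (chk3 K m n2 k1 k2 t (bz m) P) (szs m n2 P)

theorem chk_sound (K m n2 k1 k2 : ℕ) (t : T3) (P : List (List (List ℤ)))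
    (h : chk K m n2 k1 k2 t P = true) (x1 x2 x3 : ℝ) (h1 : 0 ≤ x1) (h1' : k1 * x1 ≤ 1)
    (h2 : 0 ≤ x2) (h2' : k2 * x2 ≤ 1) (h3 : 0 ≤ x3) (h3' : x3 ≤ 1) : 0 ≤ ev3 x1 x2 x3 P := by
  unfold chk at h
  rw [brec_eq, Bool.and_eq_true] at h
  have h5 := chk3_sound K m n2 k1 k2 P (szs_spec m n2 P h.1) x1 x2 h1 h1' h2 h2' t (bz m)
    (fun c hc => bz_len m c hc) h.2 x3 (1 - x3) h3 (by linarith)
  have e : evf (bz m) x1 x2 x3 (1 - x3) P = ev3 x1 x2 x3 P := by
    unfold evf ev3 ev2 ev1
    simp only [bz_eval]
  rwa [e] at h5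

end

end Vale.Agent.Lib.P219.Bern
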