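import Vale.Agent.Lib.P219.Ce.Poly

/-! # P219 certificates: the polynomials of a certificate and their meaning -/

namespace Vale.Agent.Lib.P219.Bern

noncomputable section

/-- integer difference of naturals -/
def i2 (a b : ℕ) : ℤ := Int.subNatNat a b

theorem i2_cast (a b : ℕ) : ((i2 a b : ℤ) : ℝ) = (a : ℝ) - b := by
  rw [i2, Int.subNatNat_eq_coe]; push_cast; ring

/-- indicator of `0` -/
def zi (j : ℕ) : ℤ := Nat.rec (motive := fun _ => ℤ) 1 (fun _ _ => 0) j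

theorem zi_cast (j : ℕ) : ((zi j : ℤ) : ℝ) = if j = 0 then 1 else 0 := by
  cases j <;> simp [zi]

section T
variable {α : Type} (R : Rg α) (n : ℕ)

/-! both cosines nonnegative -/
def TeP (s p : α) (j : ℕ) : α := R.mul (R.ofI (i2 1 n)) (Es R s p 1 j)
def TrP (s p : α) (j : ℕ) : α := R.sub (Es R s p 0 j) (Es R s p 2 j)
def TqP (s p : α) (j : ℕ) : α :=
  R.add (R.mul (R.ofI (i2 n 2)) (Es R s p 0 j)) (R.add (R.mul (R.ofI (i2 1 j)) (Es R s p 2 j))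
    (R.mul (R.ofI (Int.ofNat j)) (Es R s p 1 (Nat.pred j))))

/-! `c ≥ 0`, `c' = -w` -/
def TeM (c w : α) (j : ℕ) : α :=
  R.mul (R.ofI (i2 n 1)) (R.sub (R.mul w (pw R c j)) (R.mul (R.ofI (zi j)) c))
def TrM (c w : α) (j : ℕ) : α :=
  R.add (R.mul (R.ofI (zi j)) (R.sub (R.ofI 1) (R.mul c c)))
    (R.mul (pw R c j) (R.sub (R.ofI 1) (R.mul w w)))
def TqM (c w : α) (j : ℕ) : α :=
  R.add (R.mul (R.ofI (zi j)) (R.add (R.ofI (i2 n 2)) (R.mul c c)))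
    (R.add (R.mul (pw R c j) (R.add (R.ofI (i2 n 2)) (R.mul (R.ofI (i2 1 j)) (R.mul w w))))
      (R.mul (R.ofI (Int.ofNat j)) (R.mul w (pw R c (Nat.pred j)))))

/-! `c = -v`, `c' = -w` -/
def TeN (v w : α) (j : ℕ) : α := R.mul (R.ofI (zi j)) (R.mul (R.ofI (i2 n 1)) (R.add v w))
def TrN (v w : α) (j : ℕ) : α :=
  R.mul (R.ofI (zi j)) (R.sub (R.ofI 2) (R.add (R.mul v v) (R.mul w w)))
def TqN (v w : α) (j : ℕ) : α :=
  R.mul (R.ofI (zi j)) (R.add (R.mul (R.ofI 2) (R.ofI (i2 n 2))) (R.add (R.mul v v) (R.mul w w)))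

def TeE (c : α) (j : ℕ) : α := pw R c j
def TeC (c : α) (j : ℕ) : α := R.mul (R.ofI (i2 0 j)) (pw R c (Nat.sub j 2))
def Tz (_ : ℕ) : α := R.zero

/-- `f(c) + f(c')` -/
def fsm (s p : α) (fs : List (ℕ × ℤ)) : α :=
  List.rec (motive := fun _ => α) R.zero
    (fun kz _ ih => R.add (R.mul (R.ofI kz.2) (psm R s p kz.1).1) ih) fs

variable {R} {e : α → ℝ} (h : IsEv R e)
include h

theorem eTeP (s p : α) (c d : ℝ) (hs : e s = c + d) (hp : e p = c * d) (j : ℕ) :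
    e (TeP R n s p j) = (1 - n) * (c * d ^ j + c ^ j * d) := by
  rw [TeP, h.mul, h.ofI, i2_cast, h.Es s p c d hs hp]; simp

theorem eTrP (s p : α) (c d : ℝ) (hs : e s = c + d) (hp : e p = c * d) (j : ℕ) :
    e (TrP R s p j) = (d ^ j + c ^ j) - (c ^ 2 * d ^ j + c ^ j * d ^ 2) := by
  rw [TrP, h.sub, h.Es s p c d hs hp, h.Es s p c d hs hp]; simp

theorem eTqP (s p : α) (c d : ℝ) (hs : e s = c + d) (hp : e p = c * d) (j : ℕ) :
    e (TqP R n s p j) = (n - 2) * (d ^ j + c ^ j) + (1 - j) * (c ^ 2 * d ^ j + c ^ j * d ^ 2)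
      + j * (c * d ^ (j - 1) + c ^ (j - 1) * d) := by
  rw [TqP, h.add, h.add, h.mul, h.mul, h.mul, h.ofI, h.ofI, h.ofI, i2_cast, i2_cast,
    h.Es s p c d hs hp, h.Es s p c d hs hp, h.Es s p c d hs hp]
  simp
  ring

theorem eTeM (c w : α) (j : ℕ) :
    e (TeM R n c w j) = (n - 1) * (e w * e c ^ j - (if j = 0 then 1 else 0) * e c) := by
  rw [TeM, h.mul, h.ofI, i2_cast, h.sub, h.mul, h.mul, h.ofI, h.pw, zi_cast]; simp

theorem eTrM (c w : α) (j : ℕ) :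
    e (TrM R c w j) = (if j = 0 then 1 else 0) * (1 - e c ^ 2) + e c ^ j * (1 - e w ^ 2) := by
  rw [TrM, h.add, h.mul, h.mul, h.ofI, h.sub, h.sub, h.ofI, h.mul, h.mul, h.pw, zi_cast]
  push_cast; ring

theorem eTqM (c w : α) (j : ℕ) :
    e (TqM R n c w j) = (if j = 0 then 1 else 0) * (n - 2 + e c ^ 2)
      + e c ^ j * (n - 2 + (1 - j) * e w ^ 2) + j * (e w * e c ^ (j - 1)) := by
  rw [TqM, h.add, h.add, h.mul, h.mul, h.mul, h.mul, h.ofI, h.ofI, h.add, h.add, h.ofI, h.mul,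
    h.mul, h.ofI, h.mul, h.pw, h.pw, i2_cast, i2_cast, zi_cast]
  simp
  ring_nf

theorem eTeN (v w : α) (j : ℕ) :
    e (TeN R n v w j) = (if j = 0 then 1 else 0) * ((n - 1) * (e v + e w)) := by
  rw [TeN, h.mul, h.mul, h.ofI, h.ofI, i2_cast, h.add, zi_cast]; simp

theorem eTrN (v w : α) (j : ℕ) :
    e (TrN R v w j) = (if j = 0 then 1 else 0) * (2 - (e v ^ 2 + e w ^ 2)) := by
  rw [TrN, h.mul, h.sub, h.ofI, h.ofI, h.add, h.mul, h.mul, zi_cast]; push_cast; ring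

theorem eTqN (v w : α) (j : ℕ) :
    e (TqN R n v w j) = (if j = 0 then 1 else 0) * (2 * (n - 2) + (e v ^ 2 + e w ^ 2)) := by
  rw [TqN, h.mul, h.add, h.mul, h.ofI, h.ofI, h.ofI, i2_cast, h.add, h.mul, h.mul, zi_cast]
  push_cast; ring

theorem eTeE (c : α) (j : ℕ) : e (TeE R c j) = e c ^ j := h.pw c j

theorem eTeC (c : α) (j : ℕ) : e (TeC R c j) = -j * e c ^ (j - 2) := by
  rw [TeC, h.mul, h.ofI, i2_cast, h.pw]; simp

theorem efsm (s p : α) (c d : ℝ) (hs : e s = c + d) (hp : e p = c * d) (fs : List (ℕ × ℤ)) :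
    e (fsm R s p fs) = sev c fs + sev d fs := by
  induction fs with
  | nil => simp [fsm, sev, h.zero]
  | cons kz fs ih =>
    change e (R.add (R.mul (R.ofI kz.2) (psm R s p kz.1).1) (fsm R s p fs)) = _
    rw [h.add, h.mul, h.ofI, (h.psm s p c d hs hp _).1, ih, sev, sev, sev, sev, List.map_cons,
      List.sum_cons, List.map_cons, List.sum_cons]
    ring

end T

/-! ## the data and the polynomials -/

/-- `η = Σ coef r^(e-(n-5)) (c₊)^j` (`mon` lists `(coef, e, j)`), constants `a`, `d`, and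
`f(c) = Σ z c^k` (`fs` lists `(k, z)`). For strictness: `am < a` and `ep > 0`. -/
structure Data where
  n : ℕ
  mon : List (ℤ × ℕ × ℕ)
  a : ℤ
  am : ℤ
  d : ℤ
  ep : ℤ
  fs : List (ℕ × ℤ)

/-- the first piece (variable `r`, factor `r^(n-4)`) -/
def mo1 (n : ℕ) (t : ℤ × ℕ × ℕ) : Mo :=
  ⟨[(Nat.succ t.2.1, t.1)], [(t.2.1, Int.mul t.1 (i2 (Nat.add t.2.1 5) n))], [(t.2.1, t.1)], t.2.2⟩

/-- kernel polynomial on a piece for `c, c' ≥ 0` -/
def bpp {α : Type} (R : Rg α) (n : ℕ) (a : ℤ) (s p : α) (H : List (ℕ × ℤ)) (M : List Mo) : List α :=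
  asm R (TeP R n s p) (TrP R s p) (TqP R n s p) (R.ofI (Int.mul 2 a)) H M

def bpm {α : Type} (R : Rg α) (n : ℕ) (a : ℤ) (c w : α) (H : List (ℕ × ℤ)) (M : List Mo) : List α :=
  asm R (TeM R n c w) (TrM R c w) (TqM R n c w) (R.ofI (Int.mul 2 a)) H M

def bmm {α : Type} (R : Rg α) (n : ℕ) (a : ℤ) (v w : α) (H : List (ℕ × ℤ)) (M : List Mo) : List α :=
  asm R (TeN R n v w) (TrN R v w) (TqN R n v w) (R.ofI (Int.mul 2 a)) H M

def pet {α : Type} (R : Rg α) (c : α) (M : List Mo) : List α :=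
  asm R (TeE R c) (Tz R) (Tz R) R.zero [] M

def pec {α : Type} (R : Rg α) (c : α) (M : List Mo) : List α :=
  asm R (TeC R c) (Tz R) (Tz R) R.zero [] M

/-- chord polynomial, first piece -/
def fl1 {α : Type} (R : Rg α) (n : ℕ) (a d : ℤ) (fs : List (ℕ × ℤ)) (s p : α)
    (H : List (ℕ × ℤ)) (M : List Mo) : List α :=
  zadd R.add [R.mul (R.ofI 2) (R.mul p (fsm R s p fs)), R.mul (R.ofI (Int.mul (-2) d)) p]
    (R.zero :: R.zero :: R.zero :: bpp R n a s p H M)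

/-- perturbation `-ε c c' ((r-c-c')² + (c-c')²)` as a polynomial in `r` -/
def pert1 {α : Type} (R : Rg α) (ep : ℤ) (s p : α) : List α :=
  [R.mul (R.mul (R.ofI ep) p) (R.sub (R.mul (R.ofI 4) p) (R.mul (R.ofI 2) (R.mul s s))),
   R.mul (R.mul (R.ofI ep) p) (R.mul (R.ofI 2) s), R.mul (R.ofI (-1)) (R.mul (R.ofI ep) p)]

theorem pert1_eq {α : Type} {R : Rg α} {e : α → ℝ} (h : IsEv R e) (ep : ℤ) (s p : α) (r c d : ℝ)
    (hs : e s = c + d) (hp : e p = c * d) :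
    pev r ((pert1 R ep s p).map e) = -(ep * (c * d) * ((r - c - d) ^ 2 + (c - d) ^ 2)) := by
  simp only [pert1, List.map_cons, List.map_nil, pev, h.mul, h.sub, h.ofI, hs, hp]
  push_cast
  ring

/-- perturbed chord polynomial -/
def fl1p {α : Type} (R : Rg α) (n : ℕ) (a d ep : ℤ) (fs : List (ℕ × ℤ)) (s p : α)
    (H : List (ℕ × ℤ)) (M : List Mo) : List α :=
  zadd R.add (pert1 R ep s p) (fl1 R n a d fs s p H M)

/-- the variables -/
def X1 : List (List (List ℤ)) := [[], [[1]]]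
def X2 : List (List (List ℤ)) := [[[], [1]]]
def X3 : List (List (List ℤ)) := [[[0, 1]]]

theorem ev_X1 (t x y : ℝ) : ev3 t x y X1 = t := by simp [ev3, ev2, ev1, pev, X1]
theorem ev_X2 (t x y : ℝ) : ev3 t x y X2 = x := by simp [ev3, ev2, ev1, pev, X2]
theorem ev_X3 (t x y : ℝ) : ev3 t x y X3 = y := by simp [ev3, ev2, ev1, pev, X3]

/-- `2X` and `X²κ` -/
def sI : List (List (List ℤ)) := R3.mul (R3.ofI 2) X2
def pI : List (List (List ℤ)) := R3.mul (R3.mul X2 X2) X3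
/-- `2-2X` and `1-2X+X²κ` -/
def sII : List (List (List ℤ)) := R3.sub (R3.ofI 2) sI
def pII : List (List (List ℤ)) := R3.add (R3.sub (R3.ofI 1) sI) pI

theorem ev_sI (t x y : ℝ) : ev3 t x y sI = 2 * x := by
  rw [sI, (isEv3 t x y).mul, (isEv3 t x y).ofI, ev_X2]; norm_num
theorem ev_pI (t x y : ℝ) : ev3 t x y pI = x ^ 2 * y := by
  rw [pI, (isEv3 t x y).mul, (isEv3 t x y).mul, ev_X2, ev_X3]; ring
theorem ev_sII (t x y : ℝ) : ev3 t x y sII = 2 - 2 * x := by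
  rw [sII, (isEv3 t x y).sub, (isEv3 t x y).ofI, ev_sI]; norm_num
theorem ev_pII (t x y : ℝ) : ev3 t x y pII = 1 - 2 * x + x ^ 2 * y := by
  rw [pII, (isEv3 t x y).add, (isEv3 t x y).sub, (isEv3 t x y).ofI, ev_sI, ev_pI]; norm_num

/-- a kernel-checked polynomial inequality on `[0,1/k1] × [0,1/k2] × [0,1]` -/
def Chk (k1 k2 : ℕ) (P : List (List (List ℤ))) : Prop :=
  ∃ K m n2 : ℕ, ∃ t : T3, chk K m n2 k1 k2 t P = true

theorem Chk.nonneg {k1 k2 : ℕ} {P : List (List (List ℤ))} (h : Chk k1 k2 P) (x1 x2 x3 : ℝ)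
    (h1 : 0 ≤ x1) (h1' : k1 * x1 ≤ 1) (h2 : 0 ≤ x2) (h2' : k2 * x2 ≤ 1) (h3 : 0 ≤ x3)
    (h3' : x3 ≤ 1) : 0 ≤ ev3 x1 x2 x3 P := by
  obtain ⟨K, m, n2, t, h⟩ := h
  exact chk_sound K m n2 k1 k2 t P h x1 x2 x3 h1 h1' h2 h2' h3 h3'

namespace Data
variable (D : Data)

def M1 : List Mo := mp (mo1 D.n) D.mon
def H1 : List (ℕ × ℤ) := [(Nat.sub D.n 4, 1)]

/-- polynomials of the first piece; `r = x1` resp. `r = s x1` -/
def qB1 : List (List (List ℤ)) := hor R3 X1 (bpp R3 D.n D.am sI pI D.H1 D.M1)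
def qB2 : List (List (List ℤ)) := hor R3 X1 (bpp R3 D.n D.am sII pII D.H1 D.M1)
def qFa : List (List (List ℤ)) :=
  hor R3 (R3.mul (R3.mul (R3.ofI 2) sI) X1) (fl1p R3 D.n D.a D.d D.ep D.fs sI pI D.H1 D.M1)
def qFb : List (List (List ℤ)) :=
  hor R3 (R3.mul (R3.ofI 2) X1) (fl1p R3 D.n D.a D.d D.ep D.fs (R3.mul (R3.mul (R3.ofI 2) X1) X2)
    (R3.mul (R3.mul (R3.mul X1 X2) (R3.mul X1 X2)) X3) D.H1 D.M1)
def qFc : List (List (List ℤ)) :=
  hor R3 (R3.add (R3.ofI 2) X1) (fl1p R3 D.n D.a D.d D.ep D.fs sI pI D.H1 D.M1)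
def qF2 : List (List (List ℤ)) :=
  hor R3 (R3.mul sII X1) (fl1p R3 D.n D.a D.d D.ep D.fs sII pII D.H1 D.M1)
def qM : List (List (List ℤ)) := hor R3 X1 (bpm R3 D.n D.am X2 X3 D.H1 D.M1)
def qN : List (List (List ℤ)) := hor R3 X1 (bmm R3 D.n D.am X2 X3 D.H1 D.M1)
def qE : List (List (List ℤ)) := hor R3 X1 (pet R3 X2 D.M1)
def qC : List (List (List ℤ)) := hor R3 X1 (pec R3 X2 D.M1)
def qf : List (List (List ℤ)) := hor R3 X2 (spl R3 (R3.ofI 1) D.fs)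

end Data

end

end Vale.Agent.Lib.P219.Bern
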