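import Vale.Agent.Lib.P219.Defs

/-! # P219 certificates: unregularised certificates and the cutoff -/

namespace Vale.Agent.Lib.P219

open MeasureTheory Set Filter Topology

/-- An unregularised certificate: `η` is only given for `r > 0` and may be singular at `r = 0`. -/
structure RawCert (n : ℕ) where
  η : ℝ → ℝ → ℝ
  ηr : ℝ → ℝ → ℝ
  ηc : ℝ → ℝ → ℝ
  smooth : ContDiffOn ℝ 1 (fun p : ℝ × ℝ => η p.1 p.2) (Ioi 0 ×ˢ univ)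
  deriv_r : ∀ r c, 0 < r → HasDerivAt (fun s => η s c) (ηr r c) r
  deriv_c : ∀ r c, 0 < r → HasDerivAt (fun s => η r s) (ηc r c) c
  bound : ∀ δ > 0, ∃ M : ℝ, ∀ r c, δ ≤ r → |c| ≤ 1 →
    η r c ≤ M ∧ |ηr r c| ≤ M ∧ |ηc r c| ≤ M
  η_nonneg : ∀ r c, 0 < r → |c| ≤ 1 → 0 ≤ η r c
  a : ℝ
  a_pos : 0 < a
  d : ℝ
  d_pos : 0 < d
  f : ℝ → ℝ
  f_cont : Continuous f
  f_nonneg : ∀ c, 0 ≤ f c
  B_nonneg : ∀ r c c', 0 < r → |c| ≤ 1 → |c'| ≤ 1 →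
    0 ≤ a + ((ηr r c' * (1 - c ^ 2) + η r c' / r * (n - 2 + c ^ 2)
        - |c| * |ηc r c'| * Real.sqrt ((1 - c ^ 2) * (1 - c' ^ 2)) / r - (n - 1) * c * η r c')
      + (ηr r c * (1 - c' ^ 2) + η r c / r * (n - 2 + c' ^ 2)
        - |c'| * |ηc r c| * Real.sqrt ((1 - c' ^ 2) * (1 - c ^ 2)) / r - (n - 1) * c' * η r c)) / 2
  B_lower : ∀ r c c', 0 < r → 0 < c → c ≤ 1 → 0 < c' → c' ≤ 1 →
    c * c' * (d * r - f c - f c') ≤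
      (a + ((ηr r c' * (1 - c ^ 2) + η r c' / r * (n - 2 + c ^ 2)
        - |c| * |ηc r c'| * Real.sqrt ((1 - c ^ 2) * (1 - c' ^ 2)) / r - (n - 1) * c * η r c')
      + (ηr r c * (1 - c' ^ 2) + η r c / r * (n - 2 + c' ^ 2)
        - |c'| * |ηc r c| * Real.sqrt ((1 - c' ^ 2) * (1 - c ^ 2)) / r - (n - 1) * c' * η r c)) / 2)
        * r ^ (n - 1)
  final : ∀ e : Ev n, ‖e‖ = 1 → a * (n * om n)
    + ∫ ω : Metric.sphere (0 : Ev n) 1, |inner ℝ (ω : Ev n) e| * f |inner ℝ (ω : Ev n) e|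
      ∂(volume : Measure (Ev n)).toSphere ≤ d * om n

end Vale.Agent.Lib.P219
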