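import Mathlib.Algebra.Order.Archimedean.Real.Hom
import Mathlib.Algebra.Order.Ring.Star
import Mathlib.Algebra.Order.Star.Real
import Mathlib.Analysis.Calculus.LineDeriv.IntegrationByParts
import Mathlib.Analysis.InnerProductSpace.Calculus
import Mathlib.Analysis.SpecialFunctions.Gaussian.FourierTransform
import Mathlib.MeasureTheory.Integral.Gamma
import Vale.Agent.Lib.P219.A.Polar

/-! # P219 certificates: moments of the sphere measure -/

namespace Vale.Agent.Lib.P219

open MeasureTheory Set Filter Topology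

private theorem sm_gauss_integrable (n : ℕ) :
    Integrable (fun x : Ev n => Real.exp (-(1 / 2) * ‖x‖ ^ 2)) := by
  have h := GaussianFourier.integrable_cexp_neg_mul_sq_norm_add (V := Ev n) (b := (1 / 2 : ℂ))
    (by norm_num) 0 0
  have h2 := h.norm
  refine h2.congr (Eventually.of_forall fun x => ?_)
  simp only [Complex.norm_exp]
  congr 1
  simp [← Complex.ofReal_pow]

private theorem sm_bound (k : ℕ) (s : ℝ) {t : ℝ} (ht : |s| ≤ t) :
    |s ^ k * Real.exp (-t ^ 2)| ≤
      ((k.factorial : ℝ) * Real.exp (1 / 2)) * Real.exp (-(1 / 2) * t ^ 2) := by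
  have h0 : 0 ≤ t := le_trans (abs_nonneg s) ht
  have h1 : |s| ^ k ≤ t ^ k := pow_le_pow_left₀ (abs_nonneg s) ht k
  have h2 : t ^ k ≤ (k.factorial : ℝ) * Real.exp t := by
    have h := Real.pow_div_factorial_le_exp t h0 k
    rw [div_le_iff₀ (by positivity)] at h
    linarith
  have h3 : Real.exp t * Real.exp (-t ^ 2) ≤ Real.exp (1 / 2) * Real.exp (-(1 / 2) * t ^ 2) := by
    rw [← Real.exp_add, ← Real.exp_add]
    apply Real.exp_le_exp.2
    nlinarith [sq_nonneg (t - 1)]
  rw [abs_mul, abs_pow, abs_of_pos (Real.exp_pos _)]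
  calc |s| ^ k * Real.exp (-t ^ 2) ≤ ((k.factorial : ℝ) * Real.exp t) * Real.exp (-t ^ 2) :=
        mul_le_mul_of_nonneg_right (h1.trans h2) (Real.exp_pos _).le
    _ = (k.factorial : ℝ) * (Real.exp t * Real.exp (-t ^ 2)) := by ring
    _ ≤ (k.factorial : ℝ) * (Real.exp (1 / 2) * Real.exp (-(1 / 2) * t ^ 2)) :=
        mul_le_mul_of_nonneg_left h3 (by positivity)
    _ = _ := by ring

private theorem sm_integrable {n : ℕ} (e : Ev n) (he : ‖e‖ = 1) (k : ℕ) :
    Integrable (fun x : Ev n => (inner ℝ x e) ^ k * Real.exp (-‖x‖ ^ 2)) := by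
  have h1 := (sm_gauss_integrable n).const_mul ((k.factorial : ℝ) * Real.exp (1 / 2))
  refine h1.mono' ?_ (Eventually.of_forall fun x => ?_)
  · apply Continuous.aestronglyMeasurable
    fun_prop
  · rw [Real.norm_eq_abs]
    apply sm_bound
    have := abs_real_inner_le_norm x e
    rwa [he, mul_one] at this

private theorem sm_fderiv_pow {n : ℕ} (e : Ev n) (he : ‖e‖ = 1) (k : ℕ) (x : Ev n) :
    fderiv ℝ (fun x : Ev n => (inner ℝ x e) ^ (k + 1)) x e = (k + 1) * (inner ℝ x e) ^ k := by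
  have h0 : HasFDerivAt (fun x : Ev n => inner ℝ x e) (innerSL ℝ e) x := by
    have h := (innerSL ℝ e).hasFDerivAt (x := x)
    refine h.congr_of_eventuallyEq (Eventually.of_forall fun y => ?_)
    rw [innerSL_apply_apply, real_inner_comm]
  have h1 := h0.pow (k + 1)
  rw [h1.fderiv]
  simp [he]

private theorem sm_fderiv_exp {n : ℕ} (e : Ev n) (x : Ev n) :
    fderiv ℝ (fun x : Ev n => Real.exp (-‖x‖ ^ 2)) x e
      = -2 * inner ℝ x e * Real.exp (-‖x‖ ^ 2) := by
  have h0 : HasFDerivAt (fun x : Ev n => -‖x‖ ^ 2) (-(2 • innerSL ℝ x)) x :=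
    (hasStrictFDerivAt_norm_sq x).hasFDerivAt.neg
  have h1 := h0.exp
  rw [h1.fderiv]
  simp
  ring

/-- integration by parts -/
private theorem sm_ibp {n : ℕ} (e : Ev n) (he : ‖e‖ = 1) (m : ℕ) :
    ∫ x : Ev n, (inner ℝ x e) ^ (2 * m + 2) * Real.exp (-‖x‖ ^ 2)
      = (2 * m + 1) / 2 * ∫ x : Ev n, (inner ℝ x e) ^ (2 * m) * Real.exp (-‖x‖ ^ 2) := by
  have h := integral_mul_fderiv_eq_neg_fderiv_mul_of_integrable (μ := (volume : Measure (Ev n)))
    (f := fun x : Ev n => (inner ℝ x e) ^ (2 * m + 1)) (g := fun x : Ev n => Real.exp (-‖x‖ ^ 2))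
    (v := e) ?_ ?_ ?_ ?_ ?_
  · simp only [sm_fderiv_pow e he, sm_fderiv_exp] at h
    have e1 : ∫ x : Ev n, (inner ℝ x e) ^ (2 * m + 1) * (-2 * inner ℝ x e * Real.exp (-‖x‖ ^ 2))
        = -2 * ∫ x : Ev n, (inner ℝ x e) ^ (2 * m + 2) * Real.exp (-‖x‖ ^ 2) := by
      rw [← integral_const_mul]
      apply integral_congr_ae
      refine Eventually.of_forall fun x => ?_
      simp only
      ring
    have e2 : ∫ x : Ev n, (((2 * m : ℕ) : ℝ) + 1) * (inner ℝ x e) ^ (2 * m) * Real.exp (-‖x‖ ^ 2)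
        = (2 * m + 1) * ∫ x : Ev n, (inner ℝ x e) ^ (2 * m) * Real.exp (-‖x‖ ^ 2) := by
      rw [← integral_const_mul]
      apply integral_congr_ae
      refine Eventually.of_forall fun x => ?_
      simp only
      push_cast
      ring
    rw [e1, e2] at h
    linarith
  · simp only [sm_fderiv_pow e he]
    have := (sm_integrable e he (2 * m)).const_mul (((2 * m : ℕ) : ℝ) + 1)
    refine this.congr (Eventually.of_forall fun x => ?_)
    simp only
    ring
  · simp only [sm_fderiv_exp]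
    have := (sm_integrable e he (2 * m + 2)).const_mul (-2)
    refine this.congr (Eventually.of_forall fun x => ?_)
    simp only
    ring
  · exact sm_integrable e he (2 * m + 1)
  · intro x _
    have h0 : DifferentiableAt ℝ (fun x : Ev n => inner ℝ x e) x :=
      differentiableAt_id.inner ℝ (differentiableAt_const e)
    exact h0.pow (2 * m + 1)
  · intro x _
    have : Differentiable ℝ (fun x : Ev n => ‖x‖ ^ 2) :=
      (contDiff_norm_sq ℝ (n := 1)).differentiable (by norm_num)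
    exact ((this x).neg).exp

/-- radial integrals -/
private noncomputable def smR (k : ℕ) : ℝ := ∫ t in Ioi (0 : ℝ), t ^ k * Real.exp (-t ^ 2)

private theorem smR_eq (k : ℕ) : smR k = 1 / 2 * Real.Gamma (((k : ℝ) + 1) / 2) := by
  have h := integral_rpow_mul_exp_neg_rpow (p := 2) (q := (k : ℝ)) (by norm_num)
    (lt_of_lt_of_le (by norm_num) (Nat.cast_nonneg k))
  rw [← h]
  unfold smR
  apply setIntegral_congr_fun measurableSet_Ioi
  intro t _
  simp only
  rw [Real.rpow_natCast, Real.rpow_two]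

private theorem smR_pos (k : ℕ) : 0 < smR k := by
  rw [smR_eq]
  have : 0 < Real.Gamma (((k : ℝ) + 1) / 2) := Real.Gamma_pos_of_pos (by positivity)
  positivity

private theorem smR_rec (k : ℕ) : smR (k + 2) = ((k : ℝ) + 1) / 2 * smR k := by
  rw [smR_eq, smR_eq]
  have h1 : (((k + 2 : ℕ) : ℝ) + 1) / 2 = ((k : ℝ) + 1) / 2 + 1 := by
    push_cast
    ring
  have h2 : ((k : ℝ) + 1) / 2 ≠ 0 := by positivity
  rw [h1, Real.Gamma_add_one h2]
  ring

private theorem sm_polar {n : ℕ} (hn : 1 ≤ n) (e : Ev n) (he : ‖e‖ = 1) (k : ℕ) :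
    ∫ x : Ev n, (inner ℝ x e) ^ k * Real.exp (-‖x‖ ^ 2)
      = (∫ ω : Metric.sphere (0 : Ev n) 1, (inner ℝ (ω : Ev n) e) ^ k
        ∂(volume : Measure (Ev n)).toSphere) * smR (n - 1 + k) := by
  rw [integral_polar hn _ (sm_integrable e he k), ← integral_mul_const]
  apply integral_congr_ae
  refine Eventually.of_forall fun ω => ?_
  simp only
  unfold smR
  rw [← integral_const_mul]
  apply setIntegral_congr_fun measurableSet_Ioi
  intro t ht
  have ht' : (0 : ℝ) < t := ht
  have h1 : ‖t • (ω : Ev n)‖ ^ 2 = t ^ 2 := by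
    have h2 : ‖(ω : Ev n)‖ = 1 := by simp
    rw [norm_smul, h2, mul_one, Real.norm_eq_abs, sq_abs]
  simp only
  rw [h1, inner_smul_left, mul_pow, pow_add]
  simp only [conj_trivial]
  ring

/-- recursion for even moments -/
theorem sphere_moment_even {n : ℕ} (hn : 1 ≤ n) (e : Ev n) (he : ‖e‖ = 1) (m : ℕ) :
    ∫ ω : Metric.sphere (0 : Ev n) 1, (inner ℝ (ω : Ev n) e) ^ (2 * m + 2)
      ∂(volume : Measure (Ev n)).toSphere
      = (2 * m + 1) / (n + 2 * m) * ∫ ω : Metric.sphere (0 : Ev n) 1,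
        (inner ℝ (ω : Ev n) e) ^ (2 * m) ∂(volume : Measure (Ev n)).toSphere := by
  have h := sm_ibp e he m
  rw [sm_polar hn e he, sm_polar hn e he] at h
  have h1 : smR (n - 1 + (2 * m + 2)) = ((n : ℝ) + 2 * m) / 2 * smR (n - 1 + 2 * m) := by
    have h2 : n - 1 + (2 * m + 2) = (n - 1 + 2 * m) + 2 := by omega
    rw [h2, smR_rec]
    congr 2
    have h3 : ((n - 1 + 2 * m : ℕ) : ℝ) = (n : ℝ) - 1 + 2 * m := by
      push_cast [Nat.cast_sub hn]
      ring
    rw [h3]
    ring
  rw [h1] at h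
  have h4 := (smR_pos (n - 1 + 2 * m)).ne'
  have h5 : (0 : ℝ) < (n : ℝ) + 2 * m := by
    have : (1 : ℝ) ≤ n := by exact_mod_cast hn
    positivity
  have h6 : (∫ ω : Metric.sphere (0 : Ev n) 1, (inner ℝ (ω : Ev n) e) ^ (2 * m + 2)
      ∂(volume : Measure (Ev n)).toSphere) * ((n : ℝ) + 2 * m)
      = (2 * m + 1) * ∫ ω : Metric.sphere (0 : Ev n) 1,
        (inner ℝ (ω : Ev n) e) ^ (2 * m) ∂(volume : Measure (Ev n)).toSphere := by
    apply mul_right_cancel₀ h4
    linarith
  rw [div_mul_eq_mul_div, eq_div_iff h5.ne']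
  exact h6

private theorem sm_zero (n : ℕ) (e : Ev n) :
    ∫ ω : Metric.sphere (0 : Ev n) 1, (inner ℝ (ω : Ev n) e) ^ (2 * 0)
      ∂(volume : Measure (Ev n)).toSphere = n * om n := by
  have h0 : 0 ≤ om n := ENNReal.toReal_nonneg
  simp only [mul_zero, pow_zero, integral_const, smul_eq_mul, mul_one]
  rw [measureReal_def, toSphere_univ_eq, ENNReal.toReal_ofReal (by positivity)]

theorem sphere_moment_two {n : ℕ} (hn : 1 ≤ n) (e : Ev n) (he : ‖e‖ = 1) :
    ∫ ω : Metric.sphere (0 : Ev n) 1, (inner ℝ (ω : Ev n) e) ^ 2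
      ∂(volume : Measure (Ev n)).toSphere = om n := by
  have h := sphere_moment_even hn e he 0
  rw [sm_zero] at h
  have h1 : (n : ℝ) ≠ 0 := by
    have : (1 : ℝ) ≤ n := by exact_mod_cast hn
    positivity
  simp only [mul_zero, zero_add, Nat.cast_zero, add_zero] at h
  rw [h]
  field_simp

theorem sphere_moment_four {n : ℕ} (hn : 1 ≤ n) (e : Ev n) (he : ‖e‖ = 1) :
    ∫ ω : Metric.sphere (0 : Ev n) 1, (inner ℝ (ω : Ev n) e) ^ 4
      ∂(volume : Measure (Ev n)).toSphere = 3 / (n + 2) * om n := by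
  have h := sphere_moment_even hn e he 1
  have h2 := sphere_moment_two hn e he
  simp only [mul_one, Nat.cast_one] at h
  rw [h2] at h
  have h3 : (2 : ℕ) + 2 = 4 := rfl
  rw [h3] at h
  rw [h]
  norm_num

end Vale.Agent.Lib.P219
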