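import Mathlib.Analysis.SpecialFunctions.Gamma.Beta
import Mathlib.MeasureTheory.Measure.Lebesgue.VolumeOfBalls
import Vale.Agent.Lib.P219.Ce.Sphere

/-! # P219 certificates: absolute moments of the sphere measure (all exponents) -/

namespace Vale.Agent.Lib.P219

open MeasureTheory Set Filter Topology

private theorem sa_gauss_integrable (n : ℕ) :
    Integrable (fun x : Ev n => Real.exp (-(1 / 2) * ‖x‖ ^ 2)) := by
  have h := GaussianFourier.integrable_cexp_neg_mul_sq_norm_add (V := Ev n) (b := (1 / 2 : ℂ))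
    (by norm_num) 0 0
  have h2 := h.norm
  refine h2.congr (Eventually.of_forall fun x => ?_)
  simp only [Complex.norm_exp]
  congr 1
  simp [← Complex.ofReal_pow]

private theorem sa_bound (k : ℕ) (s : ℝ) {t : ℝ} (ht : |s| ≤ t) :
    |(|s| ^ k * Real.exp (-t ^ 2))| ≤
      ((k.factorial : ℝ) * Real.exp (1 / 2)) * Real.exp (-(1 / 2) * t ^ 2) := by
  have h0 : 0 ≤ t := le_trans (abs_nonneg s) ht
  have h1 : |s| ^ k ≤ t ^ k := pow_le_pow_left₀ (abs_nonneg s) ht k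
  have h2 : t ^ k ≤ (k.factorial : ℝ) * Real.exp t := by
    have h := Real.pow_div_factorial_le_exp t h0 k
    rw [div_le_iff₀ (by positivity)] at h
    linarith
  have h3 : Real.exp t * Real.exp (-t ^ 2) ≤ Real.exp (1 / 2) * Real.exp (-(1 / 2) * t ^ 2) := by
    rw [← Real.exp_add, ← Real.exp_add]
    apply Real.exp_le_exp.2
    nlinarith [sq_nonneg (t - 1)]
  rw [abs_mul, abs_pow, abs_abs, abs_of_pos (Real.exp_pos _)]
  calc |s| ^ k * Real.exp (-t ^ 2) ≤ ((k.factorial : ℝ) * Real.exp t) * Real.exp (-t ^ 2) :=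
        mul_le_mul_of_nonneg_right (h1.trans h2) (Real.exp_pos _).le
    _ = (k.factorial : ℝ) * (Real.exp t * Real.exp (-t ^ 2)) := by ring
    _ ≤ (k.factorial : ℝ) * (Real.exp (1 / 2) * Real.exp (-(1 / 2) * t ^ 2)) :=
        mul_le_mul_of_nonneg_left h3 (by positivity)
    _ = _ := by ring

private theorem sa_integrable {n : ℕ} (e : Ev n) (he : ‖e‖ = 1) (k : ℕ) :
    Integrable (fun x : Ev n => |inner ℝ x e| ^ k * Real.exp (-‖x‖ ^ 2)) := by
  have h1 := (sa_gauss_integrable n).const_mul ((k.factorial : ℝ) * Real.exp (1 / 2))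
  refine h1.mono' ?_ (Eventually.of_forall fun x => ?_)
  · apply Continuous.aestronglyMeasurable
    fun_prop
  · rw [Real.norm_eq_abs]
    apply sa_bound
    have := abs_real_inner_le_norm x e
    rwa [he, mul_one] at this

/-- radial integrals -/
private noncomputable def saR (k : ℕ) : ℝ := ∫ t in Ioi (0 : ℝ), t ^ k * Real.exp (-t ^ 2)

private theorem saR_eq (k : ℕ) : saR k = 1 / 2 * Real.Gamma (((k : ℝ) + 1) / 2) := by
  have h := integral_rpow_mul_exp_neg_rpow (p := 2) (q := (k : ℝ)) (by norm_num)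
    (lt_of_lt_of_le (by norm_num) (Nat.cast_nonneg k))
  rw [← h]
  unfold saR
  apply setIntegral_congr_fun measurableSet_Ioi
  intro t _
  simp only
  rw [Real.rpow_natCast, Real.rpow_two]

private theorem sa_polar {n : ℕ} (hn : 1 ≤ n) (e : Ev n) (he : ‖e‖ = 1) (k : ℕ) :
    ∫ x : Ev n, |inner ℝ x e| ^ k * Real.exp (-‖x‖ ^ 2)
      = (∫ ω : Metric.sphere (0 : Ev n) 1, |inner ℝ (ω : Ev n) e| ^ k
        ∂(volume : Measure (Ev n)).toSphere) * saR (n - 1 + k) := by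
  rw [integral_polar hn _ (sa_integrable e he k), ← integral_mul_const]
  apply integral_congr_ae
  refine Eventually.of_forall fun ω => ?_
  simp only
  unfold saR
  rw [← integral_const_mul]
  apply setIntegral_congr_fun measurableSet_Ioi
  intro t ht
  have ht' : (0 : ℝ) < t := ht
  have h1 : ‖t • (ω : Ev n)‖ ^ 2 = t ^ 2 := by
    have h2 : ‖(ω : Ev n)‖ = 1 := by simp
    rw [norm_smul, h2, mul_one, Real.norm_eq_abs, sq_abs]
  simp only
  rw [h1, inner_smul_left, abs_mul, mul_pow, pow_add]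
  simp only [conj_trivial]
  rw [abs_of_pos ht']
  ring

/-- the one dimensional factor -/
private theorem sa_one (k : ℕ) :
    ∫ t : ℝ, |t| ^ k * Real.exp (-t ^ 2) = Real.Gamma (((k : ℝ) + 1) / 2) := by
  have h := integral_comp_abs (f := fun t : ℝ => t ^ k * Real.exp (-t ^ 2))
  simp only [sq_abs] at h
  rw [h]
  have h2 := saR_eq k
  unfold saR at h2
  rw [h2]
  ring

private theorem sa_gauss_one : ∫ t : ℝ, Real.exp (-t ^ 2) = √Real.pi := by
  have h := integral_gaussian 1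
  simpa using h

/-- the Gaussian integral -/
private theorem sa_gauss {n : ℕ} (hn : 1 ≤ n) (e : Ev n) (he : ‖e‖ = 1) (k : ℕ) :
    ∫ x : Ev n, |inner ℝ x e| ^ k * Real.exp (-‖x‖ ^ 2)
      = Real.Gamma (((k : ℝ) + 1) / 2) * √Real.pi ^ (n - 1) := by
  obtain ⟨m, rfl⟩ : ∃ m, n = m + 1 := ⟨n - 1, by omega⟩
  obtain ⟨b, hb⟩ : ∃ b : OrthonormalBasis (Fin (m + 1)) ℝ (Ev (m + 1)), b 0 = e := by
    have hv : Orthonormal ℝ (({0} : Set (Fin (m + 1))).domRestrict (fun _ => e)) := by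
      refine ⟨fun i => by simpa using he, ?_⟩
      intro i j hij
      exact absurd (Subsingleton.elim i j) hij
    obtain ⟨b, hb⟩ := hv.exists_orthonormalBasis_extension_of_card_eq (by simp)
    exact ⟨b, hb 0 (by simp)⟩
  have h1 : ∫ x : Ev (m + 1), |inner ℝ x e| ^ k * Real.exp (-‖x‖ ^ 2)
      = ∫ y : Ev (m + 1), |y 0| ^ k * Real.exp (-‖y‖ ^ 2) := by
    have h0 := b.measurePreserving_repr.integral_comp
      b.repr.toHomeomorph.measurableEmbedding
      (fun y : Ev (m + 1) => |y 0| ^ k * Real.exp (-‖y‖ ^ 2))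
    rw [← h0]
    apply integral_congr_ae
    refine Eventually.of_forall fun x => ?_
    simp only
    rw [b.repr_apply_apply, hb, b.repr.norm_map, real_inner_comm]
  have h2 : ∫ y : Ev (m + 1), |y 0| ^ k * Real.exp (-‖y‖ ^ 2)
      = ∫ z : Fin (m + 1) → ℝ, ∏ i, (if i = 0 then (fun t : ℝ => |t| ^ k * Real.exp (-t ^ 2))
        else (fun t : ℝ => Real.exp (-t ^ 2))) (z i) := by
    have h0 := (PiLp.volume_preserving_toLp (Fin (m + 1))).integral_comp
      (MeasurableEquiv.toLp 2 (Fin (m + 1) → ℝ)).measurableEmbedding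
      (fun y : Ev (m + 1) => |y 0| ^ k * Real.exp (-‖y‖ ^ 2))
    rw [← h0]
    apply integral_congr_ae
    refine Eventually.of_forall fun z => ?_
    simp only
    rw [Fin.prod_univ_succ, EuclideanSpace.norm_sq_eq, Fin.sum_univ_succ, neg_add, Real.exp_add,
      if_pos rfl]
    simp only [Fin.succ_ne_zero, if_false, Real.norm_eq_abs, sq_abs]
    rw [← Real.exp_sum, Finset.sum_neg_distrib]
    ring
  rw [h1, h2, integral_fintype_prod_volume_eq_prod, Fin.prod_univ_succ, if_pos rfl]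
  simp only [Fin.succ_ne_zero, if_false]
  rw [sa_one, sa_gauss_one, Finset.prod_const, Finset.card_univ, Fintype.card_fin]
  simp

/-- closed formula for the absolute moments -/
private theorem sa_formula {n : ℕ} (hn : 1 ≤ n) (e : Ev n) (he : ‖e‖ = 1) (k : ℕ) :
    (∫ ω : Metric.sphere (0 : Ev n) 1, |inner ℝ (ω : Ev n) e| ^ k
        ∂(volume : Measure (Ev n)).toSphere) * Real.Gamma (((n : ℝ) + k) / 2)
      = 2 * Real.Gamma (((k : ℝ) + 1) / 2) * √Real.pi ^ (n - 1) := by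
  have h := sa_polar hn e he k
  rw [sa_gauss hn e he k, saR_eq] at h
  have h3 : (((n - 1 + k : ℕ) : ℝ) + 1) / 2 = ((n : ℝ) + k) / 2 := by
    push_cast [Nat.cast_sub hn]
    ring
  rw [h3] at h
  linarith

/-- recursion for absolute moments -/
theorem sphere_moment_abs_rec {n : ℕ} (hn : 1 ≤ n) (e : Ev n) (he : ‖e‖ = 1) (p : ℕ) :
    ∫ ω : Metric.sphere (0 : Ev n) 1, |inner ℝ (ω : Ev n) e| ^ (p + 2)
      ∂(volume : Measure (Ev n)).toSphere
      = (p + 1) / (n + p) * ∫ ω : Metric.sphere (0 : Ev n) 1,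
        |inner ℝ (ω : Ev n) e| ^ p ∂(volume : Measure (Ev n)).toSphere := by
  have h1 := sa_formula hn e he (p + 2)
  have h2 := sa_formula hn e he p
  have hn' : (1 : ℝ) ≤ n := by exact_mod_cast hn
  have hp' : (0 : ℝ) ≤ p := Nat.cast_nonneg p
  have hnp : (0 : ℝ) < (n : ℝ) + p := by linarith
  have g1 : Real.Gamma (((n : ℝ) + ((p + 2 : ℕ) : ℝ)) / 2)
      = ((n : ℝ) + p) / 2 * Real.Gamma (((n : ℝ) + p) / 2) := by
    have h3 : ((n : ℝ) + ((p + 2 : ℕ) : ℝ)) / 2 = ((n : ℝ) + p) / 2 + 1 := by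
      push_cast
      ring
    rw [h3, Real.Gamma_add_one (by positivity)]
  have g2 : Real.Gamma ((((p + 2 : ℕ) : ℝ) + 1) / 2)
      = ((p : ℝ) + 1) / 2 * Real.Gamma (((p : ℝ) + 1) / 2) := by
    have h3 : (((p + 2 : ℕ) : ℝ) + 1) / 2 = ((p : ℝ) + 1) / 2 + 1 := by
      push_cast
      ring
    rw [h3, Real.Gamma_add_one (by positivity)]
  rw [g1, g2] at h1
  have g3 : Real.Gamma (((n : ℝ) + p) / 2) ≠ 0 := (Real.Gamma_pos_of_pos (by positivity)).ne'
  rw [div_mul_eq_mul_div, eq_div_iff hnp.ne']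
  apply mul_right_cancel₀ g3
  linear_combination 2 * h1 - (p + 1) * h2

/-- the chord identity `∫ (2|⟨ω,e⟩|)^(n-2) = n ω_n` -/
theorem sphere_moment_abs_chord {n : ℕ} (hn : 2 ≤ n) (e : Ev n) (he : ‖e‖ = 1) :
    2 ^ (n - 2) * ∫ ω : Metric.sphere (0 : Ev n) 1, |inner ℝ (ω : Ev n) e| ^ (n - 2)
      ∂(volume : Measure (Ev n)).toSphere = n * om n := by
  obtain ⟨m, rfl⟩ : ∃ m, n = m + 2 := ⟨n - 2, by omega⟩
  have h1 := sa_formula (by omega) e he (m + 2 - 2)
  have e1 : m + 2 - 2 = m := by omega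
  have e2 : m + 2 - 1 = m + 1 := by omega
  rw [e1, e2] at h1
  rw [e1]
  have e3 : (((m + 2 : ℕ) : ℝ) + m) / 2 = (m : ℝ) + 1 := by
    push_cast
    ring
  rw [e3] at h1
  set I : ℝ := ∫ ω : Metric.sphere (0 : Ev (m + 2)) 1, |inner ℝ (ω : Ev (m + 2)) e| ^ m
      ∂(volume : Measure (Ev (m + 2))).toSphere with hI
  have h2 : om (m + 2) = √Real.pi ^ (m + 2) / Real.Gamma (((m + 2 : ℕ) : ℝ) / 2 + 1) := by
    unfold om
    rw [EuclideanSpace.volume_ball]
    simp only [ENNReal.ofReal_one, one_pow, one_mul, Fintype.card_fin]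
    rw [ENNReal.toReal_ofReal]
    have : 0 < Real.Gamma (((m + 2 : ℕ) : ℝ) / 2 + 1) := Real.Gamma_pos_of_pos (by positivity)
    positivity
  have h3 := Real.Gamma_mul_Gamma_add_half (((m : ℝ) + 1) / 2)
  have e4 : 2 * (((m : ℝ) + 1) / 2) = (m : ℝ) + 1 := by ring
  have e5 : ((m : ℝ) + 1) / 2 + 1 / 2 = ((m + 2 : ℕ) : ℝ) / 2 := by
    push_cast
    ring
  have e6 : (2 : ℝ) ^ (1 - ((m : ℝ) + 1)) = (2 ^ m)⁻¹ := by
    have : 1 - ((m : ℝ) + 1) = -(m : ℝ) := by ring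
    rw [this, Real.rpow_neg (by norm_num), Real.rpow_natCast]
  rw [e4, e5, e6] at h3
  have hm2 : (0 : ℝ) < ((m + 2 : ℕ) : ℝ) / 2 := by positivity
  rw [Real.Gamma_add_one hm2.ne'] at h2
  have g1 : 0 < Real.Gamma ((m : ℝ) + 1) := Real.Gamma_pos_of_pos (by positivity)
  have g2 : 0 < Real.Gamma (((m + 2 : ℕ) : ℝ) / 2) := Real.Gamma_pos_of_pos hm2
  have g3 : 0 < Real.Gamma (((m : ℝ) + 1) / 2) := Real.Gamma_pos_of_pos (by positivity)
  rw [h2]
  have h4 : ((m + 2 : ℕ) : ℝ) * (√Real.pi ^ (m + 2) / (((m + 2 : ℕ) : ℝ) / 2 *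
      Real.Gamma (((m + 2 : ℕ) : ℝ) / 2)))
      = 2 * √Real.pi ^ (m + 2) / Real.Gamma (((m + 2 : ℕ) : ℝ) / 2) := by
    field_simp
  rw [h4, eq_div_iff g2.ne']
  apply mul_right_cancel₀ g1.ne'
  have h5 : (2 : ℝ) ^ m ≠ 0 := by positivity
  have h6 : 2 ^ m * (Real.Gamma (((m : ℝ) + 1) / 2) * Real.Gamma (((m + 2 : ℕ) : ℝ) / 2))
      = Real.Gamma ((m : ℝ) + 1) * √Real.pi := by
    rw [h3]
    field_simp
  calc 2 ^ m * I * Real.Gamma (((m + 2 : ℕ) : ℝ) / 2) * Real.Gamma ((m : ℝ) + 1)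
      = 2 ^ m * Real.Gamma (((m + 2 : ℕ) : ℝ) / 2) * (I * Real.Gamma ((m : ℝ) + 1)) := by ring
    _ = 2 ^ m * Real.Gamma (((m + 2 : ℕ) : ℝ) / 2) *
        (2 * Real.Gamma (((m : ℝ) + 1) / 2) * √Real.pi ^ (m + 1)) := by rw [h1]
    _ = 2 * √Real.pi ^ (m + 1) * (2 ^ m * (Real.Gamma (((m : ℝ) + 1) / 2) *
        Real.Gamma (((m + 2 : ℕ) : ℝ) / 2))) := by ring
    _ = _ := by rw [h6]; ring

end Vale.Agent.Lib.P219
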