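import Mathlib.Algebra.Ring.IsFormallyReal
import Vale.Agent.Lib.P219.Ce.Cert
import Vale.Agent.Lib.P219.Ce.Raw
import Vale.Agent.Lib.P219.Ce.SphereAbs
import Vale.Agent.Lib.P219.Ri.Defs

/-! # P219 certificates: from pointwise conditions to `RawCert` -/

namespace Vale.Agent.Lib.P219.Bern

open MeasureTheory Set Filter Topology

noncomputable section

/-! ## truncated powers -/

theorem hasDerivAt_mpow (j : ℕ) (hj : j ≠ 1) (c : ℝ) :
    HasDerivAt (fun s : ℝ => (max s 0) ^ j) (j * (max c 0) ^ (j - 1)) c := by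
  rcases Nat.eq_zero_or_pos j with rfl | hj0
  · simpa using hasDerivAt_const c (1 : ℝ)
  · obtain ⟨k, rfl⟩ : ∃ k, j = k + 2 := ⟨j - 2, by omega⟩
    rcases lt_trichotomy c 0 with hc | hc | hc
    · have h1 : (fun s : ℝ => (max s 0) ^ (k + 2)) =ᶠ[𝓝 c] fun _ => 0 := by
        filter_upwards [gt_mem_nhds hc] with s hs
        rw [max_eq_right hs.le]; simp
      have h2 : max c 0 = 0 := max_eq_right hc.le
      rw [h2]
      simpa using (hasDerivAt_const c (0 : ℝ)).congr_of_eventuallyEq h1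
    · subst hc
      have h2 : ((k + 2 : ℕ) : ℝ) * (max (0 : ℝ) 0) ^ (k + 2 - 1) = 0 := by simp
      rw [h2, hasDerivAt_iff_isLittleO]
      simp only [max_self, sub_zero, smul_zero]
      have h3 : (0 : ℝ) ^ (k + 2) = 0 := by simp
      rw [h3]
      simp only [sub_zero]
      rw [Asymptotics.isLittleO_iff]
      intro C hC
      have h4 : ∀ᶠ x : ℝ in 𝓝 0, |x| < min C 1 := by
        have : Tendsto (fun x : ℝ => |x|) (𝓝 0) (𝓝 0) := by
          simpa using (continuous_abs.tendsto (0 : ℝ))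
        exact this.eventually (gt_mem_nhds (by positivity))
      filter_upwards [h4] with x hx
      have hx1 : |x| < C := lt_of_lt_of_le hx (min_le_left _ _)
      have hx2 : |x| < 1 := lt_of_lt_of_le hx (min_le_right _ _)
      have h5 : |max x 0| ≤ |x| := by
        rw [abs_of_nonneg (le_max_right x 0)]
        exact max_le (le_abs_self x) (abs_nonneg x)
      rw [Real.norm_eq_abs, Real.norm_eq_abs, abs_pow]
      have h6 : |max x 0| ^ (k + 2) ≤ |x| ^ (k + 2) := pow_le_pow_left₀ (abs_nonneg _) h5 _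
      have h7 : |x| ^ k ≤ 1 := pow_le_one₀ (abs_nonneg _) hx2.le
      calc |max x 0| ^ (k + 2) ≤ |x| ^ (k + 2) := h6
        _ = |x| ^ k * |x| * |x| := by ring
        _ ≤ 1 * C * |x| := by
          apply mul_le_mul_of_nonneg_right _ (abs_nonneg x)
          exact mul_le_mul h7 hx1.le (abs_nonneg _) (by norm_num)
        _ = C * |x| := by ring
    · have h1 : (fun s : ℝ => (max s 0) ^ (k + 2)) =ᶠ[𝓝 c] fun s => s ^ (k + 2) := by
        filter_upwards [lt_mem_nhds hc] with s hs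
        rw [max_eq_left hs.le]
      have h2 : max c 0 = c := max_eq_left hc.le
      rw [h2]
      exact (hasDerivAt_pow (k + 2) c).congr_of_eventuallyEq h1

theorem contDiff_mpow (j : ℕ) (hj : j ≠ 1) : ContDiff ℝ 1 (fun s : ℝ => (max s 0) ^ j) := by
  rw [contDiff_one_iff_deriv]
  refine ⟨fun c => (hasDerivAt_mpow j hj c).differentiableAt, ?_⟩
  have : deriv (fun s : ℝ => (max s 0) ^ j) = fun c : ℝ => (j : ℝ) * (max c 0) ^ (j - 1) :=
    funext fun c => (hasDerivAt_mpow j hj c).deriv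
  rw [this]
  fun_prop

/-! ## radial monomials -/

structure RM where
  ρ : ℝ → ℝ
  ρ' : ℝ → ℝ
  j : ℕ

structure RM.Good (m : RM) : Prop where
  jne : m.j ≠ 1
  hd : ∀ r, 0 < r → HasDerivAt m.ρ (m.ρ' r) r
  hc : ContinuousOn m.ρ' (Ioi 0)
  bd : ∀ δ > 0, ∃ M : ℝ, ∀ r, δ ≤ r → |m.ρ r| ≤ M ∧ |m.ρ' r| ≤ M

def RM.val (m : RM) (r : ℝ) : ℝ × ℝ × ℕ := (m.ρ r, m.ρ' r, m.j)

def S0 (L : List (ℝ × ℝ × ℕ)) (c : ℝ) : ℝ := (L.map (fun t => t.1 * c ^ t.2.2)).sum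
def S1 (L : List (ℝ × ℝ × ℕ)) (c : ℝ) : ℝ := (L.map (fun t => t.2.1 * c ^ t.2.2)).sum
def S2 (L : List (ℝ × ℝ × ℕ)) (c : ℝ) : ℝ :=
  (L.map (fun t => t.1 * (t.2.2 * c ^ (t.2.2 - 1)))).sum

theorem RM.Good.contDiffOn {m : RM} (h : m.Good) : ContDiffOn ℝ 1 m.ρ (Ioi 0) := by
  have h1 : DifferentiableOn ℝ m.ρ (Ioi 0) :=
    fun r hr => (h.hd r hr).differentiableAt.differentiableWithinAt
  have h2 : ContinuousOn (deriv m.ρ) (Ioi 0) :=
    h.hc.congr fun r hr => (h.hd r hr).deriv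
  have h3 := (contDiffOn_succ_iff_deriv_of_isOpen (𝕜 := ℝ) (n := 0) (f := m.ρ) isOpen_Ioi).2
    ⟨h1, by simp, contDiffOn_zero.2 h2⟩
  simpa using h3

theorem S0_smooth (Ms : List RM) (h : ∀ m ∈ Ms, m.Good) :
    ContDiffOn ℝ 1 (fun p : ℝ × ℝ => S0 (Ms.map (fun m => m.val p.1)) (max p.2 0))
      (Ioi 0 ×ˢ univ) := by
  induction Ms with
  | nil => simpa [S0] using contDiffOn_const
  | cons m Ms ih =>
    have h1 := ih (fun m' hm' => h m' (by simp [hm']))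
    have hm := h m (by simp)
    have h2 : ContDiffOn ℝ 1 (fun p : ℝ × ℝ => m.ρ p.1 * (max p.2 0) ^ m.j) (Ioi 0 ×ˢ univ) := by
      refine ContDiffOn.mul ?_ ?_
      · exact hm.contDiffOn.comp contDiff_fst.contDiffOn (fun p hp => hp.1)
      · exact ((contDiff_mpow m.j hm.jne).comp contDiff_snd).contDiffOn
    have h3 := h2.add h1
    refine h3.congr fun p _ => ?_
    simp [S0, RM.val]

theorem S0_deriv_r (Ms : List RM) (h : ∀ m ∈ Ms, m.Good) (r c : ℝ) (hr : 0 < r) :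
    HasDerivAt (fun s => S0 (Ms.map (fun m => m.val s)) c) (S1 (Ms.map (fun m => m.val r)) c) r := by
  induction Ms with
  | nil => simpa [S0, S1] using hasDerivAt_const r (0 : ℝ)
  | cons m Ms ih =>
    have h1 := ih (fun m' hm' => h m' (by simp [hm']))
    have hm := h m (by simp)
    have h2 := ((hm.hd r hr).mul_const (c ^ m.j)).add h1
    have e1 : (fun s => S0 ((m :: Ms).map (fun m => m.val s)) c)
        = (fun s => m.ρ s * c ^ m.j + S0 (Ms.map (fun m => m.val s)) c) := by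
      funext s; simp [S0, RM.val]
    have e2 : S1 ((m :: Ms).map (fun m => m.val r)) c
        = m.ρ' r * c ^ m.j + S1 (Ms.map (fun m => m.val r)) c := by simp [S1, RM.val]
    rw [e1, e2]
    exact h2

theorem S0_deriv_c (L : List (ℝ × ℝ × ℕ)) (h : ∀ t ∈ L, t.2.2 ≠ 1) (c : ℝ) :
    HasDerivAt (fun s => S0 L (max s 0)) (S2 L (max c 0)) c := by
  induction L with
  | nil => simpa [S0, S2] using hasDerivAt_const c (0 : ℝ)
  | cons t L ih =>
    have h1 := ih (fun m' hm' => h m' (by simp [hm']))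
    have h2 := ((hasDerivAt_mpow t.2.2 (h t (by simp)) c).const_mul t.1).add h1
    have e1 : (fun s => S0 (t :: L) (max s 0))
        = (fun s => t.1 * (max s 0) ^ t.2.2 + S0 L (max s 0)) := by
      funext s; simp [S0]
    have e2 : S2 (t :: L) (max c 0)
        = t.1 * (t.2.2 * (max c 0) ^ (t.2.2 - 1)) + S2 L (max c 0) := by simp [S2]
    rw [e1, e2]
    exact h2

theorem S_bound (Ms : List RM) (h : ∀ m ∈ Ms, m.Good) (δ : ℝ) (hδ : 0 < δ) :
    ∃ M : ℝ, 0 ≤ M ∧ ∀ r x : ℝ, δ ≤ r → 0 ≤ x → x ≤ 1 →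
      |S0 (Ms.map (fun m => m.val r)) x| ≤ M ∧ |S1 (Ms.map (fun m => m.val r)) x| ≤ M ∧
      |S2 (Ms.map (fun m => m.val r)) x| ≤ M := by
  induction Ms with
  | nil => exact ⟨0, le_refl _, fun r x _ _ _ => by simp [S0, S1, S2]⟩
  | cons m Ms ih =>
    obtain ⟨M, hM0, hM⟩ := ih (fun m' hm' => h m' (by simp [hm']))
    obtain ⟨N, hN⟩ := (h m (by simp)).bd δ hδ
    have hN0 : 0 ≤ N := (abs_nonneg _).trans (hN δ le_rfl).1
    refine ⟨M + N + N * m.j, by positivity, fun r x hr hx0 hx1 => ?_⟩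
    obtain ⟨a1, a2, a3⟩ := hM r x hr hx0 hx1
    obtain ⟨b1, b2⟩ := hN r hr
    have p1 : |x ^ m.j| ≤ 1 := by
      rw [abs_of_nonneg (pow_nonneg hx0 _)]; exact pow_le_one₀ hx0 hx1
    have p2 : |x ^ (m.j - 1)| ≤ 1 := by
      rw [abs_of_nonneg (pow_nonneg hx0 _)]; exact pow_le_one₀ hx0 hx1
    have hNj : 0 ≤ N * m.j := by positivity
    refine ⟨?_, ?_, ?_⟩
    · have e1 : S0 ((m :: Ms).map (fun m => m.val r)) x
          = m.ρ r * x ^ m.j + S0 (Ms.map (fun m => m.val r)) x := by simp [S0, RM.val]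
      rw [e1]
      have : |m.ρ r * x ^ m.j| ≤ N := by
        rw [abs_mul]
        calc |m.ρ r| * |x ^ m.j| ≤ N * 1 := mul_le_mul b1 p1 (abs_nonneg _) hN0
          _ = N := mul_one N
      have := abs_add_le (m.ρ r * x ^ m.j) (S0 (Ms.map (fun m => m.val r)) x)
      linarith
    · have e1 : S1 ((m :: Ms).map (fun m => m.val r)) x
          = m.ρ' r * x ^ m.j + S1 (Ms.map (fun m => m.val r)) x := by simp [S1, RM.val]
      rw [e1]
      have : |m.ρ' r * x ^ m.j| ≤ N := by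
        rw [abs_mul]
        calc |m.ρ' r| * |x ^ m.j| ≤ N * 1 := mul_le_mul b2 p1 (abs_nonneg _) hN0
          _ = N := mul_one N
      have := abs_add_le (m.ρ' r * x ^ m.j) (S1 (Ms.map (fun m => m.val r)) x)
      linarith
    · have e1 : S2 ((m :: Ms).map (fun m => m.val r)) x
          = m.ρ r * (m.j * x ^ (m.j - 1)) + S2 (Ms.map (fun m => m.val r)) x := by
        simp [S2, RM.val]
      rw [e1]
      have : |m.ρ r * (m.j * x ^ (m.j - 1))| ≤ N * m.j := by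
        rw [abs_mul, abs_mul, Nat.abs_cast]
        calc |m.ρ r| * ((m.j : ℝ) * |x ^ (m.j - 1)|) ≤ N * ((m.j : ℝ) * 1) :=
              mul_le_mul b1 (mul_le_mul_of_nonneg_left p2 (Nat.cast_nonneg _)) (by positivity) hN0
          _ = N * m.j := by ring
      have := abs_add_le (m.ρ r * (m.j * x ^ (m.j - 1))) (S2 (Ms.map (fun m => m.val r)) x)
      linarith

/-! ## pointwise conditions -/

/-- kernel sum for `c, d ≥ 0` -/
def kpp (n : ℕ) (r : ℝ) (L : List (ℝ × ℝ × ℕ)) (c d : ℝ) : ℝ :=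
  (L.map (fun t => t.1 * ((1 - n) * (c * d ^ t.2.2 + c ^ t.2.2 * d))
    + t.2.1 * ((d ^ t.2.2 + c ^ t.2.2) - (c ^ 2 * d ^ t.2.2 + c ^ t.2.2 * d ^ 2))
    + t.1 / r * ((n - 2) * (d ^ t.2.2 + c ^ t.2.2)
      + (1 - t.2.2) * (c ^ 2 * d ^ t.2.2 + c ^ t.2.2 * d ^ 2)
      + t.2.2 * (c * d ^ (t.2.2 - 1) + c ^ (t.2.2 - 1) * d)))).sum

/-- kernel sum for `c ≥ 0`, `d = -w` -/
def kpm (n : ℕ) (r : ℝ) (L : List (ℝ × ℝ × ℕ)) (c w : ℝ) : ℝ :=
  (L.map (fun t => t.1 * ((n - 1) * (w * c ^ t.2.2 - (if t.2.2 = 0 then 1 else 0) * c))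
    + t.2.1 * ((if t.2.2 = 0 then 1 else 0) * (1 - c ^ 2) + c ^ t.2.2 * (1 - w ^ 2))
    + t.1 / r * ((if t.2.2 = 0 then 1 else 0) * (n - 2 + c ^ 2)
      + c ^ t.2.2 * (n - 2 + (1 - t.2.2) * w ^ 2) + t.2.2 * (w * c ^ (t.2.2 - 1))))).sum

/-- kernel sum for `c = -v`, `d = -w` -/
def knn (n : ℕ) (r : ℝ) (L : List (ℝ × ℝ × ℕ)) (v w : ℝ) : ℝ :=
  (L.map (fun t => t.1 * ((if t.2.2 = 0 then 1 else 0) * ((n - 1) * (v + w)))
    + t.2.1 * ((if t.2.2 = 0 then 1 else 0) * (2 - (v ^ 2 + w ^ 2)))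
    + t.1 / r * ((if t.2.2 = 0 then 1 else 0) * (2 * (n - 2) + (v ^ 2 + w ^ 2))))).sum

theorem pow_pred_mul (j : ℕ) (c : ℝ) : (j : ℝ) * (c ^ (j - 1) * c) = j * c ^ j := by
  cases j with
  | zero => simp
  | succ j => rw [Nat.add_sub_cancel, pow_succ]

theorem kpp_eq (n : ℕ) (r : ℝ) (L : List (ℝ × ℝ × ℕ)) (c d : ℝ) :
    kpp n r L c d = (S1 L d * (1 - c ^ 2) + S0 L d / r * (n - 2 + c ^ 2)
        + c * S2 L d * (1 - c * d) / r - (n - 1) * c * S0 L d)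
      + (S1 L c * (1 - d ^ 2) + S0 L c / r * (n - 2 + d ^ 2)
        + d * S2 L c * (1 - c * d) / r - (n - 1) * d * S0 L c) := by
  induction L with
  | nil => simp [kpp, S0, S1, S2]
  | cons t L ih =>
    obtain ⟨ρ, ρ', j⟩ := t
    have e0 : ∀ x, S0 ((ρ, ρ', j) :: L) x = ρ * x ^ j + S0 L x := fun x => by simp [S0]
    have e1 : ∀ x, S1 ((ρ, ρ', j) :: L) x = ρ' * x ^ j + S1 L x := fun x => by simp [S1]
    have e2 : ∀ x, S2 ((ρ, ρ', j) :: L) x = ρ * (j * x ^ (j - 1)) + S2 L x :=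
      fun x => by simp [S2]
    have e3 : kpp n r ((ρ, ρ', j) :: L) c d
        = (ρ * ((1 - n) * (c * d ^ j + c ^ j * d))
        + ρ' * ((d ^ j + c ^ j) - (c ^ 2 * d ^ j + c ^ j * d ^ 2))
        + ρ / r * ((n - 2) * (d ^ j + c ^ j) + (1 - j) * (c ^ 2 * d ^ j + c ^ j * d ^ 2)
          + j * (c * d ^ (j - 1) + c ^ (j - 1) * d))) + kpp n r L c d := by
      simp [kpp]
    rw [e3, ih, e0, e0, e1, e1, e2, e2]
    have hc := pow_pred_mul j c
    have hd := pow_pred_mul j d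
    have e4 : c * (ρ * (j * d ^ (j - 1))) * (1 - c * d) / r
        = ρ / r * (j * (c * d ^ (j - 1)) - c ^ 2 * (j * (d ^ (j - 1) * d))) := by ring
    have e5 : d * (ρ * (j * c ^ (j - 1))) * (1 - c * d) / r
        = ρ / r * (j * (c ^ (j - 1) * d) - d ^ 2 * (j * (c ^ (j - 1) * c))) := by ring
    rw [hd] at e4
    rw [hc] at e5
    have e6 : c * (ρ * (j * d ^ (j - 1)) + S2 L d) * (1 - c * d) / r
        = c * (ρ * (j * d ^ (j - 1))) * (1 - c * d) / r + c * S2 L d * (1 - c * d) / r := by ring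
    have e7 : d * (ρ * (j * c ^ (j - 1)) + S2 L c) * (1 - c * d) / r
        = d * (ρ * (j * c ^ (j - 1))) * (1 - c * d) / r + d * S2 L c * (1 - c * d) / r := by ring
    rw [e6, e7, e4, e5]
    ring

theorem kpm_eq (n : ℕ) (r : ℝ) (L : List (ℝ × ℝ × ℕ)) (c w : ℝ) :
    kpm n r L c w = (S1 L 0 * (1 - c ^ 2) + S0 L 0 / r * (n - 2 + c ^ 2)
        - (n - 1) * c * S0 L 0)
      + (S1 L c * (1 - w ^ 2) + S0 L c / r * (n - 2 + w ^ 2)
        + w * S2 L c * (1 - w * c) / r + (n - 1) * w * S0 L c) := by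
  induction L with
  | nil => simp [kpm, S0, S1, S2]
  | cons t L ih =>
    obtain ⟨ρ, ρ', j⟩ := t
    have e0 : ∀ x, S0 ((ρ, ρ', j) :: L) x = ρ * x ^ j + S0 L x := fun x => by simp [S0]
    have e1 : ∀ x, S1 ((ρ, ρ', j) :: L) x = ρ' * x ^ j + S1 L x := fun x => by simp [S1]
    have e2 : ∀ x, S2 ((ρ, ρ', j) :: L) x = ρ * (j * x ^ (j - 1)) + S2 L x :=
      fun x => by simp [S2]
    have e3 : kpm n r ((ρ, ρ', j) :: L) c w
        = (ρ * ((n - 1) * (w * c ^ j - (if j = 0 then 1 else 0) * c))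
    + ρ' * ((if j = 0 then 1 else 0) * (1 - c ^ 2) + c ^ j * (1 - w ^ 2))
    + ρ / r * ((if j = 0 then 1 else 0) * (n - 2 + c ^ 2)
      + c ^ j * (n - 2 + (1 - j) * w ^ 2) + j * (w * c ^ (j - 1)))) + kpm n r L c w := by
      simp [kpm]
    rw [e3, ih, e0, e0, e1, e1, e2]
    have hc := pow_pred_mul j c
    have hz : (0 : ℝ) ^ j = if j = 0 then 1 else 0 := zero_pow_eq j
    have e5 : w * (ρ * (j * c ^ (j - 1))) * (1 - w * c) / r
        = ρ / r * (j * (w * c ^ (j - 1)) - w ^ 2 * (j * (c ^ (j - 1) * c))) := by ring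
    rw [hc] at e5
    have e7 : w * (ρ * (j * c ^ (j - 1)) + S2 L c) * (1 - w * c) / r
        = w * (ρ * (j * c ^ (j - 1))) * (1 - w * c) / r + w * S2 L c * (1 - w * c) / r := by ring
    rw [e7, e5, hz]
    ring

theorem knn_eq (n : ℕ) (r : ℝ) (L : List (ℝ × ℝ × ℕ)) (v w : ℝ) :
    knn n r L v w = (S1 L 0 * (1 - v ^ 2) + S0 L 0 / r * (n - 2 + v ^ 2)
        + (n - 1) * v * S0 L 0)
      + (S1 L 0 * (1 - w ^ 2) + S0 L 0 / r * (n - 2 + w ^ 2) + (n - 1) * w * S0 L 0) := by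
  induction L with
  | nil => simp [knn, S0, S1]
  | cons t L ih =>
    obtain ⟨ρ, ρ', j⟩ := t
    have e0 : ∀ x, S0 ((ρ, ρ', j) :: L) x = ρ * x ^ j + S0 L x := fun x => by simp [S0]
    have e1 : ∀ x, S1 ((ρ, ρ', j) :: L) x = ρ' * x ^ j + S1 L x := fun x => by simp [S1]
    have e3 : knn n r ((ρ, ρ', j) :: L) v w
        = (ρ * ((if j = 0 then 1 else 0) * ((n - 1) * (v + w)))
    + ρ' * ((if j = 0 then 1 else 0) * (2 - (v ^ 2 + w ^ 2)))
    + ρ / r * ((if j = 0 then 1 else 0) * (2 * (n - 2) + (v ^ 2 + w ^ 2)))) + knn n r L v w := by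
      simp [knn]
    rw [e3, ih, e0, e1]
    have hz : (0 : ℝ) ^ j = if j = 0 then 1 else 0 := zero_pow_eq j
    rw [hz]
    ring

theorem S2_zero (L : List (ℝ × ℝ × ℕ)) (h : ∀ t ∈ L, t.2.2 ≠ 1) : S2 L 0 = 0 := by
  induction L with
  | nil => simp [S2]
  | cons t L ih =>
    have h1 := ih (fun m' hm' => h m' (by simp [hm']))
    have e2 : S2 (t :: L) 0 = t.1 * (t.2.2 * 0 ^ (t.2.2 - 1)) + S2 L 0 := by simp [S2]
    rw [e2, h1]
    have h2 := h t (by simp)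
    rcases Nat.eq_zero_or_pos t.2.2 with h3 | h3
    · rw [h3]; simp
    · have : t.2.2 - 1 ≠ 0 := by omega
      rw [zero_pow this]; simp

/-- the conditions at one radius -/
structure Cond (n : ℕ) (a d ε : ℝ) (f : ℝ → ℝ) (r : ℝ) (L : List (ℝ × ℝ × ℕ)) : Prop where
  jne : ∀ t ∈ L, t.2.2 ≠ 1
  eta : ∀ c, 0 ≤ c → c ≤ 1 → 0 ≤ S0 L c
  etac : ∀ c, 0 ≤ c → c ≤ 1 → S2 L c ≤ 0
  pp : ∀ c c', 0 ≤ c → c ≤ 1 → 0 ≤ c' → c' ≤ 1 → 0 < 2 * a + kpp n r L c c'
  pm : ∀ c w, 0 ≤ c → c ≤ 1 → 0 ≤ w → w ≤ 1 → 0 < 2 * a + kpm n r L c w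
  nn : ∀ v w, 0 ≤ v → v ≤ 1 → 0 ≤ w → w ≤ 1 → 0 < 2 * a + knn n r L v w
  low : ∀ c c', 0 < c → c ≤ 1 → 0 < c' → c' ≤ 1 →
    2 * (c * c') * (d * r - f c - f c') + ε * (c * c') * ((r - c - c') ^ 2 + (c - c') ^ 2)
      ≤ (2 * a + kpp n r L c c') * r ^ (n - 1)

/-- the bracket of `RawCert` -/
def BR (n : ℕ) (a r : ℝ) (L : List (ℝ × ℝ × ℕ)) (c c' : ℝ) : ℝ :=
  a + ((S1 L (max c' 0) * (1 - c ^ 2) + S0 L (max c' 0) / r * (n - 2 + c ^ 2)
        - |c| * |S2 L (max c' 0)| * Real.sqrt ((1 - c ^ 2) * (1 - c' ^ 2)) / r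
        - (n - 1) * c * S0 L (max c' 0))
      + (S1 L (max c 0) * (1 - c' ^ 2) + S0 L (max c 0) / r * (n - 2 + c' ^ 2)
        - |c'| * |S2 L (max c 0)| * Real.sqrt ((1 - c' ^ 2) * (1 - c ^ 2)) / r
        - (n - 1) * c' * S0 L (max c 0))) / 2

theorem BR_symm (n : ℕ) (a r : ℝ) (L : List (ℝ × ℝ × ℕ)) (c c' : ℝ) :
    BR n a r L c c' = BR n a r L c' c := by
  unfold BR; ring

theorem sqrt_bd (c c' : ℝ) (hc : 0 ≤ c) (hc1 : c ≤ 1) (_hc' : 0 ≤ c') (hc'1 : c' ≤ 1) :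
    Real.sqrt ((1 - c ^ 2) * (1 - c' ^ 2)) ≤ 1 - c * c' := by
  apply Real.sqrt_le_iff.2
  constructor
  · nlinarith
  · nlinarith [sq_nonneg (c - c')]

theorem pen_bd (c x s s' r : ℝ) (hr : 0 < r) (hc : 0 ≤ c) (hx : x ≤ 0) (hs : s ≤ s') :
    c * x * s' / r ≤ -(|c| * |x| * s / r) := by
  rw [abs_of_nonneg hc, abs_of_nonpos hx]
  have h1 : c * x * s' ≤ c * x * s := by
    have : c * x ≤ 0 := mul_nonpos_of_nonneg_of_nonpos hc hx
    exact mul_le_mul_of_nonpos_left hs this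
  calc c * x * s' / r ≤ c * x * s / r := div_le_div_of_nonneg_right h1 hr.le
    _ = _ := by ring

theorem Cond.BR_pp {n : ℕ} {a d ε : ℝ} {f : ℝ → ℝ} {r : ℝ} {L : List (ℝ × ℝ × ℕ)}
    (h : Cond n a d ε f r L) (hr : 0 < r) (c c' : ℝ) (hc : 0 ≤ c) (hc1 : c ≤ 1) (hc' : 0 ≤ c')
    (hc'1 : c' ≤ 1) : (2 * a + kpp n r L c c') / 2 ≤ BR n a r L c c' := by
  unfold BR
  rw [max_eq_left hc, max_eq_left hc', kpp_eq]
  have p1 := pen_bd c (S2 L c') _ _ r hr hc (h.etac c' hc' hc'1) (sqrt_bd c c' hc hc1 hc' hc'1)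
  have p2 := pen_bd c' (S2 L c) _ _ r hr hc' (h.etac c hc hc1) (sqrt_bd c' c hc' hc'1 hc hc1)
  have e : 1 - c' * c = 1 - c * c' := by ring
  rw [e] at p2
  linarith

theorem Cond.BR_pm {n : ℕ} {a d ε : ℝ} {f : ℝ → ℝ} {r : ℝ} {L : List (ℝ × ℝ × ℕ)}
    (h : Cond n a d ε f r L) (hr : 0 < r) (c w : ℝ) (hc : 0 ≤ c) (hc1 : c ≤ 1) (hw : 0 ≤ w)
    (hw1 : w ≤ 1) : 0 < BR n a r L c (-w) := by
  have h0 := h.pm c w hc hc1 hw hw1
  rw [kpm_eq] at h0
  unfold BR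
  have e1 : max (-w) 0 = 0 := max_eq_right (by linarith)
  rw [max_eq_left hc, e1, S2_zero L h.jne, abs_neg, neg_sq]
  have p2 := pen_bd w (S2 L c) _ _ r hr hw (h.etac c hc hc1) (sqrt_bd w c hw hw1 hc hc1)
  have p3 : |c| * |(0 : ℝ)| * Real.sqrt ((1 - c ^ 2) * (1 - w ^ 2)) / r = 0 := by simp
  rw [p3]
  linarith

theorem Cond.BR_nn {n : ℕ} {a d ε : ℝ} {f : ℝ → ℝ} {r : ℝ} {L : List (ℝ × ℝ × ℕ)}
    (h : Cond n a d ε f r L) (v w : ℝ) (hv : 0 ≤ v) (hv1 : v ≤ 1) (hw : 0 ≤ w)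
    (hw1 : w ≤ 1) : 0 < BR n a r L (-v) (-w) := by
  have h0 := h.nn v w hv hv1 hw hw1
  rw [knn_eq] at h0
  unfold BR
  have e1 : max (-w) 0 = 0 := max_eq_right (by linarith)
  have e2 : max (-v) 0 = 0 := max_eq_right (by linarith)
  rw [e1, e2, S2_zero L h.jne, abs_neg, abs_neg, neg_sq, neg_sq]
  simp only [abs_zero, mul_zero, zero_mul, zero_div, sub_zero]
  linarith

theorem Cond.BR_pos {n : ℕ} {a d ε : ℝ} {f : ℝ → ℝ} {r : ℝ} {L : List (ℝ × ℝ × ℕ)}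
    (h : Cond n a d ε f r L) (hr : 0 < r) (c c' : ℝ) (hc : |c| ≤ 1) (hc' : |c'| ≤ 1) :
    0 < BR n a r L c c' := by
  obtain ⟨c1, c2⟩ := abs_le.1 hc
  obtain ⟨c3, c4⟩ := abs_le.1 hc'
  rcases le_total 0 c with h1 | h1 <;> rcases le_total 0 c' with h2 | h2
  · have := h.pp c c' h1 c2 h2 c4
    have := h.BR_pp hr c c' h1 c2 h2 c4
    linarith
  · have := h.BR_pm hr c (-c') h1 c2 (by linarith) (by linarith)
    rwa [neg_neg] at this
  · rw [BR_symm]
    have := h.BR_pm hr c' (-c) h2 c4 (by linarith) (by linarith)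
    rwa [neg_neg] at this
  · have := h.BR_nn (-c) (-c') (by linarith) (by linarith) (by linarith) (by linarith)
    rwa [neg_neg, neg_neg] at this

/-- assembling a strict `RawCert` -/
theorem rawCert_of (n : ℕ) (a d ε : ℝ) (f : ℝ → ℝ) (Ms : List RM) (hM : ∀ m ∈ Ms, m.Good)
    (ha : 0 < a) (hd : 0 < d) (hε : 0 < ε) (hf : Continuous f) (hf0 : ∀ c, 0 ≤ f c)
    (hC : ∀ r, 0 < r → Cond n a d ε f r (Ms.map (fun m => m.val r)))
    (hfin : ∀ e : Ev n, ‖e‖ = 1 → a * (n * om n)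
      + ∫ ω : Metric.sphere (0 : Ev n) 1, |inner ℝ (ω : Ev n) e| * f |inner ℝ (ω : Ev n) e|
      ∂(volume : Measure (Ev n)).toSphere ≤ d * om n) : ∃ c : RawCert n, c.Strict := by
  have hlow : ∀ r c c', 0 < r → 0 < c → c ≤ 1 → 0 < c' → c' ≤ 1 →
      c * c' * (d * r - f c - f c') + ε * (c * c') * ((r - c - c') ^ 2 + (c - c') ^ 2) / 2
        ≤ BR n a r (Ms.map (fun m => m.val r)) c c' * r ^ (n - 1) := by
    intro r c c' hr hc hc1 hc' hc'1
    have h1 := (hC r hr).low c c' hc hc1 hc' hc'1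
    have h2 := (hC r hr).BR_pp hr c c' hc.le hc1 hc'.le hc'1
    have h3 : (2 * a + kpp n r (Ms.map (fun m => m.val r)) c c') / 2 * r ^ (n - 1)
        ≤ BR n a r (Ms.map (fun m => m.val r)) c c' * r ^ (n - 1) :=
      mul_le_mul_of_nonneg_right h2 (by positivity)
    linarith
  let C : RawCert n := {
    η := fun r c => S0 (Ms.map (fun m => m.val r)) (max c 0)
    ηr := fun r c => S1 (Ms.map (fun m => m.val r)) (max c 0)
    ηc := fun r c => S2 (Ms.map (fun m => m.val r)) (max c 0)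
    smooth := S0_smooth Ms hM
    deriv_r := fun r c hr => S0_deriv_r Ms hM r (max c 0) hr
    deriv_c := fun r c hr => S0_deriv_c _ (hC r hr).jne c
    bound := by
      intro δ hδ
      obtain ⟨M, -, hM'⟩ := S_bound Ms hM δ hδ
      refine ⟨M, fun r c hr hc => ?_⟩
      obtain ⟨h1, h2, h3⟩ := hM' r (max c 0) hr (le_max_right _ _)
        (max_le (abs_le.1 hc).2 zero_le_one)
      exact ⟨(le_abs_self _).trans h1, h2, h3⟩
    η_nonneg := fun r c hr hc => (hC r hr).eta _ (le_max_right _ _)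
      (max_le (abs_le.1 hc).2 zero_le_one)
    a := a
    a_pos := ha
    d := d
    d_pos := hd
    f := f
    f_cont := hf
    f_nonneg := hf0
    B_nonneg := by
      intro r c c' hr hc hc'
      have h1 := ((hC r hr).BR_pos hr c c' hc hc').le
      unfold BR at h1
      exact h1
    B_lower := by
      intro r c c' hr hc hc1 hc' hc'1
      have h1 := hlow r c c' hr hc hc1 hc' hc'1
      have h2 : 0 ≤ ε * (c * c') * ((r - c - c') ^ 2 + (c - c') ^ 2) / 2 := by positivity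
      have h4 : c * c' * (d * r - f c - f c')
          ≤ BR n a r (Ms.map (fun m => m.val r)) c c' * r ^ (n - 1) := by linarith
      unfold BR at h4
      exact h4
    final := hfin }
  refine ⟨C, ⟨?_, ?_⟩⟩
  · intro r x y hr hx hy
    have h1 := (hC r hr).BR_pos hr x y hx hy
    unfold BR at h1
    exact h1
  · intro r x y hr hx hx1 hy hy1 he
    have h1 := hlow r x y hr hx hx1 hy hy1
    have h2 : C.B r x y = BR n a r (Ms.map (fun m => m.val r)) x y := by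
      unfold BR RawCert.B
      rfl
    have h3 : x * y * (C.d * r - C.f x - C.f y) = x * y * (d * r - f x - f y) := rfl
    rw [h2, h3] at he
    rw [he] at h1
    have h4 : ε * (x * y) * ((r - x - y) ^ 2 + (x - y) ^ 2) ≤ 0 := by linarith
    have h5 : 0 < ε * (x * y) := by positivity
    have h6 : (r - x - y) ^ 2 + (x - y) ^ 2 ≤ 0 := by
      by_contra h7
      have := mul_pos h5 (not_le.1 h7)
      linarith
    have h8 : (x - y) ^ 2 = 0 := by nlinarith [sq_nonneg (r - x - y), sq_nonneg (x - y)]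
    have h9 : (r - x - y) ^ 2 = 0 := by nlinarith [sq_nonneg (r - x - y), sq_nonneg (x - y)]
    have h10 : x - y = 0 := pow_eq_zero_iff (two_ne_zero) |>.1 h8
    have h11 : r - x - y = 0 := pow_eq_zero_iff (two_ne_zero) |>.1 h9
    linarith

end

end Vale.Agent.Lib.P219.Bern
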