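import Mathlib.Algebra.Order.Ring.Star
import Mathlib.Algebra.Order.Star.Real
import Mathlib.Analysis.SpecialFunctions.SmoothTransition
import Vale.Agent.Lib.P219.Ce.Raw
import Vale.Agent.Lib.P219.A.Polar

/-! # P219 certificates: regularisation by a cutoff -/

namespace Vale.Agent.Lib.P219

open MeasureTheory Set Filter Topology

private noncomputable def zf (r : ℝ) : ℝ := Real.smoothTransition (r - 1)

private noncomputable def zd (r : ℝ) : ℝ := deriv Real.smoothTransition (r - 1)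

private theorem zf_nonneg (r : ℝ) : 0 ≤ zf r := Real.smoothTransition.nonneg _

private theorem zf_le_one (r : ℝ) : zf r ≤ 1 := Real.smoothTransition.le_one _

private theorem zf_zero {r : ℝ} (h : r ≤ 1) : zf r = 0 :=
  Real.smoothTransition.zero_of_nonpos (by linarith)

private theorem zf_one {r : ℝ} (h : 2 ≤ r) : zf r = 1 :=
  Real.smoothTransition.one_of_one_le (by linarith)

private theorem zf_contDiff : ContDiff ℝ 1 zf := by
  unfold zf
  exact Real.smoothTransition.contDiff.comp (contDiff_id.sub contDiff_const)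

private theorem st_hasDerivAt (s : ℝ) :
    HasDerivAt Real.smoothTransition (deriv Real.smoothTransition s) s :=
  ((Real.smoothTransition.contDiff (n := 1)).differentiable (by norm_num) s).hasDerivAt

private theorem zf_hasDerivAt (r : ℝ) : HasDerivAt zf (zd r) r := by
  have h := (st_hasDerivAt (r - 1)).comp r ((hasDerivAt_id r).sub_const 1)
  unfold zd
  rw [mul_one] at h
  exact h

private theorem zd_nonneg (r : ℝ) : 0 ≤ zd r := by
  unfold zd
  exact Real.smoothTransition.monotone.deriv_nonneg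

private theorem zd_zero {r : ℝ} (h : r < 1) : zd r = 0 := by
  unfold zd
  have h1 : Real.smoothTransition =ᶠ[𝓝 (r - 1)] fun _ => (0 : ℝ) := by
    filter_upwards [Iio_mem_nhds (show r - 1 < 0 by linarith)] with s hs
    exact Real.smoothTransition.zero_of_nonpos (le_of_lt hs)
  rw [h1.deriv_eq, deriv_const]

private theorem zd_one {r : ℝ} (h : 2 < r) : zd r = 0 := by
  unfold zd
  have h1 : Real.smoothTransition =ᶠ[𝓝 (r - 1)] fun _ => (1 : ℝ) := by
    filter_upwards [Ioi_mem_nhds (show 1 < r - 1 by linarith)] with s hs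
    exact Real.smoothTransition.one_of_one_le (le_of_lt hs)
  rw [h1.deriv_eq, deriv_const]

private theorem zd_bound : ∃ Z : ℝ, 0 ≤ Z ∧ ∀ r, |zd r| ≤ Z := by
  have hc : Continuous zd := by
    unfold zd
    exact ((Real.smoothTransition.contDiff (n := 1)).continuous_deriv (by norm_num)).comp
      (continuous_id.sub continuous_const)
  obtain ⟨Z, hZ⟩ := (isCompact_Icc (a := (1 : ℝ)) (b := 2)).exists_bound_of_continuousOn
    hc.continuousOn
  refine ⟨max Z 0, le_max_right _ _, ?_⟩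
  intro r
  by_cases h1 : r < 1
  · rw [zd_zero h1, abs_zero]
    exact le_max_right _ _
  · by_cases h2 : 2 < r
    · rw [zd_one h2, abs_zero]
      exact le_max_right _ _
    · refine le_trans ?_ (le_max_left _ _)
      exact hZ r ⟨not_lt.mp h1, not_lt.mp h2⟩

variable {n : ℕ}

private noncomputable def ce (c : RawCert n) (δ r x : ℝ) : ℝ :=
  if 0 < r then zf (r / δ) * c.η r x else 0

private noncomputable def cer (c : RawCert n) (δ r x : ℝ) : ℝ :=
  if 0 < r then zd (r / δ) / δ * c.η r x + zf (r / δ) * c.ηr r x else 0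

private noncomputable def cec (c : RawCert n) (δ r x : ℝ) : ℝ :=
  if 0 < r then zf (r / δ) * c.ηc r x else 0

private theorem ce_pos (c : RawCert n) {δ r : ℝ} (x : ℝ) (hr : 0 < r) :
    ce c δ r x = zf (r / δ) * c.η r x := if_pos hr

private theorem cer_pos (c : RawCert n) {δ r : ℝ} (x : ℝ) (hr : 0 < r) :
    cer c δ r x = zd (r / δ) / δ * c.η r x + zf (r / δ) * c.ηr r x := if_pos hr

private theorem cec_pos (c : RawCert n) {δ r : ℝ} (x : ℝ) (hr : 0 < r) :
    cec c δ r x = zf (r / δ) * c.ηc r x := if_pos hr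

private theorem ce_zero (c : RawCert n) {δ : ℝ} (hδ : 0 < δ) {r : ℝ} (x : ℝ) (hr : r ≤ δ) :
    ce c δ r x = 0 := by
  unfold ce
  split_ifs with h
  · rw [zf_zero ((div_le_one hδ).mpr hr), zero_mul]
  · rfl

private theorem cer_zero (c : RawCert n) {δ : ℝ} (hδ : 0 < δ) {r : ℝ} (x : ℝ) (hr : r < δ) :
    cer c δ r x = 0 := by
  unfold cer
  split_ifs with h
  · rw [zf_zero ((div_le_one hδ).mpr hr.le), zd_zero ((div_lt_one hδ).mpr hr)]
    simp
  · rfl

private theorem cec_zero (c : RawCert n) {δ : ℝ} (hδ : 0 < δ) {r : ℝ} (x : ℝ) (hr : r ≤ δ) :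
    cec c δ r x = 0 := by
  unfold cec
  split_ifs with h
  · rw [zf_zero ((div_le_one hδ).mpr hr), zero_mul]
  · rfl

private theorem ce_smooth (c : RawCert n) {δ : ℝ} (hδ : 0 < δ) :
    ContDiff ℝ 1 (fun p : ℝ × ℝ => ce c δ p.1 p.2) := by
  rw [contDiff_iff_contDiffAt]
  intro p
  by_cases hp : p.1 < δ
  · have h1 : (fun p : ℝ × ℝ => ce c δ p.1 p.2) =ᶠ[𝓝 p] fun _ => (0 : ℝ) := by
      have h2 : {q : ℝ × ℝ | q.1 < δ} ∈ 𝓝 p :=
        (isOpen_lt continuous_fst continuous_const).mem_nhds hp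
      filter_upwards [h2] with q hq
      exact ce_zero c hδ q.2 (le_of_lt hq)
    exact contDiffAt_const.congr_of_eventuallyEq h1
  · have hp0 : 0 < p.1 := lt_of_lt_of_le hδ (not_lt.mp hp)
    have h2 : {q : ℝ × ℝ | 0 < q.1} ∈ 𝓝 p :=
      (isOpen_lt continuous_const continuous_fst).mem_nhds hp0
    have h1 : (fun p : ℝ × ℝ => ce c δ p.1 p.2) =ᶠ[𝓝 p]
        fun q => zf (q.1 / δ) * c.η q.1 q.2 := by
      filter_upwards [h2] with q hq
      exact ce_pos c q.2 hq
    refine ContDiffAt.congr_of_eventuallyEq ?_ h1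
    apply ContDiffAt.mul
    · exact (zf_contDiff.comp (contDiff_fst.div_const δ)).contDiffAt
    · apply c.smooth.contDiffAt
      have h3 : (Ioi (0 : ℝ) ×ˢ (univ : Set ℝ)) = {q : ℝ × ℝ | 0 < q.1} := by
        ext q
        simp
      rw [h3]
      exact h2

private theorem ce_deriv_r (c : RawCert n) {δ : ℝ} (hδ : 0 < δ) (r x : ℝ) :
    HasDerivAt (fun s => ce c δ s x) (cer c δ r x) r := by
  by_cases hr : r < δ
  · rw [cer_zero c hδ x hr]
    have h1 : (fun s => ce c δ s x) =ᶠ[𝓝 r] fun _ => (0 : ℝ) := by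
      filter_upwards [Iio_mem_nhds hr] with s hs
      exact ce_zero c hδ x (le_of_lt hs)
    exact (hasDerivAt_const r (0 : ℝ)).congr_of_eventuallyEq h1
  · have hr0 : 0 < r := lt_of_lt_of_le hδ (not_lt.mp hr)
    rw [cer_pos c x hr0]
    have h1 : (fun s => ce c δ s x) =ᶠ[𝓝 r] fun s => zf (s / δ) * c.η s x := by
      filter_upwards [Ioi_mem_nhds hr0] with s hs
      exact ce_pos c x hs
    refine HasDerivAt.congr_of_eventuallyEq ?_ h1
    have h2 : HasDerivAt (fun s => zf (s / δ)) (zd (r / δ) / δ) r := by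
      have h3 := (zf_hasDerivAt (r / δ)).comp r ((hasDerivAt_id r).div_const δ)
      have h4 : zd (r / δ) / δ = zd (r / δ) * (1 / δ) := by ring
      rw [h4]
      exact h3
    exact h2.mul (c.deriv_r r x hr0)

private theorem ce_deriv_c (c : RawCert n) {δ : ℝ} (r x : ℝ) :
    HasDerivAt (fun s => ce c δ r s) (cec c δ r x) x := by
  by_cases hr : 0 < r
  · rw [cec_pos c x hr]
    have h1 : (fun s => ce c δ r s) = fun s => zf (r / δ) * c.η r s := by
      funext s
      exact ce_pos c s hr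
    rw [h1]
    exact (c.deriv_c r x hr).const_mul _
  · have h1 : (fun s => ce c δ r s) = fun _ => (0 : ℝ) := by
      funext s
      exact if_neg hr
    have h2 : cec c δ r x = 0 := if_neg hr
    rw [h1, h2]
    exact hasDerivAt_const x (0 : ℝ)

private theorem ce_nonneg (c : RawCert n) {δ : ℝ} (r x : ℝ) (hx : |x| ≤ 1) :
    0 ≤ ce c δ r x := by
  unfold ce
  split_ifs with h
  · exact mul_nonneg (zf_nonneg _) (c.η_nonneg r x h hx)
  · exact le_refl _

/-- the kernel expression of the truncated certificate -/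
private theorem B_eq (c : RawCert n) {δ : ℝ} {r : ℝ} (hr : 0 < r) (x y : ℝ) :
    c.a + ((cer c δ r y * (1 - x ^ 2) + ce c δ r y / r * (n - 2 + x ^ 2)
        - |x| * |cec c δ r y| * Real.sqrt ((1 - x ^ 2) * (1 - y ^ 2)) / r
        - (n - 1) * x * ce c δ r y)
      + (cer c δ r x * (1 - y ^ 2) + ce c δ r x / r * (n - 2 + y ^ 2)
        - |y| * |cec c δ r x| * Real.sqrt ((1 - y ^ 2) * (1 - x ^ 2)) / r
        - (n - 1) * y * ce c δ r x)) / 2
    = zf (r / δ) * (c.a + ((c.ηr r y * (1 - x ^ 2) + c.η r y / r * (n - 2 + x ^ 2)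
        - |x| * |c.ηc r y| * Real.sqrt ((1 - x ^ 2) * (1 - y ^ 2)) / r - (n - 1) * x * c.η r y)
      + (c.ηr r x * (1 - y ^ 2) + c.η r x / r * (n - 2 + y ^ 2)
        - |y| * |c.ηc r x| * Real.sqrt ((1 - y ^ 2) * (1 - x ^ 2)) / r
        - (n - 1) * y * c.η r x)) / 2)
      + (1 - zf (r / δ)) * c.a
      + zd (r / δ) / δ * (c.η r y * (1 - x ^ 2) + c.η r x * (1 - y ^ 2)) / 2 := by
  have hz := zf_nonneg (r / δ)
  rw [cer_pos c y hr, cer_pos c x hr, ce_pos c y hr, ce_pos c x hr, cec_pos c y hr,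
    cec_pos c x hr, abs_mul, abs_mul, abs_of_nonneg hz]
  ring

private theorem B_ge (c : RawCert n) {δ : ℝ} (hδ : 0 < δ) {r : ℝ} (hr : 0 < r) (x y : ℝ)
    (hx : |x| ≤ 1) (hy : |y| ≤ 1) :
    0 ≤ c.a + ((cer c δ r y * (1 - x ^ 2) + ce c δ r y / r * (n - 2 + x ^ 2)
        - |x| * |cec c δ r y| * Real.sqrt ((1 - x ^ 2) * (1 - y ^ 2)) / r
        - (n - 1) * x * ce c δ r y)
      + (cer c δ r x * (1 - y ^ 2) + ce c δ r x / r * (n - 2 + y ^ 2)
        - |y| * |cec c δ r x| * Real.sqrt ((1 - y ^ 2) * (1 - x ^ 2)) / r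
        - (n - 1) * y * ce c δ r x)) / 2 := by
  rw [B_eq c hr x y]
  have h1 := c.B_nonneg r x y hr hx hy
  have h2 := zf_nonneg (r / δ)
  have h3 := zf_le_one (r / δ)
  have h4 := zd_nonneg (r / δ)
  have h5 := c.η_nonneg r x hr hx
  have h6 := c.η_nonneg r y hr hy
  have h7 : x ^ 2 ≤ 1 := (sq_le_one_iff_abs_le_one x).mpr hx
  have h8 : y ^ 2 ≤ 1 := (sq_le_one_iff_abs_le_one y).mpr hy
  have h9 := c.a_pos
  have t1 : 0 ≤ zd (r / δ) / δ * (c.η r y * (1 - x ^ 2) + c.η r x * (1 - y ^ 2)) / 2 := by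
    have h10 : 0 ≤ 1 - x ^ 2 := by linarith
    have h11 : 0 ≤ 1 - y ^ 2 := by linarith
    positivity
  have t2 : 0 ≤ (1 - zf (r / δ)) * c.a := mul_nonneg (by linarith) h9.le
  have t3 := mul_nonneg h2 h1
  linarith

private noncomputable def cutKer (c : RawCert n) {δ : ℝ} (hδ : 0 < δ) (M : ℝ)
    (hM : 0 < M)
    (hM1 : ∀ r x, |x| ≤ 1 → ce c δ r x ≤ M)
    (hM2 : ∀ r x, |x| ≤ 1 → |cer c δ r x| ≤ M)
    (hM3 : ∀ r x, |x| ≤ 1 → |cec c δ r x| ≤ M) : Ker n where
  η := ce c δ
  ηr := cer c δ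
  ηc := cec c δ
  smooth := ce_smooth c hδ
  deriv_r := ce_deriv_r c hδ
  deriv_c := ce_deriv_c c
  δ := δ
  δ_pos := hδ
  M := M
  M_pos := hM
  η_zero := fun _ x hr => ce_zero c hδ x hr
  η_nonneg := ce_nonneg c
  η_le := hM1
  ηr_le := hM2
  ηc_le := hM3
  a := c.a
  a_pos := c.a_pos
  d := c.d
  d_pos := c.d_pos
  f := fun s => c.f s + c.d * δ
  f_cont := c.f_cont.add continuous_const
  f_nonneg := fun s => add_nonneg (c.f_nonneg s) (mul_nonneg c.d_pos.le hδ.le)
  K' := c.d * om n - c.a * (n * om n) + c.d * δ * (n * om n)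
  B_nonneg := fun r x y hr hx hy => B_ge c hδ hr x y hx hy
  B_lower := by
    intro r x y hr hx0 hx1 hy0 hy1
    have hx : |x| ≤ 1 := by rw [abs_of_pos hx0]; exact hx1
    have hy : |y| ≤ 1 := by rw [abs_of_pos hy0]; exact hy1
    have hd := c.d_pos
    have hfx := c.f_nonneg x
    have hfy := c.f_nonneg y
    have hxy : 0 < x * y := mul_pos hx0 hy0
    by_cases h2 : r < 2 * δ
    · have h3 := B_ge c hδ hr x y hx hy
      have h4 : 0 ≤ r ^ (n - 1) := pow_nonneg hr.le _
      have h5 := mul_nonneg h3 h4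
      refine le_trans ?_ h5
      have h6 : c.d * r - (c.f x + c.d * δ) - (c.f y + c.d * δ) ≤ 0 := by nlinarith
      exact mul_nonpos_of_nonneg_of_nonpos hxy.le h6
    · have hr2 : 2 ≤ r / δ := by
        rw [le_div_iff₀ hδ]
        exact not_lt.mp h2
      have h3 := c.B_lower r x y hr hx0 hx1 hy0 hy1
      have h4 : 0 ≤ r ^ (n - 1) := pow_nonneg hr.le _
      have h5 : x * y * (c.d * r - (c.f x + c.d * δ) - (c.f y + c.d * δ))
          ≤ x * y * (c.d * r - c.f x - c.f y) := by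
        apply mul_le_mul_of_nonneg_left _ hxy.le
        nlinarith
      refine le_trans h5 (le_trans h3 ?_)
      apply mul_le_mul_of_nonneg_right _ h4
      rw [B_eq c hr x y, zf_one hr2]
      have h7 : x ^ 2 ≤ 1 := (sq_le_one_iff_abs_le_one x).mpr hx
      have h8 : y ^ 2 ≤ 1 := (sq_le_one_iff_abs_le_one y).mpr hy
      have t1 : 0 ≤ zd (r / δ) / δ * (c.η r y * (1 - x ^ 2) + c.η r x * (1 - y ^ 2)) / 2 := by
        have h10 : 0 ≤ 1 - x ^ 2 := by linarith
        have h11 : 0 ≤ 1 - y ^ 2 := by linarith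
        have := zd_nonneg (r / δ)
        have := c.η_nonneg r x hr hx
        have := c.η_nonneg r y hr hy
        positivity
      linarith
  K'_bound := by
    intro e he
    have := isFiniteMeasure_toSphere n
    have hfin := c.final e he
    have hc1 : Continuous (fun ω : Metric.sphere (0 : Ev n) 1 => |inner ℝ (ω : Ev n) e|) := by
      fun_prop
    have hc2 : Continuous (fun ω : Metric.sphere (0 : Ev n) 1 =>
        |inner ℝ (ω : Ev n) e| * c.f |inner ℝ (ω : Ev n) e|) := hc1.mul (c.f_cont.comp hc1)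
    have hi1 : Integrable (fun ω : Metric.sphere (0 : Ev n) 1 => |inner ℝ (ω : Ev n) e|)
        (volume : Measure (Ev n)).toSphere :=
      hc1.integrable_of_hasCompactSupport (HasCompactSupport.of_compactSpace _)
    have hi2 : Integrable (fun ω : Metric.sphere (0 : Ev n) 1 =>
        |inner ℝ (ω : Ev n) e| * c.f |inner ℝ (ω : Ev n) e|)
        (volume : Measure (Ev n)).toSphere :=
      hc2.integrable_of_hasCompactSupport (HasCompactSupport.of_compactSpace _)
    have e1 : ∫ ω : Metric.sphere (0 : Ev n) 1, |inner ℝ (ω : Ev n) e|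
        * (c.f |inner ℝ (ω : Ev n) e| + c.d * δ) ∂(volume : Measure (Ev n)).toSphere
        = (∫ ω : Metric.sphere (0 : Ev n) 1, |inner ℝ (ω : Ev n) e| * c.f |inner ℝ (ω : Ev n) e|
          ∂(volume : Measure (Ev n)).toSphere)
        + c.d * δ * ∫ ω : Metric.sphere (0 : Ev n) 1, |inner ℝ (ω : Ev n) e|
          ∂(volume : Measure (Ev n)).toSphere := by
      rw [← integral_const_mul, ← integral_add hi2 (hi1.const_mul _)]
      congr 1
      funext ω
      ring
    have e2 : ∫ ω : Metric.sphere (0 : Ev n) 1, |inner ℝ (ω : Ev n) e|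
        ∂(volume : Measure (Ev n)).toSphere ≤ n * om n := by
      have h3 : ∫ ω : Metric.sphere (0 : Ev n) 1, |inner ℝ (ω : Ev n) e|
          ∂(volume : Measure (Ev n)).toSphere
          ≤ ∫ _ω : Metric.sphere (0 : Ev n) 1, (1 : ℝ) ∂(volume : Measure (Ev n)).toSphere := by
        apply integral_mono hi1 (integrable_const _)
        intro ω
        have h4 : ‖(ω : Ev n)‖ = 1 := by simp
        calc |inner ℝ (ω : Ev n) e| ≤ ‖(ω : Ev n)‖ * ‖e‖ := abs_real_inner_le_norm _ _
          _ = 1 := by rw [h4, he, one_mul]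
      refine le_trans h3 ?_
      rw [integral_const, smul_eq_mul, mul_one, Measure.real, toSphere_univ_eq,
        ENNReal.toReal_ofReal]
      have : 0 ≤ om n := ENNReal.toReal_nonneg
      positivity
    rw [e1]
    have h5 : c.d * δ * ∫ ω : Metric.sphere (0 : Ev n) 1, |inner ℝ (ω : Ev n) e|
          ∂(volume : Measure (Ev n)).toSphere ≤ c.d * δ * (n * om n) :=
      mul_le_mul_of_nonneg_left e2 (mul_nonneg c.d_pos.le hδ.le)
    linarith

/-- the cut off certificate: all data -/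
theorem exists_cut_aux {n : ℕ} (c : RawCert n) {δ : ℝ} (hδ : 0 < δ) :
    ∃ k : Ker n, k.a = c.a ∧ k.d = c.d ∧ (∀ s, k.f s = c.f s + c.d * δ) ∧
      k.K' = c.d * om n - c.a * (n * om n) + c.d * δ * (n * om n) ∧
      ∀ r x y, 2 * δ < r → k.B r x y
        = c.a + ((c.ηr r y * (1 - x ^ 2) + c.η r y / r * (n - 2 + x ^ 2)
        - |x| * |c.ηc r y| * Real.sqrt ((1 - x ^ 2) * (1 - y ^ 2)) / r - (n - 1) * x * c.η r y)
      + (c.ηr r x * (1 - y ^ 2) + c.η r x / r * (n - 2 + y ^ 2)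
        - |y| * |c.ηc r x| * Real.sqrt ((1 - y ^ 2) * (1 - x ^ 2)) / r
        - (n - 1) * y * c.η r x)) / 2 := by
  obtain ⟨M₀, hM₀⟩ := c.bound δ hδ
  obtain ⟨Z, hZ0, hZ⟩ := zd_bound
  set M₁ : ℝ := max M₀ 0 with hM₁
  have hM10 : 0 ≤ M₁ := le_max_right _ _
  have hM11 : M₀ ≤ M₁ := le_max_left _ _
  set M : ℝ := Z / δ * M₁ + M₁ + 1 with hM
  have hMpos : 0 < M := by positivity
  have hM1M : M₁ ≤ M := by
    have : 0 ≤ Z / δ * M₁ := by positivity
    linarith
  have b1 : ∀ r x, |x| ≤ 1 → ce c δ r x ≤ M := by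
    intro r x hx
    by_cases hr : r < δ
    · rw [ce_zero c hδ x hr.le]
      exact hMpos.le
    · have hr0 : 0 < r := lt_of_lt_of_le hδ (not_lt.mp hr)
      rw [ce_pos c x hr0]
      have h1 := (hM₀ r x (not_lt.mp hr) hx).1
      have h2 := c.η_nonneg r x hr0 hx
      have h3 := zf_le_one (r / δ)
      have h4 : zf (r / δ) * c.η r x ≤ 1 * c.η r x := mul_le_mul_of_nonneg_right h3 h2
      linarith
  have b2 : ∀ r x, |x| ≤ 1 → |cer c δ r x| ≤ M := by
    intro r x hx
    by_cases hr : r < δ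
    · rw [cer_zero c hδ x hr, abs_zero]
      exact hMpos.le
    · have hr0 : 0 < r := lt_of_lt_of_le hδ (not_lt.mp hr)
      rw [cer_pos c x hr0]
      have h1 := (hM₀ r x (not_lt.mp hr) hx).1
      have h1' := (hM₀ r x (not_lt.mp hr) hx).2.1
      have h2 := c.η_nonneg r x hr0 hx
      have h3 := zf_le_one (r / δ)
      have h3' := zf_nonneg (r / δ)
      have h4 : |zd (r / δ) / δ * c.η r x| ≤ Z / δ * M₁ := by
        rw [abs_mul, abs_div, abs_of_pos hδ, abs_of_nonneg h2]
        have h5 := hZ (r / δ)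
        have h6 : c.η r x ≤ M₁ := by linarith
        gcongr
      have h7 : |zf (r / δ) * c.ηr r x| ≤ M₁ := by
        rw [abs_mul, abs_of_nonneg h3']
        calc zf (r / δ) * |c.ηr r x| ≤ 1 * |c.ηr r x| :=
              mul_le_mul_of_nonneg_right h3 (abs_nonneg _)
          _ ≤ M₁ := by linarith
      refine le_trans (abs_add_le _ _) ?_
      linarith
  have b3 : ∀ r x, |x| ≤ 1 → |cec c δ r x| ≤ M := by
    intro r x hx
    by_cases hr : r < δ
    · rw [cec_zero c hδ x hr.le, abs_zero]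
      exact hMpos.le
    · have hr0 : 0 < r := lt_of_lt_of_le hδ (not_lt.mp hr)
      rw [cec_pos c x hr0]
      have h1 := (hM₀ r x (not_lt.mp hr) hx).2.2
      have h3 := zf_le_one (r / δ)
      have h3' := zf_nonneg (r / δ)
      rw [abs_mul, abs_of_nonneg h3']
      calc zf (r / δ) * |c.ηc r x| ≤ 1 * |c.ηc r x| :=
            mul_le_mul_of_nonneg_right h3 (abs_nonneg _)
        _ ≤ M := by linarith
  refine ⟨cutKer c hδ M hMpos b1 b2 b3, rfl, rfl, fun _ => rfl, rfl, fun r x y hr => ?_⟩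
  have hr0 : 0 < r := by linarith
  have h2 : 2 < r / δ := by rwa [lt_div_iff₀ hδ]
  have h := B_eq c (δ := δ) hr0 x y
  rw [zf_one h2.le, zd_one h2] at h
  have h3 : (cutKer c hδ M hMpos b1 b2 b3).B r x y
      = c.a + ((cer c δ r y * (1 - x ^ 2) + ce c δ r y / r * (n - 2 + x ^ 2)
        - |x| * |cec c δ r y| * Real.sqrt ((1 - x ^ 2) * (1 - y ^ 2)) / r
        - (n - 1) * x * ce c δ r y)
      + (cer c δ r x * (1 - y ^ 2) + ce c δ r x / r * (n - 2 + y ^ 2)
        - |y| * |cec c δ r x| * Real.sqrt ((1 - y ^ 2) * (1 - x ^ 2)) / r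
        - (n - 1) * y * ce c δ r x)) / 2 := rfl
  rw [h3, h]
  ring

theorem hasKer_of_raw {n : ℕ} (hn : 2 ≤ n) (c : RawCert n) : HasKer n := by
  intro ε hε
  have hom : 0 ≤ om n := ENNReal.toReal_nonneg
  have ha := c.a_pos
  have hd := c.d_pos
  set S : ℝ := c.d * (n * om n) with hS
  have hS0 : 0 ≤ S := by positivity
  set δ : ℝ := ε * c.a / (S + 1) with hδdef
  have hδ : 0 < δ := by positivity
  have hδS : δ * S ≤ ε * c.a := by
    rw [hδdef, div_mul_eq_mul_div, div_le_iff₀ (by positivity)]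
    have : 0 ≤ ε * c.a := by positivity
    nlinarith
  obtain ⟨k, ha', hd', -, hK', -⟩ := exists_cut_aux c hδ
  refine ⟨k, ?_⟩
  rw [ha', hd', hK']
  have h9 : c.d * δ * (n * om n) = δ * S := by rw [hS]; ring
  rw [h9]
  linarith

end Vale.Agent.Lib.P219
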