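import Vale.Agent.Lib.P219.Ce.Build
import Vale.Agent.Lib.P219.Ce.Cutoff

/-! # P219 certificates: from kernel checks to `RawCert` (one piece, `n ≥ 5`, `e ≤ n-5`) -/

namespace Vale.Agent.Lib.P219.Bern

open MeasureTheory Set Filter Topology

noncomputable section

/-! ## moments -/

/-- absolute moments -/
def Im (n : ℕ) (e : Ev n) (m : ℕ) : ℝ :=
  ∫ ω : Metric.sphere (0 : Ev n) 1, |inner ℝ (ω : Ev n) e| ^ m
    ∂(volume : Measure (Ev n)).toSphere

/-- moments divided by `om n`; `q1` is the first moment -/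
def mq (n : ℕ) (q1 : ℚ) : ℕ → ℚ
  | 0 => n
  | 1 => q1
  | m + 2 => (m + 1) / (n + m) * mq n q1 m

theorem Im_rec {n : ℕ} (hn : 1 ≤ n) (e : Ev n) (he : ‖e‖ = 1) (m : ℕ) :
    Im n e (m + 2) = (m + 1) / (n + m) * Im n e m := sphere_moment_abs_rec hn e he m

theorem Im_zero {n : ℕ} (hn : 1 ≤ n) (e : Ev n) (he : ‖e‖ = 1) : Im n e 0 = n * om n := by
  have h := Im_rec hn e he 0
  have h2 : Im n e (0 + 2) = om n := by
    rw [← sphere_moment_two hn e he]
    unfold Im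
    simp only [zero_add, sq_abs]
  rw [h2] at h
  have h1 : (n : ℝ) ≠ 0 := by
    have : (1 : ℝ) ≤ n := by exact_mod_cast hn
    positivity
  rw [h]
  simp only [Nat.cast_zero, add_zero, zero_add]
  field_simp

theorem Im_even {n : ℕ} (hn : 1 ≤ n) (q1 : ℚ) (e : Ev n) (he : ‖e‖ = 1) (i : ℕ) :
    Im n e (2 * i) = (mq n q1 (2 * i) : ℝ) * om n := by
  induction i with
  | zero =>
    rw [mul_zero, Im_zero hn e he]
    simp [mq]
  | succ i ih =>
    have e1 : 2 * (i + 1) = 2 * i + 2 := by ring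
    rw [e1, Im_rec hn e he, ih, mq]
    push_cast
    ring

theorem Im_odd_aux {n : ℕ} (hn : 1 ≤ n) (q1 : ℚ) (e : Ev n) (he : ‖e‖ = 1) (i : ℕ) :
    Im n e (2 * (i + 1) + 1) - (mq n q1 (2 * (i + 1) + 1) : ℝ) * om n
      = ((2 * i + 1 : ℕ) + 1) / (n + (2 * i + 1 : ℕ))
        * (Im n e (2 * i + 1) - (mq n q1 (2 * i + 1) : ℝ) * om n) := by
  have e1 : 2 * (i + 1) + 1 = (2 * i + 1) + 2 := by ring
  rw [e1, Im_rec hn e he, mq]
  push_cast
  ring

theorem Im_odd {n : ℕ} (hn : 2 ≤ n) (hodd : n % 2 = 1) (q1 : ℚ)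
    (hq : mq n q1 (n - 2) * 2 ^ (n - 2) = n) (e : Ev n) (he : ‖e‖ = 1) (i : ℕ) :
    Im n e (2 * i + 1) = (mq n q1 (2 * i + 1) : ℝ) * om n := by
  have hn1 : 1 ≤ n := by omega
  have hnpos : (0 : ℝ) < n := by exact_mod_cast hn1
  have step := fun i => Im_odd_aux hn1 q1 e he i
  have fac : ∀ i : ℕ, ((((2 * i + 1 : ℕ) : ℝ) + 1) / ((n : ℝ) + (2 * i + 1 : ℕ))) ≠ 0 :=
    fun i => by positivity
  obtain ⟨t, ht⟩ : ∃ t, n - 2 = 2 * t + 1 := ⟨(n - 3) / 2, by omega⟩
  have hchord := sphere_moment_abs_chord hn e he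
  have hIt : Im n e (2 * t + 1) = (mq n q1 (2 * t + 1) : ℝ) * om n := by
    have h1 : 2 ^ (n - 2) * Im n e (n - 2) = n * om n := hchord
    rw [ht] at h1 hq
    have h2 : ((mq n q1 (2 * t + 1) : ℚ) : ℝ) * 2 ^ (2 * t + 1) = n := by exact_mod_cast hq
    have h3 : (2 : ℝ) ^ (2 * t + 1) ≠ 0 := by positivity
    apply mul_left_cancel₀ h3
    rw [h1, ← h2]; ring
  have back : ∀ s, s ≤ t →
      Im n e (2 * (t - s) + 1) - (mq n q1 (2 * (t - s) + 1) : ℝ) * om n = 0 := by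
    intro s
    induction s with
    | zero => intro _; rw [Nat.sub_zero, hIt, sub_self]
    | succ s ih =>
      intro hs
      have h1 := ih (by omega)
      have h2 := step (t - (s + 1))
      have e2 : t - (s + 1) + 1 = t - s := by omega
      rw [e2, h1] at h2
      rcases mul_eq_zero.1 h2.symm with h3 | h3
      · exact absurd h3 (fac _)
      · exact h3
  have h0 := back t le_rfl
  rw [Nat.sub_self] at h0
  have fwd : ∀ i, Im n e (2 * i + 1) - (mq n q1 (2 * i + 1) : ℝ) * om n = 0 := by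
    intro i
    induction i with
    | zero => exact h0
    | succ i ih => rw [step, ih, mul_zero]
  linarith [fwd i]

theorem Im_int (n : ℕ) (e : Ev n) (m : ℕ) :
    Integrable (fun ω : Metric.sphere (0 : Ev n) 1 => |(inner ℝ (ω : Ev n) e : ℝ)| ^ m)
      (volume : Measure (Ev n)).toSphere := by
  have hc : Continuous (fun ω : Metric.sphere (0 : Ev n) 1 =>
      |(inner ℝ (ω : Ev n) e : ℝ)| ^ m) := by fun_prop
  exact hc.integrable_of_hasCompactSupport (HasCompactSupport.of_compactSpace _)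

theorem int_sev (n : ℕ) (e : Ev n) (fs : List (ℕ × ℤ)) :
    Integrable (fun ω : Metric.sphere (0 : Ev n) 1 => |(inner ℝ (ω : Ev n) e : ℝ)|
      * sev |(inner ℝ (ω : Ev n) e : ℝ)| fs) (volume : Measure (Ev n)).toSphere ∧
    ∫ ω : Metric.sphere (0 : Ev n) 1, |(inner ℝ (ω : Ev n) e : ℝ)|
      * sev |(inner ℝ (ω : Ev n) e : ℝ)| fs ∂(volume : Measure (Ev n)).toSphere
      = (fs.map (fun kz => (kz.2 : ℝ) * Im n e (kz.1 + 1))).sum := by
  induction fs with
  | nil => simp [sev]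
  | cons kz fs ih =>
    have e1 : (fun ω : Metric.sphere (0 : Ev n) 1 => |(inner ℝ (ω : Ev n) e : ℝ)|
        * sev |(inner ℝ (ω : Ev n) e : ℝ)| (kz :: fs))
        = fun ω : Metric.sphere (0 : Ev n) 1 =>
          (kz.2 : ℝ) * |(inner ℝ (ω : Ev n) e : ℝ)| ^ (kz.1 + 1)
          + |(inner ℝ (ω : Ev n) e : ℝ)| * sev |(inner ℝ (ω : Ev n) e : ℝ)| fs := by
      funext ω
      simp only [sev, List.map_cons, List.sum_cons]
      ring
    rw [e1]
    have i1 := (Im_int n e (kz.1 + 1)).const_mul (kz.2 : ℝ)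
    refine ⟨i1.add ih.1, ?_⟩
    rw [integral_add i1 ih.1, ih.2, integral_const_mul, List.map_cons, List.sum_cons]
    rfl

/-- the rational form of the final condition -/
def finc (n : ℕ) (a d : ℤ) (fs : List (ℕ × ℤ)) (q1 : ℚ) : Prop :=
  ((n : ℚ) * a + (fs.map (fun kz => (kz.2 : ℚ) * mq n q1 (kz.1 + 1))).sum ≤ d) ∧
  ((∀ kz ∈ fs, (kz.1 + 1) % 2 = 0) ∨ (n % 2 = 1 ∧ mq n q1 (n - 2) * 2 ^ (n - 2) = n))

instance (n : ℕ) (a d : ℤ) (fs : List (ℕ × ℤ)) (q1 : ℚ) : Decidable (finc n a d fs q1) := by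
  unfold finc; infer_instance

theorem om_nonneg' (n : ℕ) : 0 ≤ om n := ENNReal.toReal_nonneg

theorem fin_of (n : ℕ) (hn : 2 ≤ n) (a d : ℤ) (fs : List (ℕ × ℤ)) (q1 : ℚ)
    (h : finc n a d fs q1) (e : Ev n) (he : ‖e‖ = 1) :
    (a : ℝ) * (n * om n) + ∫ ω : Metric.sphere (0 : Ev n) 1, |(inner ℝ (ω : Ev n) e : ℝ)|
      * sev (min (max |(inner ℝ (ω : Ev n) e : ℝ)| 0) 1) fs
      ∂(volume : Measure (Ev n)).toSphere ≤ d * om n := by
  have hin : ∀ ω : Metric.sphere (0 : Ev n) 1, |(inner ℝ (ω : Ev n) e : ℝ)| ≤ 1 := by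
    intro ω
    have h1 := abs_real_inner_le_norm (ω : Ev n) e
    have h2 : ‖(ω : Ev n)‖ = 1 := by simp
    rwa [h2, he, mul_one] at h1
  have e1 : (fun ω : Metric.sphere (0 : Ev n) 1 => |(inner ℝ (ω : Ev n) e : ℝ)|
      * sev (min (max |(inner ℝ (ω : Ev n) e : ℝ)| 0) 1) fs)
      = fun ω : Metric.sphere (0 : Ev n) 1 => |(inner ℝ (ω : Ev n) e : ℝ)|
        * sev |(inner ℝ (ω : Ev n) e : ℝ)| fs := by
    funext ω
    rw [max_eq_left (abs_nonneg _), min_eq_left (hin ω)]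
  rw [e1, (int_sev n e fs).2]
  obtain ⟨h1, h2⟩ := h
  have hm : ∀ kz ∈ fs, Im n e (kz.1 + 1) = (mq n q1 (kz.1 + 1) : ℝ) * om n := by
    intro kz hkz
    rcases Nat.even_or_odd' (kz.1 + 1) with ⟨i, hi | hi⟩
    · rw [hi]; exact Im_even (by omega) q1 e he i
    · rcases h2 with h2 | ⟨h2, h3⟩
      · have := h2 kz hkz; omega
      · rw [hi]; exact Im_odd hn h2 q1 h3 e he i
  have e2 : (fs.map (fun kz => (kz.2 : ℝ) * Im n e (kz.1 + 1))).sum
      = (((fs.map (fun kz => (kz.2 : ℚ) * mq n q1 (kz.1 + 1))).sum : ℚ) : ℝ) * om n := by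
    clear h1 h2
    induction fs with
    | nil => simp
    | cons kz fs ih =>
      rw [List.map_cons, List.sum_cons, ih (by
        funext ω
        rw [max_eq_left (abs_nonneg _), min_eq_left (hin ω)]) (fun kz' h' => hm kz' (by simp [h'])),
        hm kz (by simp), List.map_cons, List.sum_cons]
      push_cast
      ring
  rw [e2]
  have h4 : ((n : ℝ) * a + (((fs.map (fun kz => (kz.2 : ℚ) * mq n q1 (kz.1 + 1))).sum : ℚ) : ℝ))
      ≤ d := by exact_mod_cast h1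
  have h5 := mul_le_mul_of_nonneg_right h4 (om_nonneg' n)
  linarith

/-! ## the family for data -/

/-- exponent of `r` -/
def ex (n : ℕ) (t : ℤ × ℕ × ℕ) : ℤ := (t.2.1 : ℤ) + 5 - n

def rm (n : ℕ) (t : ℤ × ℕ × ℕ) : RM where
  ρ := fun r => (t.1 : ℝ) * r ^ (ex n t)
  ρ' := fun r => (t.1 : ℝ) * ((ex n t : ℤ) * r ^ (ex n t - 1))
  j := t.2.2

theorem zpow_bd (i : ℤ) (hi : i ≤ 0) (δ r : ℝ) (hδ : 0 < δ) (hr : δ ≤ r) :
    |r ^ i| ≤ δ ^ i := by
  obtain ⟨k, hk⟩ := Int.exists_eq_neg_ofNat hi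
  have hr0 : 0 < r := hδ.trans_le hr
  rw [hk, zpow_neg, zpow_neg, zpow_natCast, zpow_natCast, abs_of_pos (by positivity)]
  exact inv_anti₀ (by positivity) (pow_le_pow_left₀ hδ.le hr k)

theorem rm_good (n : ℕ) (t : ℤ × ℕ × ℕ) (hj : t.2.2 ≠ 1) (hi : ex n t ≤ 0) : (rm n t).Good where
  jne := hj
  hd := fun r hr => ((hasDerivAt_zpow (ex n t) r (Or.inl hr.ne')).const_mul (t.1 : ℝ))
  hc := by
    refine continuousOn_const.mul (continuousOn_const.mul ?_)
    intro r hr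
    exact (continuousAt_zpow₀ r _ (Or.inl (ne_of_gt hr))).continuousWithinAt
  bd := fun δ hδ => by
    refine ⟨|(t.1 : ℝ)| * δ ^ (ex n t) + |(t.1 : ℝ)| * (|((ex n t : ℤ) : ℝ)| * δ ^ (ex n t - 1)),
      fun r hr => ⟨?_, ?_⟩⟩
    · change |(t.1 : ℝ) * r ^ (ex n t)| ≤ _
      rw [abs_mul]
      have h1 := mul_le_mul_of_nonneg_left (zpow_bd (ex n t) hi δ r hδ hr) (abs_nonneg (t.1 : ℝ))
      have h2 : 0 ≤ |(t.1 : ℝ)| * (|((ex n t : ℤ) : ℝ)| * δ ^ (ex n t - 1)) := by positivity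
      linarith
    · change |(t.1 : ℝ) * (((ex n t : ℤ) : ℝ) * r ^ (ex n t - 1))| ≤ _
      rw [abs_mul, abs_mul]
      have h1 := mul_le_mul_of_nonneg_left (mul_le_mul_of_nonneg_left
        (zpow_bd (ex n t - 1) (by omega) δ r hδ hr) (abs_nonneg ((ex n t : ℤ) : ℝ)))
        (abs_nonneg (t.1 : ℝ))
      have h2 : 0 ≤ |(t.1 : ℝ)| * δ ^ (ex n t) := by positivity
      linarith

theorem sev_single (y : ℝ) (k : ℕ) (z : ℤ) : sev y [(k, z)] = z * y ^ k := by simp [sev]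

theorem S0_cons (t : ℝ × ℝ × ℕ) (L : List (ℝ × ℝ × ℕ)) (x : ℝ) :
    S0 (t :: L) x = t.1 * x ^ t.2.2 + S0 L x := by simp [S0]

theorem S2_cons (t : ℝ × ℝ × ℕ) (L : List (ℝ × ℝ × ℕ)) (x : ℝ) :
    S2 (t :: L) x = t.1 * (t.2.2 * x ^ (t.2.2 - 1)) + S2 L x := by simp [S2]

section piece
variable {n : ℕ} (hn : 4 ≤ n) (r : ℝ) (hr : 0 < r)
include hn hr

theorem he_eq (t : ℤ × ℕ × ℕ) :
    sev r (mo1 n t).he = r ^ (n - 4) * ((rm n t).val r).1 := by
  change sev r [(Nat.succ t.2.1, t.1)] = r ^ (n - 4) * ((t.1 : ℝ) * r ^ (ex n t))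
  rw [sev_single, mul_left_comm, ← zpow_natCast r (n - 4), ← zpow_add₀ hr.ne']
  congr 1
  rw [← zpow_natCast]
  congr 1
  simp only [ex]
  push_cast [Nat.cast_sub hn]
  ring

theorem hr_eq (t : ℤ × ℕ × ℕ) :
    sev r (mo1 n t).hr = r ^ (n - 4) * ((rm n t).val r).2.1 := by
  change sev r [(t.2.1, Int.mul t.1 (i2 (Nat.add t.2.1 5) n))]
    = r ^ (n - 4) * ((t.1 : ℝ) * (((ex n t : ℤ) : ℝ) * r ^ (ex n t - 1)))
  have e0 : ((Int.mul t.1 (i2 (Nat.add t.2.1 5) n) : ℤ) : ℝ)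
      = t.1 * ((ex n t : ℤ) : ℝ) := by
    rw [show Int.mul t.1 (i2 (Nat.add t.2.1 5) n) = t.1 * i2 (t.2.1 + 5) n from rfl,
      Int.cast_mul, i2_cast, ex]
    push_cast; ring
  rw [sev_single, e0]
  have e1 : r ^ (n - 4) * ((t.1 : ℝ) * (((ex n t : ℤ) : ℝ) * r ^ (ex n t - 1)))
      = (t.1 : ℝ) * ((ex n t : ℤ) : ℝ) * (r ^ (n - 4) * r ^ (ex n t - 1)) := by ring
  rw [e1, ← zpow_natCast r (n - 4), ← zpow_add₀ hr.ne']
  congr 1
  rw [← zpow_natCast]
  congr 1
  simp only [ex]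
  push_cast [Nat.cast_sub hn]
  ring

theorem hq_eq (t : ℤ × ℕ × ℕ) :
    sev r (mo1 n t).hq = r ^ (n - 4) * (((rm n t).val r).1 / r) := by
  change sev r [(t.2.1, t.1)] = r ^ (n - 4) * ((t.1 : ℝ) * r ^ (ex n t) / r)
  have e1 : r ^ (n - 4) * ((t.1 : ℝ) * r ^ (ex n t) / r)
      = (t.1 : ℝ) * (r ^ (n - 4) * (r ^ (ex n t) / r)) := by ring
  rw [sev_single, e1, div_eq_mul_inv, ← zpow_sub_one₀ hr.ne', ← zpow_natCast r (n - 4),
    ← zpow_add₀ hr.ne']
  congr 1
  rw [← zpow_natCast]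
  congr 1
  simp only [ex]
  push_cast [Nat.cast_sub hn]
  ring

theorem asm_eq {α : Type} {R : Rg α} {e : α → ℝ} (h : IsEv R e) (Te Tr Tq : ℕ → α) (c : α)
    (mon : List (ℤ × ℕ × ℕ)) :
    pev r ((asm R Te Tr Tq c [(Nat.sub n 4, 1)] (mp (mo1 n) mon)).map e)
      = r ^ (n - 4) * (e c + ((mon.map (fun t => (rm n t).val r)).map (fun v =>
        v.1 * e (Te v.2.2) + v.2.1 * e (Tr v.2.2) + v.1 / r * e (Tq v.2.2))).sum) := by
  rw [h.asm, sev_single, mp_eq, List.map_map, List.map_map, mul_add]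
  congr 1
  · change ((1 : ℤ) : ℝ) * r ^ (n - 4) * e c = _
    push_cast; ring
  · induction mon with
    | nil => simp
    | cons t mon ih =>
      rw [List.map_cons, List.sum_cons, ih, List.map_cons, List.sum_cons, mul_add]
      congr 1
      change sev r (mo1 n t).he * e (Te t.2.2) + sev r (mo1 n t).hr * e (Tr t.2.2)
        + sev r (mo1 n t).hq * e (Tq t.2.2) = r ^ (n - 4) * (((rm n t).val r).1 * e (Te t.2.2)
          + ((rm n t).val r).2.1 * e (Tr t.2.2) + ((rm n t).val r).1 / r * e (Tq t.2.2))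
      rw [he_eq hn r hr, hr_eq hn r hr, hq_eq hn r hr]
      ring

theorem bpp_eq {α : Type} {R : Rg α} {e : α → ℝ} (h : IsEv R e) (a : ℤ) (s p : α) (c d : ℝ)
    (hs : e s = c + d) (hp : e p = c * d) (mon : List (ℤ × ℕ × ℕ)) :
    pev r ((bpp R n a s p [(Nat.sub n 4, 1)] (mp (mo1 n) mon)).map e)
      = r ^ (n - 4) * (2 * a + kpp n r (mon.map (fun t => (rm n t).val r)) c d) := by
  rw [bpp, asm_eq hn r hr h, h.ofI]
  have e0 : ((Int.mul 2 a : ℤ) : ℝ) = 2 * a := by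
    rw [show Int.mul 2 a = 2 * a from rfl]; push_cast; ring
  rw [e0, kpp]
  congr 3
  refine List.map_congr_left fun v _ => ?_
  rw [eTeP n h s p c d hs hp, eTrP h s p c d hs hp, eTqP n h s p c d hs hp]

theorem bpm_eq {α : Type} {R : Rg α} {e : α → ℝ} (h : IsEv R e) (a : ℤ) (c w : α)
    (mon : List (ℤ × ℕ × ℕ)) :
    pev r ((bpm R n a c w [(Nat.sub n 4, 1)] (mp (mo1 n) mon)).map e)
      = r ^ (n - 4) * (2 * a + kpm n r (mon.map (fun t => (rm n t).val r)) (e c) (e w)) := by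
  rw [bpm, asm_eq hn r hr h, h.ofI]
  have e0 : ((Int.mul 2 a : ℤ) : ℝ) = 2 * a := by
    rw [show Int.mul 2 a = 2 * a from rfl]; push_cast; ring
  rw [e0, kpm]
  congr 3
  refine List.map_congr_left fun v _ => ?_
  rw [eTeM n h, eTrM h, eTqM n h]

theorem bmm_eq {α : Type} {R : Rg α} {e : α → ℝ} (h : IsEv R e) (a : ℤ) (v w : α)
    (mon : List (ℤ × ℕ × ℕ)) :
    pev r ((bmm R n a v w [(Nat.sub n 4, 1)] (mp (mo1 n) mon)).map e)
      = r ^ (n - 4) * (2 * a + knn n r (mon.map (fun t => (rm n t).val r)) (e v) (e w)) := by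
  rw [bmm, asm_eq hn r hr h, h.ofI]
  have e0 : ((Int.mul 2 a : ℤ) : ℝ) = 2 * a := by
    rw [show Int.mul 2 a = 2 * a from rfl]; push_cast; ring
  rw [e0, knn]
  congr 3
  refine List.map_congr_left fun v _ => ?_
  rw [eTeN n h, eTrN h, eTqN n h]

theorem pet_eq {α : Type} {R : Rg α} {e : α → ℝ} (h : IsEv R e) (c : α)
    (mon : List (ℤ × ℕ × ℕ)) :
    pev r ((pet R c (mp (mo1 n) mon)).map e)
      = r ^ (n - 4) * S0 (mon.map (fun t => (rm n t).val r)) (e c) := by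
  rw [pet, h.asm, mp_eq]
  have e0 : sev r ([] : List (ℕ × ℤ)) = 0 := by simp [sev]
  rw [e0, zero_mul, zero_add, List.map_map]
  induction mon with
  | nil => simp [S0]
  | cons t mon ih =>
    rw [List.map_cons, List.sum_cons, ih, List.map_cons, S0_cons, mul_add]
    congr 1
    change sev r (mo1 n t).he * e (TeE R c t.2.2) + sev r (mo1 n t).hr * e R.zero
      + sev r (mo1 n t).hq * e R.zero = _
    rw [he_eq hn r hr, h.zero, eTeE h]
    change _ = r ^ (n - 4) * (((rm n t).val r).1 * e c ^ t.2.2)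
    ring

theorem pec_eq {α : Type} {R : Rg α} {e : α → ℝ} (h : IsEv R e) (c : α)
    (mon : List (ℤ × ℕ × ℕ)) (hj : ∀ t ∈ mon, t.2.2 ≠ 1) :
    pev r ((pec R c (mp (mo1 n) mon)).map e) * e c
      = - (r ^ (n - 4) * S2 (mon.map (fun t => (rm n t).val r)) (e c)) := by
  rw [pec, h.asm, mp_eq]
  have e0 : sev r ([] : List (ℕ × ℤ)) = 0 := by simp [sev]
  rw [e0, zero_mul, zero_add, List.map_map]
  induction mon with
  | nil => simp [S2]
  | cons t mon ih =>
    have ih' := ih (fun t' h' => hj t' (by simp [h']))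
    rw [List.map_cons, List.sum_cons, add_mul, ih', List.map_cons, S2_cons]
    change (sev r (mo1 n t).he * e (TeC R c t.2.2) + sev r (mo1 n t).hr * e R.zero
      + sev r (mo1 n t).hq * e R.zero) * e c + _ = _
    rw [he_eq hn r hr, h.zero, eTeC h]
    change _ = - (r ^ (n - 4) * (((rm n t).val r).1 * (t.2.2 * e c ^ (t.2.2 - 1)) + _))
    have h1 : (t.2.2 : ℝ) * (e c ^ (t.2.2 - 2) * e c) = t.2.2 * e c ^ (t.2.2 - 1) := by
      have h2 := hj t (by simp)
      rcases Nat.eq_zero_or_pos t.2.2 with h3 | h3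
      · rw [h3]; simp
      · obtain ⟨k, hk⟩ : ∃ k, t.2.2 = k + 2 := ⟨t.2.2 - 2, by omega⟩
        rw [hk]
        have e3 : k + 2 - 2 = k := by omega
        have e4 : k + 2 - 1 = k + 1 := by omega
        rw [e3, e4, pow_succ]
    have e5 : (r ^ (n - 4) * ((rm n t).val r).1 * (-(t.2.2 : ℝ) * e c ^ (t.2.2 - 2))
        + sev r (mo1 n t).hr * 0 + sev r (mo1 n t).hq * 0) * e c
        = - (r ^ (n - 4) * (((rm n t).val r).1 * ((t.2.2 : ℝ) * (e c ^ (t.2.2 - 2) * e c)))) := by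
      ring
    rw [e5, h1]
    ring

theorem fl1_eq {α : Type} {R : Rg α} {e : α → ℝ} (h : IsEv R e) (a d0 : ℤ) (fs : List (ℕ × ℤ))
    (s p : α) (c d : ℝ) (hs : e s = c + d) (hp : e p = c * d) (mon : List (ℤ × ℕ × ℕ)) :
    pev r ((fl1 R n a d0 fs s p [(Nat.sub n 4, 1)] (mp (mo1 n) mon)).map e)
      = (2 * a + kpp n r (mon.map (fun t => (rm n t).val r)) c d) * r ^ (n - 1)
        - 2 * (c * d) * (d0 * r - sev c fs - sev d fs) := by
  rw [fl1, h.pev_add]
  simp only [List.map_cons, List.map_nil, pev]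
  rw [bpp_eq hn r hr h a s p c d hs hp, h.mul, h.mul, h.mul, h.ofI, h.ofI, hp,
    efsm h s p c d hs hp, h.zero]
  have e0 : ((Int.mul (-2) d0 : ℤ) : ℝ) = -2 * d0 := by
    rw [show Int.mul (-2) d0 = -2 * d0 from rfl]; push_cast; ring
  have e1 : r ^ (n - 1) = r ^ (n - 4) * r ^ 3 := by
    rw [← pow_add]; congr 1; omega
  rw [e0, e1]
  push_cast
  ring

theorem fl1p_eq {α : Type} {R : Rg α} {e : α → ℝ} (h : IsEv R e) (a d0 ep : ℤ)
    (fs : List (ℕ × ℤ)) (s p : α) (c d : ℝ) (hs : e s = c + d) (hp : e p = c * d)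
    (mon : List (ℤ × ℕ × ℕ)) :
    pev r ((fl1p R n a d0 ep fs s p [(Nat.sub n 4, 1)] (mp (mo1 n) mon)).map e)
      = (2 * a + kpp n r (mon.map (fun t => (rm n t).val r)) c d) * r ^ (n - 1)
        - 2 * (c * d) * (d0 * r - sev c fs - sev d fs)
        - ep * (c * d) * ((r - c - d) ^ 2 + (c - d) ^ 2) := by
  rw [fl1p, h.pev_add, pert1_eq h ep s p r c d hs hp, fl1_eq hn r hr h a d0 fs s p c d hs hp mon]
  ring

end piece

/-- the parameter `κ` -/
theorem exists_kap (x y : ℝ) (hx : 0 ≤ x) (hy : 0 ≤ y) :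
    ∃ κ : ℝ, 0 ≤ κ ∧ κ ≤ 1 ∧ ((x + y) / 2) ^ 2 * κ = x * y := by
  rcases eq_or_lt_of_le (add_nonneg hx hy) with h | h
  · have h1 : x = 0 := by linarith
    have h2 : y = 0 := by linarith
    exact ⟨1, zero_le_one, le_rfl, by rw [h1, h2]; norm_num⟩
  · have h2 : 0 < ((x + y) / 2) ^ 2 := by positivity
    refine ⟨x * y / ((x + y) / 2) ^ 2, by positivity, ?_, by field_simp⟩
    rw [div_le_one h2]
    nlinarith [sq_nonneg (x - y)]

/-- all kernel checks (one piece) -/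
structure Chks (D : Data) : Prop where
  n5 : 5 ≤ D.n
  mj : ∀ t ∈ D.mon, t.2.2 ≠ 1 ∧ t.2.1 ≤ D.n - 5
  a0 : 0 < D.a
  am : D.am < D.a
  d0 : 0 < D.d
  ep : 0 < D.ep
  B1 : Chk 0 2 D.qB1
  B2 : Chk 0 2 D.qB2
  Fa : Chk 1 2 D.qFa
  Fb : Chk 1 2 D.qFb
  Fc : Chk 0 2 D.qFc
  F2 : Chk 0 2 D.qF2
  M : Chk 0 1 D.qM
  N : Chk 0 1 D.qN
  E : Chk 0 1 D.qE
  C : Chk 0 1 D.qC
  f : Chk 0 1 D.qf

theorem Chks.cond {D : Data} (h : Chks D) (r : ℝ) (hr : 0 < r) :
    Cond D.n D.a D.d D.ep (fun c => sev (min (max c 0) 1) D.fs) r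
      ((D.mon.map (rm D.n)).map (fun m => m.val r)) := by
  have hn : 4 ≤ D.n := by have := h.n5; omega
  have hpw : 0 < r ^ (D.n - 4) := by positivity
  have ham : ((D.am : ℤ) : ℝ) < D.a := by exact_mod_cast h.am
  have key : ∀ x : ℝ, 0 ≤ r ^ (D.n - 4) * (2 * (D.am : ℝ) + x) → 0 < 2 * (D.a : ℝ) + x := by
    intro x hx
    have := nonneg_of_mul_nonneg_right hx hpw
    linarith
  have hL : (D.mon.map (rm D.n)).map (fun m => m.val r) = D.mon.map (fun t => (rm D.n t).val r) := by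
    rw [List.map_map]; rfl
  rw [hL]
  have hr' : (0 : ℝ) ≤ r := hr.le
  have z1 : ((0 : ℕ) : ℝ) * r ≤ 1 := by simp
  constructor
  · intro t ht
    rw [List.mem_map] at ht
    obtain ⟨t', ht', rfl⟩ := ht
    exact (h.mj t' ht').1
  · intro c hc hc1
    have h1 := h.E.nonneg r c 0 hr' z1 hc (by simpa using hc1) le_rfl zero_le_one
    rw [Data.qE, (isEv3 r c 0).hor, ev_X1, Data.M1, pet_eq hn r hr (isEv3 r c 0), ev_X2] at h1
    exact nonneg_of_mul_nonneg_right h1 hpw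
  · intro c hc hc1
    have h1 := h.C.nonneg r c 0 hr' z1 hc (by simpa using hc1) le_rfl zero_le_one
    rw [Data.qC, (isEv3 r c 0).hor, ev_X1, Data.M1] at h1
    have h2 := pec_eq hn r hr (isEv3 r c 0) X2 D.mon (fun t ht => (h.mj t ht).1)
    rw [ev_X2] at h2
    have h3 := mul_nonneg h1 hc
    rw [h2] at h3
    by_contra h4
    have h5 := mul_pos hpw (not_le.1 h4)
    linarith
  · intro c d hc hc1 hd hd1
    rcases le_total (c + d) 1 with hcd | hcd
    · obtain ⟨κ, k0, k1, hk⟩ := exists_kap c d hc hd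
      have h1 := h.B1.nonneg r ((c + d) / 2) κ hr' z1 (by linarith) (by push_cast; linarith) k0 k1
      rw [Data.qB1, (isEv3 r _ κ).hor, ev_X1, Data.H1, Data.M1,
        bpp_eq hn r hr (isEv3 r _ κ) D.am sI pI c d (by rw [ev_sI]; ring)
          (by rw [ev_pI, hk])] at h1
      exact key _ h1
    · obtain ⟨κ, k0, k1, hk⟩ := exists_kap (1 - c) (1 - d) (by linarith) (by linarith)
      have h1 := h.B2.nonneg r ((1 - c + (1 - d)) / 2) κ hr' z1 (by linarith)
        (by push_cast; linarith) k0 k1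
      rw [Data.qB2, (isEv3 r _ κ).hor, ev_X1, Data.H1, Data.M1,
        bpp_eq hn r hr (isEv3 r _ κ) D.am sII pII c d (by rw [ev_sII]; ring)
          (by rw [ev_pII, hk]; ring)] at h1
      exact key _ h1
  · intro c w hc hc1 hw hw1
    have h1 := h.M.nonneg r c w hr' z1 hc (by simpa using hc1) hw hw1
    rw [Data.qM, (isEv3 r c w).hor, ev_X1, Data.H1, Data.M1, bpm_eq hn r hr (isEv3 r c w),
      ev_X2, ev_X3] at h1
    exact key _ h1
  · intro v w hv hv1 hw hw1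
    have h1 := h.N.nonneg r v w hr' z1 hv (by simpa using hv1) hw hw1
    rw [Data.qN, (isEv3 r v w).hor, ev_X1, Data.H1, Data.M1, bmm_eq hn r hr (isEv3 r v w),
      ev_X2, ev_X3] at h1
    exact key _ h1
  · intro c d hc hc1 hd hd1
    have ec : min (max c 0) 1 = c := by rw [max_eq_left hc.le, min_eq_left hc1]
    have ed : min (max d 0) 1 = d := by rw [max_eq_left hd.le, min_eq_left hd1]
    simp only [ec, ed]
    rcases le_total (c + d) 1 with hcd | hcd
    · obtain ⟨κ, k0, k1, hk⟩ := exists_kap c d hc.le hd.le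
      have hX : 0 < (c + d) / 2 := by linarith
      have hX2 : ((2 : ℕ) : ℝ) * ((c + d) / 2) ≤ 1 := by push_cast; linarith
      rcases le_total r (4 * ((c + d) / 2)) with h4 | h4
      · have h1 := h.Fa.nonneg (r / (4 * ((c + d) / 2))) ((c + d) / 2) κ (by positivity)
          (by push_cast; rw [one_mul]; exact (div_le_one (by positivity)).2 h4) hX.le hX2 k0 k1
        have er : ev3 (r / (4 * ((c + d) / 2))) ((c + d) / 2) κ
            (R3.mul (R3.mul (R3.ofI 2) sI) X1) = r := by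
          rw [(isEv3 _ _ _).mul, (isEv3 _ _ _).mul, (isEv3 _ _ _).ofI, ev_sI, ev_X1]
          field_simp
          norm_num
        rw [Data.qFa, (isEv3 _ _ κ).hor, er, Data.H1, Data.M1,
          fl1p_eq hn r hr (isEv3 _ _ κ) D.a D.d D.ep D.fs sI pI c d (by rw [ev_sI]; ring)
            (by rw [ev_pI, hk])] at h1
        linarith
      · rcases le_total r 2 with h5 | h5
        · have h1 := h.Fb.nonneg (r / 2) (2 * ((c + d) / 2) / r) κ (by positivity)
            (by push_cast; linarith) (by positivity)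
            (by push_cast; rw [mul_div_assoc', div_le_one hr]; linarith) k0 k1
          have er : ev3 (r / 2) (2 * ((c + d) / 2) / r) κ (R3.mul (R3.ofI 2) X1) = r := by
            rw [(isEv3 _ _ _).mul, (isEv3 _ _ _).ofI, ev_X1]
            push_cast; ring
          have es : ev3 (r / 2) (2 * ((c + d) / 2) / r) κ
              (R3.mul (R3.mul (R3.ofI 2) X1) X2) = c + d := by
            rw [(isEv3 _ _ _).mul, er, ev_X2]
            field_simp
          have ep : ev3 (r / 2) (2 * ((c + d) / 2) / r) κ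
              (R3.mul (R3.mul (R3.mul X1 X2) (R3.mul X1 X2)) X3) = c * d := by
            rw [(isEv3 _ _ _).mul, (isEv3 _ _ _).mul, (isEv3 _ _ _).mul, ev_X1, ev_X2, ev_X3,
              ← hk]
            field_simp
          rw [Data.qFb, (isEv3 _ _ κ).hor, er, Data.H1, Data.M1,
            fl1p_eq hn r hr (isEv3 _ _ κ) D.a D.d D.ep D.fs _ _ c d es ep] at h1
          linarith
        · have h1 := h.Fc.nonneg (r - 2) ((c + d) / 2) κ (by linarith) (by simp) hX.le hX2 k0 k1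
          have er : ev3 (r - 2) ((c + d) / 2) κ (R3.add (R3.ofI 2) X1) = r := by
            rw [(isEv3 _ _ _).add, (isEv3 _ _ _).ofI, ev_X1]
            push_cast; ring
          rw [Data.qFc, (isEv3 _ _ κ).hor, er, Data.H1, Data.M1,
            fl1p_eq hn r hr (isEv3 _ _ κ) D.a D.d D.ep D.fs sI pI c d (by rw [ev_sI]; ring)
              (by rw [ev_pI, hk])] at h1
          linarith
    · obtain ⟨κ, k0, k1, hk⟩ := exists_kap (1 - c) (1 - d) (by linarith) (by linarith)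
      have hX2 : ((2 : ℕ) : ℝ) * ((1 - c + (1 - d)) / 2) ≤ 1 := by push_cast; linarith
      have h1 := h.F2.nonneg (r / (c + d)) ((1 - c + (1 - d)) / 2) κ (by positivity)
        (by simp) (by linarith) hX2 k0 k1
      have er : ev3 (r / (c + d)) ((1 - c + (1 - d)) / 2) κ (R3.mul sII X1) = r := by
        rw [(isEv3 _ _ _).mul, ev_sII, ev_X1]
        have : c + d ≠ 0 := by positivity
        field_simp
        ring
      rw [Data.qF2, (isEv3 _ _ κ).hor, er, Data.H1, Data.M1,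
        fl1p_eq hn r hr (isEv3 _ _ κ) D.a D.d D.ep D.fs sII pII c d (by rw [ev_sII]; ring)
          (by rw [ev_pII, hk]; ring)] at h1
      linarith

theorem sev_cont (fs : List (ℕ × ℤ)) : Continuous (fun y => sev y fs) := by
  induction fs with
  | nil => simpa [sev] using continuous_const
  | cons kz fs ih =>
    have e1 : (fun y => sev y (kz :: fs)) = fun y => (kz.2 : ℝ) * y ^ kz.1 + sev y fs := by
      funext y; simp [sev]
    rw [e1]
    exact (continuous_const.mul (continuous_pow _)).add ih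

/-- from kernel checks to a strict raw certificate -/
theorem Chks.strict {D : Data} (h : Chks D) (q1 : ℚ) (hq : finc D.n D.a D.d D.fs q1) :
    ∃ c : RawCert D.n, c.Strict := by
  refine rawCert_of D.n D.a D.d D.ep (fun c => sev (min (max c 0) 1) D.fs) (D.mon.map (rm D.n)) ?_
    (by exact_mod_cast h.a0) (by exact_mod_cast h.d0) (by exact_mod_cast h.ep) ?_ ?_
    (fun r hr => h.cond r hr)
    (fun e he => fin_of D.n (by have := h.n5; omega) D.a D.d D.fs q1 hq e he)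
  · intro m hm
    rw [List.mem_map] at hm
    obtain ⟨t, ht, rfl⟩ := hm
    refine rm_good D.n t (h.mj t ht).1 ?_
    have h1 := (h.mj t ht).2
    have h2 := h.n5
    simp only [ex]
    omega
  · exact (sev_cont D.fs).comp ((continuous_id.max continuous_const).min continuous_const)
  · intro c
    set x := min (max c 0) 1 with hx
    have hx0 : 0 ≤ x := le_min (le_max_right _ _) zero_le_one
    have hx1 : x ≤ 1 := min_le_right _ _
    have h1 := h.f.nonneg 0 x 0 le_rfl (by simp) hx0 (by simpa using hx1) le_rfl zero_le_one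
    rw [Data.qf, (isEv3 0 x 0).hor, ev_X2, (isEv3 0 x 0).spl, (isEv3 0 x 0).ofI] at h1
    simpa using h1

theorem Chks.hasKer {D : Data} (h : Chks D) (q1 : ℚ) (hq : finc D.n D.a D.d D.fs q1) :
    HasKer D.n := by
  obtain ⟨c, -⟩ := h.strict q1 hq
  exact hasKer_of_raw (by have := h.n5; omega) c

end

end Vale.Agent.Lib.P219.Bern
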