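import Vale.Agent.Lib.P219.Ce.Build2

/-! # P219 certificates: two pieces (`r ≤ 2` and `r > 2`, variable `x = 2/r`) -/

namespace Vale.Agent.Lib.P219.Bern

open MeasureTheory Set Filter Topology

noncomputable section

/-! ## gluing at `r = 2` -/

theorem pw_deriv (f1 f2 g1 g2 : ℝ → ℝ) (h1 : ∀ r, 0 < r → HasDerivAt f1 (g1 r) r)
    (h2 : ∀ r, 0 < r → HasDerivAt f2 (g2 r) r) (e0 : f1 2 = f2 2) (e1 : g1 2 = g2 2)
    (r : ℝ) (hr : 0 < r) :
    HasDerivAt (fun r => if r ≤ 2 then f1 r else f2 r) (if r ≤ 2 then g1 r else g2 r) r := by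
  rcases lt_trichotomy r 2 with h | h | h
  · rw [if_pos h.le]
    refine (h1 r hr).congr_of_eventuallyEq ?_
    filter_upwards [gt_mem_nhds h] with s hs
    rw [if_pos hs.le]
  · subst h
    rw [if_pos le_rfl]
    have a1 : HasDerivWithinAt (fun r => if r ≤ 2 then f1 r else f2 r) (g1 2) (Iic 2) 2 := by
      refine ((h1 2 hr).hasDerivWithinAt (s := Iic 2)).congr (fun s hs => ?_) ?_
      · exact if_pos hs
      · exact if_pos le_rfl
    have a2 : HasDerivWithinAt (fun r => if r ≤ 2 then f1 r else f2 r) (g1 2) (Ici 2) 2 := by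
      rw [e1]
      refine ((h2 2 hr).hasDerivWithinAt (s := Ici 2)).congr (fun s hs => ?_) ?_
      · rcases eq_or_lt_of_le (show (2 : ℝ) ≤ s from hs) with h3 | h3
        · rw [← h3, if_pos le_rfl, e0]
        · exact if_neg (not_le.2 h3)
      · rw [if_pos le_rfl, e0]
    have a3 := a1.union a2
    rw [Iic_union_Ici] at a3
    exact hasDerivWithinAt_univ.1 a3
  · rw [if_neg (not_le.2 h)]
    refine (h2 r hr).congr_of_eventuallyEq ?_
    filter_upwards [lt_mem_nhds h] with s hs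
    rw [if_neg (not_le.2 hs)]

theorem pw_cont (g1 g2 : ℝ → ℝ) (h1 : ∀ r, 0 < r → ContinuousAt g1 r)
    (h2 : ∀ r, 0 < r → ContinuousAt g2 r) (e1 : g1 2 = g2 2) :
    ContinuousOn (fun r => if r ≤ 2 then g1 r else g2 r) (Ioi 0) := by
  intro r hr
  refine ContinuousAt.continuousWithinAt ?_
  have hr0 : 0 < r := hr
  rcases lt_trichotomy r 2 with h | h | h
  · refine (h1 r hr0).congr ?_
    filter_upwards [gt_mem_nhds h] with s hs
    rw [if_pos hs.le]
  · subst h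
    have a1 : ContinuousWithinAt (fun r => if r ≤ 2 then g1 r else g2 r) (Iic 2) 2 := by
      refine ((h1 2 hr0).continuousWithinAt (s := Iic 2)).congr (fun s hs => ?_) ?_
      · exact if_pos hs
      · exact if_pos le_rfl
    have a2 : ContinuousWithinAt (fun r => if r ≤ 2 then g1 r else g2 r) (Ici 2) 2 := by
      refine ((h2 2 hr0).continuousWithinAt (s := Ici 2)).congr (fun s hs => ?_) ?_
      · rcases eq_or_lt_of_le (show (2 : ℝ) ≤ s from hs) with h3 | h3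
        · rw [← h3, if_pos le_rfl, e1]
        · exact if_neg (not_le.2 h3)
      · rw [if_pos le_rfl, e1]
    have a3 := a1.union a2
    rw [Iic_union_Ici] at a3
    exact (continuousWithinAt_univ _ _).1 a3
  · refine (h2 r hr0).congr ?_
    filter_upwards [lt_mem_nhds h] with s hs
    rw [if_neg (not_le.2 hs)]

/-- outer radial function -/
def ro (n : ℕ) (t : ℤ × ℕ × ℕ) (r : ℝ) : ℝ :=
  (t.1 : ℝ) * (2 : ℝ) ^ (ex n t) * ((3 + (ex n t : ℤ)) * (2 / r) ^ 2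
    - (2 + (ex n t : ℤ)) * (2 / r) ^ 3)

def ro' (n : ℕ) (t : ℤ × ℕ × ℕ) (r : ℝ) : ℝ :=
  (t.1 : ℝ) * (2 : ℝ) ^ (ex n t) * ((3 + (ex n t : ℤ)) * (-(2 / r) ^ 3)
    - (2 + (ex n t : ℤ)) * (-(3 / 2) * (2 / r) ^ 4))

def rm2 (n : ℕ) (t : ℤ × ℕ × ℕ) : RM where
  ρ := fun r => if r ≤ 2 then (rm n t).ρ r else ro n t r
  ρ' := fun r => if r ≤ 2 then (rm n t).ρ' r else ro' n t r
  j := t.2.2

theorem ro_deriv (n : ℕ) (t : ℤ × ℕ × ℕ) (r : ℝ) (hr : 0 < r) :
    HasDerivAt (ro n t) (ro' n t r) r := by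
  have h1 : HasDerivAt (fun r : ℝ => 2 / r) (-(2 / r) ^ 2 / 2) r := by
    have h := (hasDerivAt_inv hr.ne').const_mul (2 : ℝ)
    have e : (2 : ℝ) * (-(r ^ 2)⁻¹) = -(2 / r) ^ 2 / 2 := by
      field_simp
    rw [e] at h
    simpa [div_eq_mul_inv] using h
  have h2 : HasDerivAt (fun r : ℝ => (2 / r) ^ 2) (-(2 / r) ^ 3) r := by
    have h := h1.pow 2
    have e : ((2 : ℕ) : ℝ) * (2 / r) ^ (2 - 1) * (-(2 / r) ^ 2 / 2) = -(2 / r) ^ 3 := by
      push_cast; ring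
    rw [e] at h
    exact h
  have h3 : HasDerivAt (fun r : ℝ => (2 / r) ^ 3) (-(3 / 2) * (2 / r) ^ 4) r := by
    have h := h1.pow 3
    have e : ((3 : ℕ) : ℝ) * (2 / r) ^ (3 - 1) * (-(2 / r) ^ 2 / 2) = -(3 / 2) * (2 / r) ^ 4 := by
      push_cast; ring
    rw [e] at h
    exact h
  exact ((h2.const_mul _).sub (h3.const_mul _)).const_mul _

theorem ro'_cont (n : ℕ) (t : ℤ × ℕ × ℕ) (r : ℝ) (hr : 0 < r) :
    ContinuousAt (ro' n t) r := by
  have h1 : ContinuousAt (fun r : ℝ => 2 / r) r := continuousAt_const.div continuousAt_id hr.ne'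
  unfold ro'
  exact continuousAt_const.mul ((continuousAt_const.mul (h1.pow 3).neg).sub
    (continuousAt_const.mul (continuousAt_const.mul (h1.pow 4))))

theorem rm2_good (n : ℕ) (t : ℤ × ℕ × ℕ) (hj : t.2.2 ≠ 1) : (rm2 n t).Good := by
  have hd1 : ∀ r, 0 < r → HasDerivAt (rm n t).ρ ((rm n t).ρ' r) r := fun r hr =>
    ((hasDerivAt_zpow (ex n t) r (Or.inl hr.ne')).const_mul (t.1 : ℝ))
  have hc1 : ∀ r, 0 < r → ContinuousAt (rm n t).ρ' r := fun r hr =>
    continuousAt_const.mul (continuousAt_const.mul (continuousAt_zpow₀ r _ (Or.inl hr.ne')))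
  have two : (2 : ℝ) ≠ 0 := two_ne_zero
  have e0 : (rm n t).ρ 2 = ro n t 2 := by
    change (t.1 : ℝ) * (2 : ℝ) ^ (ex n t) = _
    unfold ro
    norm_num
  have e1 : (rm n t).ρ' 2 = ro' n t 2 := by
    change (t.1 : ℝ) * (((ex n t : ℤ) : ℝ) * (2 : ℝ) ^ (ex n t - 1)) = _
    unfold ro'
    rw [zpow_sub_one₀ two]
    norm_num
    ring
  refine ⟨hj, fun r hr => pw_deriv _ _ _ _ hd1 (fun r hr => ro_deriv n t r hr) e0 e1 r hr,
    pw_cont _ _ hc1 (fun r hr => ro'_cont n t r hr) e1, fun δ hδ => ?_⟩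
  -- bounds
  have k1 : ContinuousOn (rm n t).ρ (Icc δ 2) := fun r hr =>
    (hd1 r (hδ.trans_le hr.1)).continuousAt.continuousWithinAt
  have k2 : ContinuousOn (rm n t).ρ' (Icc δ 2) := fun r hr =>
    (hc1 r (hδ.trans_le hr.1)).continuousWithinAt
  obtain ⟨C1, hC1⟩ := isCompact_Icc.exists_bound_of_continuousOn k1
  obtain ⟨C2, hC2⟩ := isCompact_Icc.exists_bound_of_continuousOn k2
  set A : ℝ := |(t.1 : ℝ) * (2 : ℝ) ^ (ex n t)|
  set B1 : ℝ := |3 + ((ex n t : ℤ) : ℝ)|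
  set B2 : ℝ := |2 + ((ex n t : ℤ) : ℝ)|
  have hA : 0 ≤ A := abs_nonneg _
  have hB1 : 0 ≤ B1 := abs_nonneg _
  have hB2 : 0 ≤ B2 := abs_nonneg _
  refine ⟨|C1| + |C2| + A * (B1 + 2 * B2), fun r hr => ?_⟩
  have hAB : 0 ≤ A * (B1 + 2 * B2) := by positivity
  have hc1' := abs_nonneg C1
  have hc2' := abs_nonneg C2
  have hc1'' := le_abs_self C1
  have hc2'' := le_abs_self C2
  change |if r ≤ 2 then (rm n t).ρ r else ro n t r| ≤ _ ∧
    |if r ≤ 2 then (rm n t).ρ' r else ro' n t r| ≤ _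
  rcases le_or_gt r 2 with h | h
  · rw [if_pos h, if_pos h]
    have a1 := hC1 r ⟨hr, h⟩
    have a2 := hC2 r ⟨hr, h⟩
    rw [Real.norm_eq_abs] at a1 a2
    constructor <;> linarith
  · rw [if_neg (not_le.2 h), if_neg (not_le.2 h)]
    have hr0 : 0 < r := hδ.trans_le hr
    have x0 : 0 ≤ 2 / r := by positivity
    have x1 : 2 / r ≤ 1 := (div_le_one hr0).2 h.le
    have p2 : |(2 / r) ^ 2| ≤ 1 := by rw [abs_of_nonneg (by positivity)]; exact pow_le_one₀ x0 x1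
    have p3 : |(2 / r) ^ 3| ≤ 1 := by rw [abs_of_nonneg (by positivity)]; exact pow_le_one₀ x0 x1
    have p4 : |(2 / r) ^ 4| ≤ 1 := by rw [abs_of_nonneg (by positivity)]; exact pow_le_one₀ x0 x1
    constructor
    · unfold ro
      rw [abs_mul]
      have q1 : |(3 + ((ex n t : ℤ) : ℝ)) * (2 / r) ^ 2 - (2 + ((ex n t : ℤ) : ℝ)) * (2 / r) ^ 3|
          ≤ B1 + 2 * B2 := by
        refine (abs_sub _ _).trans ?_
        rw [abs_mul, abs_mul]
        have := mul_le_mul_of_nonneg_left p2 hB1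
        have := mul_le_mul_of_nonneg_left p3 hB2
        linarith
      have := mul_le_mul_of_nonneg_left q1 hA
      linarith
    · unfold ro'
      rw [abs_mul]
      have q1 : |(3 + ((ex n t : ℤ) : ℝ)) * (-(2 / r) ^ 3)
          - (2 + ((ex n t : ℤ) : ℝ)) * (-(3 / 2) * (2 / r) ^ 4)| ≤ B1 + 2 * B2 := by
        refine (abs_sub _ _).trans ?_
        rw [abs_mul, abs_mul, abs_neg, abs_mul, abs_neg,
          abs_of_pos (show (0 : ℝ) < 3 / 2 by norm_num)]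
        have := mul_le_mul_of_nonneg_left p3 hB1
        have := mul_le_mul_of_nonneg_left p4 hB2
        nlinarith
      have := mul_le_mul_of_nonneg_left q1 hA
      linarith

/-! ## the outer piece -/

/-- outer piece (variable `x = 2/r`, factor `2^(n-4)`) -/
def mo2 (n : ℕ) (t : ℤ × ℕ × ℕ) : Mo :=
  ⟨[(2, Int.mul (Int.mul t.1 (Int.ofNat (Nat.pow 2 (Nat.succ t.2.1)))) (i2 (Nat.add t.2.1 8) n)),
    (3, Int.mul (Int.mul t.1 (Int.ofNat (Nat.pow 2 (Nat.succ t.2.1)))) (i2 n (Nat.add t.2.1 7)))],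
   [(3, Int.mul (Int.mul (Int.mul (-2) t.1) (Int.ofNat (Nat.pow 2 t.2.1)))
      (i2 (Nat.add t.2.1 8) n)),
    (4, Int.mul (Int.mul (Int.mul 3 t.1) (Int.ofNat (Nat.pow 2 t.2.1)))
      (i2 (Nat.add t.2.1 7) n))],
   [(3, Int.mul (Int.mul t.1 (Int.ofNat (Nat.pow 2 t.2.1))) (i2 (Nat.add t.2.1 8) n)),
    (4, Int.mul (Int.mul t.1 (Int.ofNat (Nat.pow 2 t.2.1))) (i2 n (Nat.add t.2.1 7)))],
   t.2.2⟩

theorem im_cast (a b : ℤ) : ((Int.mul a b : ℤ) : ℝ) = a * b := Int.cast_mul a b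

theorem i2p_cast (k : ℕ) : ((Int.ofNat (Nat.pow 2 k) : ℤ) : ℝ) = 2 ^ k := by
  change (((2 ^ k : ℕ) : ℤ) : ℝ) = 2 ^ k
  push_cast; rfl

/-- chord polynomial, outer piece -/
def fl2 {α : Type} (R : Rg α) (n : ℕ) (a d : ℤ) (fs : List (ℕ × ℤ)) (s p : α)
    (H : List (ℕ × ℤ)) (M : List Mo) : List α :=
  zadd R.add (mp (R.mul (R.ofI 4)) (bpp R n a s p H M))
    (zadd R.add (atk R (Nat.sub n 2) (R.mul (R.ofI (Int.mul (-2) d)) p))
      (atk R (Nat.sub n 1) (R.mul p (fsm R s p fs))))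

theorem two_zpow {n : ℕ} (hn : 4 ≤ n) (t : ℤ × ℕ × ℕ) :
    (2 : ℝ) ^ (n - 4) * (2 : ℝ) ^ (ex n t) = 2 ^ (t.2.1 + 1) := by
  rw [← zpow_natCast (2 : ℝ) (n - 4), ← zpow_add₀ two_ne_zero, ← zpow_natCast]
  congr 1
  simp only [ex]
  push_cast [Nat.cast_sub hn]
  ring

/-- perturbation, outer piece -/
def pert2 {α : Type} (R : Rg α) (n : ℕ) (ep : ℤ) (s p : α) : List α :=
  zadd R.add (atk R (Nat.sub n 3) (R.mul (R.ofI (Int.mul (-2) ep)) p))
    (zadd R.add (atk R (Nat.sub n 2) (R.mul (R.mul (R.ofI (Int.mul 2 ep)) p) s))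
      (atk R (Nat.sub n 1) (R.mul (R.mul (R.ofI ep) p)
        (R.sub (R.mul (R.ofI 2) p) (R.mul s s)))))

def fl2p {α : Type} (R : Rg α) (n : ℕ) (a d ep : ℤ) (fs : List (ℕ × ℤ)) (s p : α)
    (H : List (ℕ × ℤ)) (M : List Mo) : List α :=
  zadd R.add (pert2 R n ep s p) (fl2 R n a d fs s p H M)

theorem pert2_eq {α : Type} {R : Rg α} {e : α → ℝ} (h : IsEv R e) (ep : ℤ) (s p : α)
    (n : ℕ) (hn : 4 ≤ n) (r : ℝ) (hr : 0 < r) (c d : ℝ)
    (hs : e s = c + d) (hp : e p = c * d) :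
    r ^ (n - 1) * pev (2 / r) ((pert2 R n ep s p).map e)
      = -(2 ^ (n - 2) * (ep * (c * d) * ((r - c - d) ^ 2 + (c - d) ^ 2))) := by
  have hr0 : r ≠ 0 := hr.ne'
  rw [pert2, h.pev_add, h.pev_add, h.atk, h.atk, h.atk]
  simp only [h.mul, h.sub, h.ofI, hs, hp, im_cast]
  obtain ⟨k, rfl⟩ := Nat.exists_eq_add_of_le hn
  have e1 : 4 + k - 1 = k + 3 := by omega
  have e0 : Nat.sub (4 + k) 3 = k + 1 := by change 4 + k - 3 = _; omega
  have e2 : Nat.sub (4 + k) 2 = k + 2 := by change 4 + k - 2 = _; omega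
  have e3 : Nat.sub (4 + k) 1 = k + 3 := by change 4 + k - 1 = _; omega
  have e5 : 4 + k - 2 = k + 2 := by omega
  rw [e0, e1, e2, e3, e5]
  have e55 : r ^ (k + 3) * (2 / r) ^ (k + 1) = 2 ^ (k + 1) * r ^ 2 := by
    rw [div_pow, show k + 3 = (k + 1) + 2 by ring, pow_add r (k + 1) 2]
    field_simp
  have e6 : r ^ (k + 3) * (2 / r) ^ (k + 2) = 2 ^ (k + 2) * r := by
    rw [div_pow, pow_succ r (k + 2)]
    field_simp
  have e7 : r ^ (k + 3) * (2 / r) ^ (k + 3) = 2 ^ (k + 3) := by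
    rw [div_pow]
    field_simp
  have e8 : r ^ (k + 3) * ((2 / r) ^ (k + 1) * (((-2 : ℤ) : ℝ) * (ep : ℝ) * (c * d))
      + ((2 / r) ^ (k + 2) * (((2 : ℤ) : ℝ) * (ep : ℝ) * (c * d) * (c + d))
      + (2 / r) ^ (k + 3) * ((ep : ℝ) * (c * d) * (((2 : ℤ) : ℝ) * (c * d)
        - (c + d) * (c + d)))))
      = (r ^ (k + 3) * (2 / r) ^ (k + 1)) * (-2 * (ep : ℝ) * (c * d))
      + (r ^ (k + 3) * (2 / r) ^ (k + 2)) * (2 * (ep : ℝ) * (c * d) * (c + d))
      + (r ^ (k + 3) * (2 / r) ^ (k + 3)) * ((ep : ℝ) * (c * d) * (2 * (c * d)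
        - (c + d) * (c + d))) := by
    push_cast; ring
  rw [e8, e55, e6, e7]
  have e9 : (2 : ℝ) ^ (k + 2) = 4 * 2 ^ k := by rw [pow_add]; norm_num; ring
  have e10 : (2 : ℝ) ^ (k + 3) = 8 * 2 ^ k := by rw [pow_add]; norm_num; ring
  have e11 : (2 : ℝ) ^ (k + 1) = 2 * 2 ^ k := by rw [pow_add]; norm_num; ring
  rw [e9, e10, e11]
  ring

section piece
variable {n : ℕ} (hn : 4 ≤ n) (r : ℝ) (hr : 2 < r)
include hn hr

theorem he2_eq (t : ℤ × ℕ × ℕ) :
    sev (2 / r) (mo2 n t).he = 2 ^ (n - 4) * ((rm2 n t).val r).1 := by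
  change _ = 2 ^ (n - 4) * (if r ≤ 2 then (rm n t).ρ r else ro n t r)
  rw [if_neg (not_le.2 hr)]
  have h := two_zpow hn t
  simp only [mo2, sev, List.map_cons, List.map_nil, List.sum_cons, List.sum_nil, im_cast,
    i2p_cast, i2_cast, ro]
  have e : (2 : ℝ) ^ (n - 4) * ((t.1 : ℝ) * (2 : ℝ) ^ (ex n t) * ((3 + (ex n t : ℤ)) * (2 / r) ^ 2
      - (2 + (ex n t : ℤ)) * (2 / r) ^ 3))
      = (t.1 : ℝ) * ((2 : ℝ) ^ (n - 4) * (2 : ℝ) ^ (ex n t)) * ((3 + (ex n t : ℤ)) * (2 / r) ^ 2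
      - (2 + (ex n t : ℤ)) * (2 / r) ^ 3) := by ring
  rw [e, h]
  simp only [ex]
  change (t.1 : ℝ) * 2 ^ (t.2.1 + 1) * (((t.2.1 + 8 : ℕ) : ℝ) - n) * (2 / r) ^ 2
    + ((t.1 : ℝ) * 2 ^ (t.2.1 + 1) * ((n : ℝ) - ((t.2.1 + 7 : ℕ) : ℝ)) * (2 / r) ^ 3 + 0) = _
  push_cast
  ring

theorem hr2_eq (t : ℤ × ℕ × ℕ) :
    sev (2 / r) (mo2 n t).hr = 2 ^ (n - 4) * ((rm2 n t).val r).2.1 := by
  change _ = 2 ^ (n - 4) * (if r ≤ 2 then (rm n t).ρ' r else ro' n t r)
  rw [if_neg (not_le.2 hr)]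
  have h := two_zpow hn t
  simp only [mo2, sev, List.map_cons, List.map_nil, List.sum_cons, List.sum_nil, im_cast,
    i2p_cast, i2_cast, ro']
  have e : (2 : ℝ) ^ (n - 4) * ((t.1 : ℝ) * (2 : ℝ) ^ (ex n t)
      * ((3 + (ex n t : ℤ)) * (-(2 / r) ^ 3) - (2 + (ex n t : ℤ)) * (-(3 / 2) * (2 / r) ^ 4)))
      = (t.1 : ℝ) * ((2 : ℝ) ^ (n - 4) * (2 : ℝ) ^ (ex n t))
      * ((3 + (ex n t : ℤ)) * (-(2 / r) ^ 3) - (2 + (ex n t : ℤ)) * (-(3 / 2) * (2 / r) ^ 4)) := by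
    ring
  rw [e, h]
  simp only [ex]
  change ((-2 : ℤ) : ℝ) * (t.1 : ℝ) * 2 ^ t.2.1 * (((t.2.1 + 8 : ℕ) : ℝ) - n) * (2 / r) ^ 3
    + (((3 : ℤ) : ℝ) * (t.1 : ℝ) * 2 ^ t.2.1 * (((t.2.1 + 7 : ℕ) : ℝ) - n) * (2 / r) ^ 4 + 0) = _
  push_cast
  ring

theorem hq2_eq (t : ℤ × ℕ × ℕ) :
    sev (2 / r) (mo2 n t).hq = 2 ^ (n - 4) * (((rm2 n t).val r).1 / r) := by
  change _ = 2 ^ (n - 4) * ((if r ≤ 2 then (rm n t).ρ r else ro n t r) / r)
  rw [if_neg (not_le.2 hr)]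
  have h := two_zpow hn t
  simp only [mo2, sev, List.map_cons, List.map_nil, List.sum_cons, List.sum_nil, im_cast,
    i2p_cast, i2_cast, ro]
  have e : (2 : ℝ) ^ (n - 4) * ((t.1 : ℝ) * (2 : ℝ) ^ (ex n t) * ((3 + (ex n t : ℤ)) * (2 / r) ^ 2
      - (2 + (ex n t : ℤ)) * (2 / r) ^ 3) / r)
      = (t.1 : ℝ) * ((2 : ℝ) ^ (n - 4) * (2 : ℝ) ^ (ex n t)) * ((3 + (ex n t : ℤ)) * (2 / r) ^ 2
      - (2 + (ex n t : ℤ)) * (2 / r) ^ 3) / r := by ring
  rw [e, h]
  simp only [ex]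
  change (t.1 : ℝ) * 2 ^ t.2.1 * (((t.2.1 + 8 : ℕ) : ℝ) - n) * (2 / r) ^ 3
    + ((t.1 : ℝ) * 2 ^ t.2.1 * ((n : ℝ) - ((t.2.1 + 7 : ℕ) : ℝ)) * (2 / r) ^ 4 + 0) = _
  push_cast
  ring

theorem asm2_eq {α : Type} {R : Rg α} {e : α → ℝ} (h : IsEv R e) (Te Tr Tq : ℕ → α) (c : α)
    (mon : List (ℤ × ℕ × ℕ)) :
    pev (2 / r) ((asm R Te Tr Tq c [(0, Int.ofNat (Nat.pow 2 (Nat.sub n 4)))]
        (mp (mo2 n) mon)).map e)
      = 2 ^ (n - 4) * (e c + ((mon.map (fun t => (rm2 n t).val r)).map (fun v =>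
        v.1 * e (Te v.2.2) + v.2.1 * e (Tr v.2.2) + v.1 / r * e (Tq v.2.2))).sum) := by
  rw [h.asm, sev_single, mp_eq, List.map_map, List.map_map, mul_add, i2p_cast]
  congr 1
  · change 2 ^ (n - 4) * (2 / r) ^ 0 * e c = _
    ring
  · induction mon with
    | nil => simp
    | cons t mon ih =>
      rw [List.map_cons, List.sum_cons, ih, List.map_cons, List.sum_cons, mul_add]
      congr 1
      change sev (2 / r) (mo2 n t).he * e (Te t.2.2) + sev (2 / r) (mo2 n t).hr * e (Tr t.2.2)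
        + sev (2 / r) (mo2 n t).hq * e (Tq t.2.2)
        = 2 ^ (n - 4) * (((rm2 n t).val r).1 * e (Te t.2.2)
          + ((rm2 n t).val r).2.1 * e (Tr t.2.2) + ((rm2 n t).val r).1 / r * e (Tq t.2.2))
      rw [he2_eq hn r hr, hr2_eq hn r hr, hq2_eq hn r hr]
      ring

theorem bpp2_eq {α : Type} {R : Rg α} {e : α → ℝ} (h : IsEv R e) (a : ℤ) (s p : α) (c d : ℝ)
    (hs : e s = c + d) (hp : e p = c * d) (mon : List (ℤ × ℕ × ℕ)) :
    pev (2 / r) ((bpp R n a s p [(0, Int.ofNat (Nat.pow 2 (Nat.sub n 4)))]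
        (mp (mo2 n) mon)).map e)
      = 2 ^ (n - 4) * (2 * a + kpp n r (mon.map (fun t => (rm2 n t).val r)) c d) := by
  rw [bpp, asm2_eq hn r hr h, h.ofI]
  have e0 : ((Int.mul 2 a : ℤ) : ℝ) = 2 * a := by rw [im_cast]; push_cast; ring
  rw [e0, kpp]
  congr 3
  refine List.map_congr_left fun v _ => ?_
  rw [eTeP n h s p c d hs hp, eTrP h s p c d hs hp, eTqP n h s p c d hs hp]

theorem bpm2_eq {α : Type} {R : Rg α} {e : α → ℝ} (h : IsEv R e) (a : ℤ) (c w : α)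
    (mon : List (ℤ × ℕ × ℕ)) :
    pev (2 / r) ((bpm R n a c w [(0, Int.ofNat (Nat.pow 2 (Nat.sub n 4)))]
        (mp (mo2 n) mon)).map e)
      = 2 ^ (n - 4) * (2 * a + kpm n r (mon.map (fun t => (rm2 n t).val r)) (e c) (e w)) := by
  rw [bpm, asm2_eq hn r hr h, h.ofI]
  have e0 : ((Int.mul 2 a : ℤ) : ℝ) = 2 * a := by rw [im_cast]; push_cast; ring
  rw [e0, kpm]
  congr 3
  refine List.map_congr_left fun v _ => ?_
  rw [eTeM n h, eTrM h, eTqM n h]

theorem bmm2_eq {α : Type} {R : Rg α} {e : α → ℝ} (h : IsEv R e) (a : ℤ) (v w : α)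
    (mon : List (ℤ × ℕ × ℕ)) :
    pev (2 / r) ((bmm R n a v w [(0, Int.ofNat (Nat.pow 2 (Nat.sub n 4)))]
        (mp (mo2 n) mon)).map e)
      = 2 ^ (n - 4) * (2 * a + knn n r (mon.map (fun t => (rm2 n t).val r)) (e v) (e w)) := by
  rw [bmm, asm2_eq hn r hr h, h.ofI]
  have e0 : ((Int.mul 2 a : ℤ) : ℝ) = 2 * a := by rw [im_cast]; push_cast; ring
  rw [e0, knn]
  congr 3
  refine List.map_congr_left fun v _ => ?_
  rw [eTeN n h, eTrN h, eTqN n h]

theorem pet2_eq {α : Type} {R : Rg α} {e : α → ℝ} (h : IsEv R e) (c : α)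
    (mon : List (ℤ × ℕ × ℕ)) :
    pev (2 / r) ((pet R c (mp (mo2 n) mon)).map e)
      = 2 ^ (n - 4) * S0 (mon.map (fun t => (rm2 n t).val r)) (e c) := by
  rw [pet, h.asm, mp_eq]
  have e0 : sev (2 / r) ([] : List (ℕ × ℤ)) = 0 := by simp [sev]
  rw [e0, zero_mul, zero_add, List.map_map]
  induction mon with
  | nil => simp [S0]
  | cons t mon ih =>
    rw [List.map_cons, List.sum_cons, ih, List.map_cons, S0_cons, mul_add]
    congr 1
    change sev (2 / r) (mo2 n t).he * e (TeE R c t.2.2) + sev (2 / r) (mo2 n t).hr * e R.zero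
      + sev (2 / r) (mo2 n t).hq * e R.zero = _
    rw [he2_eq hn r hr, h.zero, eTeE h]
    change _ = 2 ^ (n - 4) * (((rm2 n t).val r).1 * e c ^ t.2.2)
    ring

theorem pec2_eq {α : Type} {R : Rg α} {e : α → ℝ} (h : IsEv R e) (c : α)
    (mon : List (ℤ × ℕ × ℕ)) (hj : ∀ t ∈ mon, t.2.2 ≠ 1) :
    pev (2 / r) ((pec R c (mp (mo2 n) mon)).map e) * e c
      = - (2 ^ (n - 4) * S2 (mon.map (fun t => (rm2 n t).val r)) (e c)) := by
  rw [pec, h.asm, mp_eq]
  have e0 : sev (2 / r) ([] : List (ℕ × ℤ)) = 0 := by simp [sev]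
  rw [e0, zero_mul, zero_add, List.map_map]
  induction mon with
  | nil => simp [S2]
  | cons t mon ih =>
    have ih' := ih (fun t' h' => hj t' (by simp [h']))
    rw [List.map_cons, List.sum_cons, add_mul, ih', List.map_cons, S2_cons]
    change (sev (2 / r) (mo2 n t).he * e (TeC R c t.2.2) + sev (2 / r) (mo2 n t).hr * e R.zero
      + sev (2 / r) (mo2 n t).hq * e R.zero) * e c + _ = _
    rw [he2_eq hn r hr, h.zero, eTeC h]
    change _ = - (2 ^ (n - 4) * (((rm2 n t).val r).1 * (t.2.2 * e c ^ (t.2.2 - 1)) + _))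
    have h1 : (t.2.2 : ℝ) * (e c ^ (t.2.2 - 2) * e c) = t.2.2 * e c ^ (t.2.2 - 1) := by
      have h2 := hj t (by simp)
      rcases Nat.eq_zero_or_pos t.2.2 with h3 | h3
      · rw [h3]; simp
      · obtain ⟨k, hk⟩ : ∃ k, t.2.2 = k + 2 := ⟨t.2.2 - 2, by omega⟩
        rw [hk]
        have e3 : k + 2 - 2 = k := by omega
        have e4 : k + 2 - 1 = k + 1 := by omega
        rw [e3, e4, pow_succ]
    have e5 : (2 ^ (n - 4) * ((rm2 n t).val r).1 * (-(t.2.2 : ℝ) * e c ^ (t.2.2 - 2))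
        + sev (2 / r) (mo2 n t).hr * 0 + sev (2 / r) (mo2 n t).hq * 0) * e c
        = - (2 ^ (n - 4) * (((rm2 n t).val r).1 * ((t.2.2 : ℝ)
          * (e c ^ (t.2.2 - 2) * e c)))) := by
      ring
    rw [e5, h1]
    ring

theorem fl2_eq {α : Type} {R : Rg α} {e : α → ℝ} (h : IsEv R e) (a d0 : ℤ) (fs : List (ℕ × ℤ))
    (s p : α) (c d : ℝ) (hs : e s = c + d) (hp : e p = c * d) (mon : List (ℤ × ℕ × ℕ)) :
    r ^ (n - 1) * pev (2 / r) ((fl2 R n a d0 fs s p [(0, Int.ofNat (Nat.pow 2 (Nat.sub n 4)))]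
        (mp (mo2 n) mon)).map e)
      = 2 ^ (n - 2) * ((2 * a + kpp n r (mon.map (fun t => (rm2 n t).val r)) c d) * r ^ (n - 1)
        - 2 * (c * d) * (d0 * r - sev c fs - sev d fs)) := by
  have hr0 : r ≠ 0 := by linarith
  rw [fl2, h.pev_add, h.pev_add, h.pev_map_mul, bpp2_eq hn r hr h a s p c d hs hp, h.atk, h.atk,
    h.mul, h.mul, h.ofI, h.ofI, hp, efsm h s p c d hs hp, im_cast]
  obtain ⟨k, rfl⟩ := Nat.exists_eq_add_of_le hn
  have e1 : 4 + k - 1 = k + 3 := by omega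
  have e2 : Nat.sub (4 + k) 2 = k + 2 := by change 4 + k - 2 = _; omega
  have e3 : Nat.sub (4 + k) 1 = k + 3 := by change 4 + k - 1 = _; omega
  have e4 : 4 + k - 4 = k := by omega
  have e5 : 4 + k - 2 = k + 2 := by omega
  rw [e1, e2, e3, e4, e5]
  have e6 : r ^ (k + 3) * (2 / r) ^ (k + 2) = 2 ^ (k + 2) * r := by
    rw [div_pow, pow_succ r (k + 2)]
    field_simp
  have e7 : r ^ (k + 3) * (2 / r) ^ (k + 3) = 2 ^ (k + 3) := by
    rw [div_pow]
    field_simp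
  have e8 : r ^ (k + 3) * (((4 : ℤ) : ℝ) * (2 ^ k * (2 * (a : ℝ)
      + kpp (4 + k) r (mon.map (fun t => (rm2 (4 + k) t).val r)) c d))
      + ((2 / r) ^ (k + 2) * (((-2 : ℤ) : ℝ) * (d0 : ℝ) * (c * d))
      + (2 / r) ^ (k + 3) * (c * d * (sev c fs + sev d fs))))
      = 4 * 2 ^ k * (2 * (a : ℝ)
      + kpp (4 + k) r (mon.map (fun t => (rm2 (4 + k) t).val r)) c d) * r ^ (k + 3)
      + (r ^ (k + 3) * (2 / r) ^ (k + 2)) * (-2 * (d0 : ℝ) * (c * d))
      + (r ^ (k + 3) * (2 / r) ^ (k + 3)) * (c * d * (sev c fs + sev d fs)) := by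
    push_cast; ring
  rw [e8, e6, e7]
  have e9 : (2 : ℝ) ^ (k + 2) = 4 * 2 ^ k := by rw [pow_add]; norm_num; ring
  have e10 : (2 : ℝ) ^ (k + 3) = 8 * 2 ^ k := by rw [pow_add]; norm_num; ring
  rw [e9, e10]
  ring

theorem fl2p_eq {α : Type} {R : Rg α} {e : α → ℝ} (h : IsEv R e) (a d0 ep : ℤ)
    (fs : List (ℕ × ℤ)) (s p : α) (c d : ℝ) (hs : e s = c + d) (hp : e p = c * d)
    (mon : List (ℤ × ℕ × ℕ)) :
    r ^ (n - 1) * pev (2 / r) ((fl2p R n a d0 ep fs s p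
        [(0, Int.ofNat (Nat.pow 2 (Nat.sub n 4)))] (mp (mo2 n) mon)).map e)
      = 2 ^ (n - 2) * ((2 * a + kpp n r (mon.map (fun t => (rm2 n t).val r)) c d) * r ^ (n - 1)
        - 2 * (c * d) * (d0 * r - sev c fs - sev d fs)
        - ep * (c * d) * ((r - c - d) ^ 2 + (c - d) ^ 2)) := by
  rw [fl2p, h.pev_add, mul_add, pert2_eq h ep s p n hn r (by linarith) c d hs hp,
    fl2_eq hn r hr h a d0 fs s p c d hs hp mon]
  ring

end piece

/-- `r = 2 X1` -/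
def tX : List (List (List ℤ)) := R3.mul (R3.ofI 2) X1

theorem ev_tX (t x y : ℝ) : ev3 t x y tX = 2 * t := by
  rw [tX, (isEv3 t x y).mul, (isEv3 t x y).ofI, ev_X1]; norm_num

namespace Data
variable (D : Data)

def M2 : List Mo := mp (mo2 D.n) D.mon
def H2 : List (ℕ × ℤ) := [(0, Int.ofNat (Nat.pow 2 (Nat.sub D.n 4)))]

def pB1 : List (List (List ℤ)) := hor R3 tX (bpp R3 D.n D.am sI pI D.H1 D.M1)
def pB2 : List (List (List ℤ)) := hor R3 tX (bpp R3 D.n D.am sII pII D.H1 D.M1)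
def pF2a : List (List (List ℤ)) :=
  hor R3 (R3.mul sII X1) (fl1p R3 D.n D.a D.d D.ep D.fs sII pII D.H1 D.M1)
def pF2b : List (List (List ℤ)) :=
  hor R3 (R3.sub (R3.ofI 2) (R3.mul sI X1)) (fl1p R3 D.n D.a D.d D.ep D.fs sII pII D.H1 D.M1)
def pM : List (List (List ℤ)) := hor R3 tX (bpm R3 D.n D.am X2 X3 D.H1 D.M1)
def pN : List (List (List ℤ)) := hor R3 tX (bmm R3 D.n D.am X2 X3 D.H1 D.M1)
def pE : List (List (List ℤ)) := hor R3 tX (pet R3 X2 D.M1)
def pC : List (List (List ℤ)) := hor R3 tX (pec R3 X2 D.M1)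
def xB1 : List (List (List ℤ)) := hor R3 X1 (bpp R3 D.n D.am sI pI D.H2 D.M2)
def xB2 : List (List (List ℤ)) := hor R3 X1 (bpp R3 D.n D.am sII pII D.H2 D.M2)
def xF1 : List (List (List ℤ)) := hor R3 X1 (fl2p R3 D.n D.a D.d D.ep D.fs sI pI D.H2 D.M2)
def xF2 : List (List (List ℤ)) := hor R3 X1 (fl2p R3 D.n D.a D.d D.ep D.fs sII pII D.H2 D.M2)
def xM : List (List (List ℤ)) := hor R3 X1 (bpm R3 D.n D.am X2 X3 D.H2 D.M2)
def xN : List (List (List ℤ)) := hor R3 X1 (bmm R3 D.n D.am X2 X3 D.H2 D.M2)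
def xE : List (List (List ℤ)) := hor R3 X1 (pet R3 X2 D.M2)
def xC : List (List (List ℤ)) := hor R3 X1 (pec R3 X2 D.M2)

end Data

/-- all kernel checks (two pieces) -/
structure Chks2 (D : Data) : Prop where
  n5 : 4 ≤ D.n
  mj : ∀ t ∈ D.mon, t.2.2 ≠ 1
  a0 : 0 < D.a
  am : D.am < D.a
  d0 : 0 < D.d
  ep : 0 < D.ep
  B1 : Chk 1 2 D.pB1
  B2 : Chk 1 2 D.pB2
  Fa : Chk 1 2 D.qFa
  Fb : Chk 1 2 D.qFb
  F2a : Chk 1 2 D.pF2a
  F2b : Chk 1 2 D.pF2b
  M : Chk 1 1 D.pM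
  N : Chk 1 1 D.pN
  E : Chk 1 1 D.pE
  C : Chk 1 1 D.pC
  f : Chk 0 1 D.qf
  yB1 : Chk 1 2 D.xB1
  yB2 : Chk 1 2 D.xB2
  yF1 : Chk 1 2 D.xF1
  yF2 : Chk 1 2 D.xF2
  yM : Chk 1 1 D.xM
  yN : Chk 1 1 D.xN
  yE : Chk 1 1 D.xE
  yC : Chk 1 1 D.xC

theorem Chks2.cond_in {D : Data} (h : Chks2 D) (r : ℝ) (hr : 0 < r) (hr2 : r ≤ 2) :
    Cond D.n D.a D.d D.ep (fun c => sev (min (max c 0) 1) D.fs) r
      (D.mon.map (fun t => (rm D.n t).val r)) := by
  have hn : 4 ≤ D.n := h.n5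
  have hpw : 0 < r ^ (D.n - 4) := by positivity
  have ham : ((D.am : ℤ) : ℝ) < D.a := by exact_mod_cast h.am
  have key : ∀ x : ℝ, 0 ≤ r ^ (D.n - 4) * (2 * (D.am : ℝ) + x) → 0 < 2 * (D.a : ℝ) + x := by
    intro x hx
    have := nonneg_of_mul_nonneg_right hx hpw
    linarith
  have hr' : (0 : ℝ) ≤ r / 2 := by positivity
  have z1 : ((1 : ℕ) : ℝ) * (r / 2) ≤ 1 := by push_cast; linarith
  have er : ∀ x y : ℝ, ev3 (r / 2) x y tX = r := fun x y => by rw [ev_tX]; ring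
  constructor
  · intro t ht
    rw [List.mem_map] at ht
    obtain ⟨t', ht', rfl⟩ := ht
    exact h.mj t' ht'
  · intro c hc hc1
    have h1 := h.E.nonneg (r / 2) c 0 hr' z1 hc (by simpa using hc1) le_rfl zero_le_one
    rw [Data.pE, (isEv3 (r / 2) c 0).hor, er, Data.M1, pet_eq hn r hr (isEv3 (r / 2) c 0),
      ev_X2] at h1
    exact nonneg_of_mul_nonneg_right h1 hpw
  · intro c hc hc1
    have h1 := h.C.nonneg (r / 2) c 0 hr' z1 hc (by simpa using hc1) le_rfl zero_le_one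
    rw [Data.pC, (isEv3 (r / 2) c 0).hor, er, Data.M1] at h1
    have h2 := pec_eq hn r hr (isEv3 (r / 2) c 0) X2 D.mon h.mj
    rw [ev_X2] at h2
    have h3 := mul_nonneg h1 hc
    rw [h2] at h3
    by_contra h4
    have h5 := mul_pos hpw (not_le.1 h4)
    linarith
  · intro c d hc hc1 hd hd1
    rcases le_total (c + d) 1 with hcd | hcd
    · obtain ⟨κ, k0, k1, hk⟩ := exists_kap c d hc hd
      have h1 := h.B1.nonneg (r / 2) ((c + d) / 2) κ hr' z1 (by linarith)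
        (by push_cast; linarith) k0 k1
      rw [Data.pB1, (isEv3 (r / 2) _ κ).hor, er, Data.H1, Data.M1,
        bpp_eq hn r hr (isEv3 (r / 2) _ κ) D.am sI pI c d (by rw [ev_sI]; ring)
          (by rw [ev_pI, hk])] at h1
      exact key _ h1
    · obtain ⟨κ, k0, k1, hk⟩ := exists_kap (1 - c) (1 - d) (by linarith) (by linarith)
      have h1 := h.B2.nonneg (r / 2) ((1 - c + (1 - d)) / 2) κ hr' z1 (by linarith)
        (by push_cast; linarith) k0 k1
      rw [Data.pB2, (isEv3 (r / 2) _ κ).hor, er, Data.H1, Data.M1,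
        bpp_eq hn r hr (isEv3 (r / 2) _ κ) D.am sII pII c d (by rw [ev_sII]; ring)
          (by rw [ev_pII, hk]; ring)] at h1
      exact key _ h1
  · intro c w hc hc1 hw hw1
    have h1 := h.M.nonneg (r / 2) c w hr' z1 hc (by simpa using hc1) hw hw1
    rw [Data.pM, (isEv3 (r / 2) c w).hor, er, Data.H1, Data.M1,
      bpm_eq hn r hr (isEv3 (r / 2) c w), ev_X2, ev_X3] at h1
    exact key _ h1
  · intro v w hv hv1 hw hw1
    have h1 := h.N.nonneg (r / 2) v w hr' z1 hv (by simpa using hv1) hw hw1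
    rw [Data.pN, (isEv3 (r / 2) v w).hor, er, Data.H1, Data.M1,
      bmm_eq hn r hr (isEv3 (r / 2) v w), ev_X2, ev_X3] at h1
    exact key _ h1
  · intro c d hc hc1 hd hd1
    have ec : min (max c 0) 1 = c := by rw [max_eq_left hc.le, min_eq_left hc1]
    have ed : min (max d 0) 1 = d := by rw [max_eq_left hd.le, min_eq_left hd1]
    simp only [ec, ed]
    rcases le_total (c + d) 1 with hcd | hcd
    · obtain ⟨κ, k0, k1, hk⟩ := exists_kap c d hc.le hd.le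
      have hX : 0 < (c + d) / 2 := by linarith
      have hX2 : ((2 : ℕ) : ℝ) * ((c + d) / 2) ≤ 1 := by push_cast; linarith
      rcases le_total r (4 * ((c + d) / 2)) with h4 | h4
      · have h1 := h.Fa.nonneg (r / (4 * ((c + d) / 2))) ((c + d) / 2) κ (by positivity)
          (by push_cast; rw [one_mul]; exact (div_le_one (by positivity)).2 h4) hX.le hX2 k0 k1
        have er : ev3 (r / (4 * ((c + d) / 2))) ((c + d) / 2) κ
            (R3.mul (R3.mul (R3.ofI 2) sI) X1) = r := by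
          rw [(isEv3 _ _ _).mul, (isEv3 _ _ _).mul, (isEv3 _ _ _).ofI, ev_sI, ev_X1]
          field_simp
          norm_num
        rw [Data.qFa, (isEv3 _ _ κ).hor, er, Data.H1, Data.M1,
          fl1p_eq hn r hr (isEv3 _ _ κ) D.a D.d D.ep D.fs sI pI c d (by rw [ev_sI]; ring)
            (by rw [ev_pI, hk])] at h1
        linarith
      · have h1 := h.Fb.nonneg (r / 2) (2 * ((c + d) / 2) / r) κ (by positivity)
          z1 (by positivity)
          (by push_cast; rw [mul_div_assoc', div_le_one hr]; linarith) k0 k1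
        have er : ev3 (r / 2) (2 * ((c + d) / 2) / r) κ (R3.mul (R3.ofI 2) X1) = r := by
          rw [(isEv3 _ _ _).mul, (isEv3 _ _ _).ofI, ev_X1]
          push_cast; ring
        have es : ev3 (r / 2) (2 * ((c + d) / 2) / r) κ
            (R3.mul (R3.mul (R3.ofI 2) X1) X2) = c + d := by
          rw [(isEv3 _ _ _).mul, er, ev_X2]
          field_simp
        have ep : ev3 (r / 2) (2 * ((c + d) / 2) / r) κ
            (R3.mul (R3.mul (R3.mul X1 X2) (R3.mul X1 X2)) X3) = c * d := by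
          rw [(isEv3 _ _ _).mul, (isEv3 _ _ _).mul, (isEv3 _ _ _).mul, ev_X1, ev_X2, ev_X3,
            ← hk]
          field_simp
        rw [Data.qFb, (isEv3 _ _ κ).hor, er, Data.H1, Data.M1,
          fl1p_eq hn r hr (isEv3 _ _ κ) D.a D.d D.ep D.fs _ _ c d es ep] at h1
        linarith
    · obtain ⟨κ, k0, k1, hk⟩ := exists_kap (1 - c) (1 - d) (by linarith) (by linarith)
      have hX0 : 0 ≤ (1 - c + (1 - d)) / 2 := by linarith
      have hX2 : ((2 : ℕ) : ℝ) * ((1 - c + (1 - d)) / 2) ≤ 1 := by push_cast; linarith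
      have hcd0 : 0 < c + d := by linarith
      rcases le_total r (c + d) with h4 | h4
      · have h1 := h.F2a.nonneg (r / (c + d)) ((1 - c + (1 - d)) / 2) κ (by positivity)
          (by push_cast; rw [one_mul]; exact (div_le_one hcd0).2 h4) hX0 hX2 k0 k1
        have er : ev3 (r / (c + d)) ((1 - c + (1 - d)) / 2) κ (R3.mul sII X1) = r := by
          rw [(isEv3 _ _ _).mul, ev_sII, ev_X1]
          have : c + d ≠ 0 := by positivity
          field_simp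
          ring
        rw [Data.pF2a, (isEv3 _ _ κ).hor, er, Data.H1, Data.M1,
          fl1p_eq hn r hr (isEv3 _ _ κ) D.a D.d D.ep D.fs sII pII c d (by rw [ev_sII]; ring)
            (by rw [ev_pII, hk]; ring)] at h1
        linarith
      · -- `r = 2 - 2 X τ`
        obtain ⟨τ, t0, t1, ht⟩ : ∃ τ : ℝ, 0 ≤ τ ∧ τ ≤ 1 ∧
            2 - 2 * ((1 - c + (1 - d)) / 2) * τ = r := by
          rcases eq_or_lt_of_le hX0 with h5 | h5
          · refine ⟨0, le_rfl, zero_le_one, ?_⟩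
            linarith
          · refine ⟨(2 - r) / (2 * ((1 - c + (1 - d)) / 2)), ?_, ?_, ?_⟩
            · have : 0 ≤ 2 - r := by linarith
              positivity
            · rw [div_le_one (by positivity)]; linarith
            · have h6 : 2 * ((1 - c + (1 - d)) / 2) ≠ 0 := by positivity
              rw [mul_div_cancel₀ _ h6]; ring
        have h1 := h.F2b.nonneg τ ((1 - c + (1 - d)) / 2) κ t0
          (by simpa using t1) hX0 hX2 k0 k1
        have er : ev3 τ ((1 - c + (1 - d)) / 2) κ (R3.sub (R3.ofI 2) (R3.mul sI X1)) = r := by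
          rw [(isEv3 _ _ _).sub, (isEv3 _ _ _).ofI, (isEv3 _ _ _).mul, ev_sI, ev_X1]
          push_cast
          exact ht
        rw [Data.pF2b, (isEv3 _ _ κ).hor, er, Data.H1, Data.M1,
          fl1p_eq hn r hr (isEv3 _ _ κ) D.a D.d D.ep D.fs sII pII c d (by rw [ev_sII]; ring)
            (by rw [ev_pII, hk]; ring)] at h1
        linarith

theorem Chks2.cond_out {D : Data} (h : Chks2 D) (r : ℝ) (hr : 2 < r) :
    Cond D.n D.a D.d D.ep (fun c => sev (min (max c 0) 1) D.fs) r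
      (D.mon.map (fun t => (rm2 D.n t).val r)) := by
  have hn : 4 ≤ D.n := h.n5
  have hpw : (0 : ℝ) < 2 ^ (D.n - 4) := by positivity
  have ham : ((D.am : ℤ) : ℝ) < D.a := by exact_mod_cast h.am
  have key : ∀ x : ℝ, 0 ≤ 2 ^ (D.n - 4) * (2 * (D.am : ℝ) + x) → 0 < 2 * (D.a : ℝ) + x := by
    intro x hx
    have := nonneg_of_mul_nonneg_right hx hpw
    linarith
  have hr0 : 0 < r := by linarith
  have hr' : (0 : ℝ) ≤ 2 / r := by positivity
  have z1 : ((1 : ℕ) : ℝ) * (2 / r) ≤ 1 := by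
    push_cast; rw [one_mul]; exact (div_le_one hr0).2 hr.le
  constructor
  · intro t ht
    rw [List.mem_map] at ht
    obtain ⟨t', ht', rfl⟩ := ht
    exact h.mj t' ht'
  · intro c hc hc1
    have h1 := h.yE.nonneg (2 / r) c 0 hr' z1 hc (by simpa using hc1) le_rfl zero_le_one
    rw [Data.xE, (isEv3 (2 / r) c 0).hor, ev_X1, Data.M2, pet2_eq hn r hr (isEv3 (2 / r) c 0),
      ev_X2] at h1
    exact nonneg_of_mul_nonneg_right h1 hpw
  · intro c hc hc1
    have h1 := h.yC.nonneg (2 / r) c 0 hr' z1 hc (by simpa using hc1) le_rfl zero_le_one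
    rw [Data.xC, (isEv3 (2 / r) c 0).hor, ev_X1, Data.M2] at h1
    have h2 := pec2_eq hn r hr (isEv3 (2 / r) c 0) X2 D.mon h.mj
    rw [ev_X2] at h2
    have h3 := mul_nonneg h1 hc
    rw [h2] at h3
    by_contra h4
    have h5 := mul_pos hpw (not_le.1 h4)
    linarith
  · intro c d hc hc1 hd hd1
    rcases le_total (c + d) 1 with hcd | hcd
    · obtain ⟨κ, k0, k1, hk⟩ := exists_kap c d hc hd
      have h1 := h.yB1.nonneg (2 / r) ((c + d) / 2) κ hr' z1 (by linarith)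
        (by push_cast; linarith) k0 k1
      rw [Data.xB1, (isEv3 (2 / r) _ κ).hor, ev_X1, Data.H2, Data.M2,
        bpp2_eq hn r hr (isEv3 (2 / r) _ κ) D.am sI pI c d (by rw [ev_sI]; ring)
          (by rw [ev_pI, hk])] at h1
      exact key _ h1
    · obtain ⟨κ, k0, k1, hk⟩ := exists_kap (1 - c) (1 - d) (by linarith) (by linarith)
      have h1 := h.yB2.nonneg (2 / r) ((1 - c + (1 - d)) / 2) κ hr' z1 (by linarith)
        (by push_cast; linarith) k0 k1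
      rw [Data.xB2, (isEv3 (2 / r) _ κ).hor, ev_X1, Data.H2, Data.M2,
        bpp2_eq hn r hr (isEv3 (2 / r) _ κ) D.am sII pII c d (by rw [ev_sII]; ring)
          (by rw [ev_pII, hk]; ring)] at h1
      exact key _ h1
  · intro c w hc hc1 hw hw1
    have h1 := h.yM.nonneg (2 / r) c w hr' z1 hc (by simpa using hc1) hw hw1
    rw [Data.xM, (isEv3 (2 / r) c w).hor, ev_X1, Data.H2, Data.M2,
      bpm2_eq hn r hr (isEv3 (2 / r) c w), ev_X2, ev_X3] at h1
    exact key _ h1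
  · intro v w hv hv1 hw hw1
    have h1 := h.yN.nonneg (2 / r) v w hr' z1 hv (by simpa using hv1) hw hw1
    rw [Data.xN, (isEv3 (2 / r) v w).hor, ev_X1, Data.H2, Data.M2,
      bmm2_eq hn r hr (isEv3 (2 / r) v w), ev_X2, ev_X3] at h1
    exact key _ h1
  · intro c d hc hc1 hd hd1
    have ec : min (max c 0) 1 = c := by rw [max_eq_left hc.le, min_eq_left hc1]
    have ed : min (max d 0) 1 = d := by rw [max_eq_left hd.le, min_eq_left hd1]
    simp only [ec, ed]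
    have hp1 : 0 < r ^ (D.n - 1) := by positivity
    have hp2 : (0 : ℝ) < 2 ^ (D.n - 2) := by positivity
    rcases le_total (c + d) 1 with hcd | hcd
    · obtain ⟨κ, k0, k1, hk⟩ := exists_kap c d hc.le hd.le
      have h1 := h.yF1.nonneg (2 / r) ((c + d) / 2) κ hr' z1 (by linarith)
        (by push_cast; linarith) k0 k1
      rw [Data.xF1, (isEv3 (2 / r) _ κ).hor, ev_X1, Data.H2, Data.M2] at h1
      have h2 := mul_nonneg hp1.le h1
      rw [fl2p_eq hn r hr (isEv3 (2 / r) _ κ) D.a D.d D.ep D.fs sI pI c d (by rw [ev_sI]; ring)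
        (by rw [ev_pI, hk])] at h2
      have h3 := nonneg_of_mul_nonneg_right h2 hp2
      linarith
    · obtain ⟨κ, k0, k1, hk⟩ := exists_kap (1 - c) (1 - d) (by linarith) (by linarith)
      have h1 := h.yF2.nonneg (2 / r) ((1 - c + (1 - d)) / 2) κ hr' z1 (by linarith)
        (by push_cast; linarith) k0 k1
      rw [Data.xF2, (isEv3 (2 / r) _ κ).hor, ev_X1, Data.H2, Data.M2] at h1
      have h2 := mul_nonneg hp1.le h1
      rw [fl2p_eq hn r hr (isEv3 (2 / r) _ κ) D.a D.d D.ep D.fs sII pII c d (by rw [ev_sII]; ring)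
        (by rw [ev_pII, hk]; ring)] at h2
      have h3 := nonneg_of_mul_nonneg_right h2 hp2
      linarith

/-- from kernel checks to a strict raw certificate -/
theorem Chks2.strict {D : Data} (h : Chks2 D) (q1 : ℚ) (hq : finc D.n D.a D.d D.fs q1) :
    ∃ c : RawCert D.n, c.Strict := by
  refine rawCert_of D.n D.a D.d D.ep (fun c => sev (min (max c 0) 1) D.fs)
    (D.mon.map (rm2 D.n)) ?_
    (by exact_mod_cast h.a0) (by exact_mod_cast h.d0) (by exact_mod_cast h.ep) ?_ ?_ ?_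
    (fun e he => fin_of D.n (by have := h.n5; omega) D.a D.d D.fs q1 hq e he)
  · intro m hm
    rw [List.mem_map] at hm
    obtain ⟨t, ht, rfl⟩ := hm
    exact rm2_good D.n t (h.mj t ht)
  · exact (sev_cont D.fs).comp ((continuous_id.max continuous_const).min continuous_const)
  · intro c
    set x := min (max c 0) 1 with hx
    have hx0 : 0 ≤ x := le_min (le_max_right _ _) zero_le_one
    have hx1 : x ≤ 1 := min_le_right _ _
    have h1 := h.f.nonneg 0 x 0 le_rfl (by simp) hx0 (by simpa using hx1) le_rfl zero_le_one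
    rw [Data.qf, (isEv3 0 x 0).hor, ev_X2, (isEv3 0 x 0).spl, (isEv3 0 x 0).ofI] at h1
    simpa using h1
  · intro r hr
    have hL : (D.mon.map (rm2 D.n)).map (fun m => m.val r)
        = D.mon.map (fun t => (rm2 D.n t).val r) := by
      rw [List.map_map]; rfl
    rw [hL]
    rcases le_or_gt r 2 with h2 | h2
    · have e : D.mon.map (fun t => (rm2 D.n t).val r) = D.mon.map (fun t => (rm D.n t).val r) := by
        refine List.map_congr_left fun t _ => ?_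
        simp only [RM.val, rm2, if_pos h2]
        rfl
      rw [e]
      exact h.cond_in r hr h2
    · exact h.cond_out r h2

theorem Chks2.hasKer {D : Data} (h : Chks2 D) (q1 : ℚ) (hq : finc D.n D.a D.d D.fs q1) :
    HasKer D.n := by
  obtain ⟨c, -⟩ := h.strict q1 hq
  exact hasKer_of_raw (by have := h.n5; omega) c

end

end Vale.Agent.Lib.P219.Bern
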