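import Vale.Agent.Lib.P219.Ce.Build3

/-! # P219 certificates: sharper bound for the square root -/

namespace Vale.Agent.Lib.P219.Bern

open MeasureTheory Set Filter Topology

noncomputable section

/-- the penalty sum -/
def ksx (r : ℝ) (L : List (ℝ × ℝ × ℕ)) (c d : ℝ) : ℝ :=
  (L.map (fun t => t.1 / r * (t.2.2 * (c * d ^ (t.2.2 - 1) + c ^ (t.2.2 - 1) * d)))).sum

/-- the kernel sum with the sharper bound -/
def kpx (n : ℕ) (r : ℝ) (L : List (ℝ × ℝ × ℕ)) (c d : ℝ) : ℝ :=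
  kpp n r L c d - (c - d) ^ 2 / (2 * (1 - c * d)) * ksx r L c d

theorem ksx_eq (r : ℝ) (L : List (ℝ × ℝ × ℕ)) (c d : ℝ) :
    ksx r L c d = (c * S2 L d + d * S2 L c) / r := by
  induction L with
  | nil => simp [ksx, S2]
  | cons t L ih =>
    have e1 : ksx r (t :: L) c d
        = t.1 / r * (t.2.2 * (c * d ^ (t.2.2 - 1) + c ^ (t.2.2 - 1) * d)) + ksx r L c d := by
      simp [ksx]
    rw [e1, ih, S2_cons, S2_cons]
    ring

theorem sqrt_bdx (c c' : ℝ) (hc : 0 ≤ c) (hc1 : c ≤ 1) (hc' : 0 ≤ c') (hc'1 : c' ≤ 1) :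
    Real.sqrt ((1 - c ^ 2) * (1 - c' ^ 2))
      ≤ (1 - c * c') - (c - c') ^ 2 / (2 * (1 - c * c')) := by
  have hA : 0 ≤ 1 - c * c' := by nlinarith
  have hAB : (c - c') ^ 2 ≤ (1 - c * c') ^ 2 := by
    have : 0 ≤ (1 - c ^ 2) * (1 - c' ^ 2) := mul_nonneg (by nlinarith) (by nlinarith)
    nlinarith
  rcases eq_or_lt_of_le hA with h0 | h0
  · have h1 : (c - c') ^ 2 = 0 := by
      rw [← h0] at hAB
      nlinarith [sq_nonneg (c - c')]
    rw [← h0, h1]
    have h2 : (1 - c ^ 2) * (1 - c' ^ 2) = 0 := by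
      have : (1 - c ^ 2) * (1 - c' ^ 2) = (1 - c * c') ^ 2 - (c - c') ^ 2 := by ring
      rw [this, h1, ← h0]; ring
    rw [h2]; simp
  · apply Real.sqrt_le_iff.2
    constructor
    · rw [sub_nonneg, div_le_iff₀ (by positivity)]
      nlinarith
    · have e : ((1 - c * c') - (c - c') ^ 2 / (2 * (1 - c * c'))) ^ 2
          = (1 - c ^ 2) * (1 - c' ^ 2) + ((c - c') ^ 2 / (2 * (1 - c * c'))) ^ 2 := by
        field_simp
        ring
      rw [e]
      have := sq_nonneg ((c - c') ^ 2 / (2 * (1 - c * c')))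
      linarith

/-- the conditions at one radius, sharper form -/
structure CondX (n : ℕ) (a d ε : ℝ) (f : ℝ → ℝ) (r : ℝ) (L : List (ℝ × ℝ × ℕ)) : Prop where
  jne : ∀ t ∈ L, t.2.2 ≠ 1
  eta : ∀ c, 0 ≤ c → c ≤ 1 → 0 ≤ S0 L c
  etac : ∀ c, 0 ≤ c → c ≤ 1 → S2 L c ≤ 0
  pp : ∀ c c', 0 ≤ c → c ≤ 1 → 0 ≤ c' → c' ≤ 1 → 0 < 2 * a + kpx n r L c c'
  pm : ∀ c w, 0 ≤ c → c ≤ 1 → 0 ≤ w → w ≤ 1 → 0 < 2 * a + kpm n r L c w
  nn : ∀ v w, 0 ≤ v → v ≤ 1 → 0 ≤ w → w ≤ 1 → 0 < 2 * a + knn n r L v w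
  low : ∀ c c', 0 < c → c ≤ 1 → 0 < c' → c' ≤ 1 →
    2 * (c * c') * (d * r - f c - f c') + ε * (c * c') * ((r - c - c') ^ 2 + (c - c') ^ 2)
      ≤ (2 * a + kpx n r L c c') * r ^ (n - 1)

variable {n : ℕ} {a d ε : ℝ} {f : ℝ → ℝ} {r : ℝ} {L : List (ℝ × ℝ × ℕ)}

theorem CondX.BR_pp (h : CondX n a d ε f r L) (hr : 0 < r) (c c' : ℝ) (hc : 0 ≤ c) (hc1 : c ≤ 1)
    (hc' : 0 ≤ c') (hc'1 : c' ≤ 1) : (2 * a + kpx n r L c c') / 2 ≤ BR n a r L c c' := by
  unfold BR kpx
  rw [max_eq_left hc, max_eq_left hc', kpp_eq, ksx_eq]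
  have p1 := pen_bd c (S2 L c') _ _ r hr hc (h.etac c' hc' hc'1) (sqrt_bdx c c' hc hc1 hc' hc'1)
  have p2 := pen_bd c' (S2 L c) _ _ r hr hc' (h.etac c hc hc1) (sqrt_bdx c' c hc' hc'1 hc hc1)
  have e : (1 - c' * c) - (c' - c) ^ 2 / (2 * (1 - c' * c))
      = (1 - c * c') - (c - c') ^ 2 / (2 * (1 - c * c')) := by
    have e1 : c' * c = c * c' := mul_comm _ _
    have e2 : (c' - c) ^ 2 = (c - c') ^ 2 := by ring
    rw [e1, e2]
  rw [e] at p2
  set z := (c - c') ^ 2 / (2 * (1 - c * c'))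
  have e3 : c * S2 L c' * (1 - c * c' - z) / r
      = c * S2 L c' * (1 - c * c') / r - z * (c * S2 L c' / r) := by ring
  have e4 : c' * S2 L c * (1 - c * c' - z) / r
      = c' * S2 L c * (1 - c * c') / r - z * (c' * S2 L c / r) := by ring
  rw [e3] at p1
  rw [e4] at p2
  have e5 : z * ((c * S2 L c' + c' * S2 L c) / r) = z * (c * S2 L c' / r) + z * (c' * S2 L c / r) := by
    ring
  rw [e5]
  linarith

theorem CondX.BR_pm (h : CondX n a d ε f r L) (hr : 0 < r) (c w : ℝ) (hc : 0 ≤ c) (hc1 : c ≤ 1)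
    (hw : 0 ≤ w) (hw1 : w ≤ 1) : 0 < BR n a r L c (-w) := by
  have h0 := h.pm c w hc hc1 hw hw1
  rw [kpm_eq] at h0
  unfold BR
  have e1 : max (-w) 0 = 0 := max_eq_right (by linarith)
  rw [max_eq_left hc, e1, S2_zero L h.jne, abs_neg, neg_sq]
  have p2 := pen_bd w (S2 L c) _ _ r hr hw (h.etac c hc hc1) (sqrt_bd w c hw hw1 hc hc1)
  have p3 : |c| * |(0 : ℝ)| * Real.sqrt ((1 - c ^ 2) * (1 - w ^ 2)) / r = 0 := by simp
  rw [p3]
  linarith

theorem CondX.BR_nn (h : CondX n a d ε f r L) (v w : ℝ) (hv : 0 ≤ v) (hv1 : v ≤ 1) (hw : 0 ≤ w)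
    (hw1 : w ≤ 1) : 0 < BR n a r L (-v) (-w) := by
  have h0 := h.nn v w hv hv1 hw hw1
  rw [knn_eq] at h0
  unfold BR
  have e1 : max (-w) 0 = 0 := max_eq_right (by linarith)
  have e2 : max (-v) 0 = 0 := max_eq_right (by linarith)
  rw [e1, e2, S2_zero L h.jne, abs_neg, abs_neg, neg_sq, neg_sq]
  simp only [abs_zero, mul_zero, zero_mul, zero_div, sub_zero]
  linarith

theorem CondX.BR_pos (h : CondX n a d ε f r L) (hr : 0 < r) (c c' : ℝ) (hc : |c| ≤ 1)
    (hc' : |c'| ≤ 1) : 0 < BR n a r L c c' := by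
  obtain ⟨c1, c2⟩ := abs_le.1 hc
  obtain ⟨c3, c4⟩ := abs_le.1 hc'
  rcases le_total 0 c with h1 | h1 <;> rcases le_total 0 c' with h2 | h2
  · have := h.pp c c' h1 c2 h2 c4
    have := h.BR_pp hr c c' h1 c2 h2 c4
    linarith
  · have := h.BR_pm hr c (-c') h1 c2 (by linarith) (by linarith)
    rwa [neg_neg] at this
  · rw [BR_symm]
    have := h.BR_pm hr c' (-c) h2 c4 (by linarith) (by linarith)
    rwa [neg_neg] at this
  · have := h.BR_nn (-c) (-c') (by linarith) (by linarith) (by linarith) (by linarith)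
    rwa [neg_neg, neg_neg] at this

/-- assembling a strict `RawCert`, sharper form -/
theorem rawCert_ofX (n : ℕ) (a d ε : ℝ) (f : ℝ → ℝ) (Ms : List RM) (hM : ∀ m ∈ Ms, m.Good)
    (ha : 0 < a) (hd : 0 < d) (hε : 0 < ε) (hf : Continuous f) (hf0 : ∀ c, 0 ≤ f c)
    (hC : ∀ r, 0 < r → CondX n a d ε f r (Ms.map (fun m => m.val r)))
    (hfin : ∀ e : Ev n, ‖e‖ = 1 → a * (n * om n)
      + ∫ ω : Metric.sphere (0 : Ev n) 1, |inner ℝ (ω : Ev n) e| * f |inner ℝ (ω : Ev n) e|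
      ∂(volume : Measure (Ev n)).toSphere ≤ d * om n) : ∃ c : RawCert n, c.Strict := by
  have hlow : ∀ r c c', 0 < r → 0 < c → c ≤ 1 → 0 < c' → c' ≤ 1 →
      c * c' * (d * r - f c - f c') + ε * (c * c') * ((r - c - c') ^ 2 + (c - c') ^ 2) / 2
        ≤ BR n a r (Ms.map (fun m => m.val r)) c c' * r ^ (n - 1) := by
    intro r c c' hr hc hc1 hc' hc'1
    have h1 := (hC r hr).low c c' hc hc1 hc' hc'1
    have h2 := (hC r hr).BR_pp hr c c' hc.le hc1 hc'.le hc'1
    have h3 : (2 * a + kpx n r (Ms.map (fun m => m.val r)) c c') / 2 * r ^ (n - 1)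
        ≤ BR n a r (Ms.map (fun m => m.val r)) c c' * r ^ (n - 1) :=
      mul_le_mul_of_nonneg_right h2 (by positivity)
    linarith
  let C : RawCert n := {
    η := fun r c => S0 (Ms.map (fun m => m.val r)) (max c 0)
    ηr := fun r c => S1 (Ms.map (fun m => m.val r)) (max c 0)
    ηc := fun r c => S2 (Ms.map (fun m => m.val r)) (max c 0)
    smooth := S0_smooth Ms hM
    deriv_r := fun r c hr => S0_deriv_r Ms hM r (max c 0) hr
    deriv_c := fun r c hr => S0_deriv_c _ (hC r hr).jne c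
    bound := by
      intro δ hδ
      obtain ⟨M, -, hM'⟩ := S_bound Ms hM δ hδ
      refine ⟨M, fun r c hr hc => ?_⟩
      obtain ⟨h1, h2, h3⟩ := hM' r (max c 0) hr (le_max_right _ _)
        (max_le (abs_le.1 hc).2 zero_le_one)
      exact ⟨(le_abs_self _).trans h1, h2, h3⟩
    η_nonneg := fun r c hr hc => (hC r hr).eta _ (le_max_right _ _)
      (max_le (abs_le.1 hc).2 zero_le_one)
    a := a
    a_pos := ha
    d := d
    d_pos := hd
    f := f
    f_cont := hf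
    f_nonneg := hf0
    B_nonneg := by
      intro r c c' hr hc hc'
      have h1 := ((hC r hr).BR_pos hr c c' hc hc').le
      unfold BR at h1
      exact h1
    B_lower := by
      intro r c c' hr hc hc1 hc' hc'1
      have h1 := hlow r c c' hr hc hc1 hc' hc'1
      have h2 : 0 ≤ ε * (c * c') * ((r - c - c') ^ 2 + (c - c') ^ 2) / 2 := by positivity
      have h4 : c * c' * (d * r - f c - f c')
          ≤ BR n a r (Ms.map (fun m => m.val r)) c c' * r ^ (n - 1) := by linarith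
      unfold BR at h4
      exact h4
    final := hfin }
  refine ⟨C, ⟨?_, ?_⟩⟩
  · intro r x y hr hx hy
    have h1 := (hC r hr).BR_pos hr x y hx hy
    unfold BR at h1
    exact h1
  · intro r x y hr hx hx1 hy hy1 he
    have h1 := hlow r x y hr hx hx1 hy hy1
    have h2 : C.B r x y = BR n a r (Ms.map (fun m => m.val r)) x y := by
      unfold BR RawCert.B
      rfl
    have h3 : x * y * (C.d * r - C.f x - C.f y) = x * y * (d * r - f x - f y) := rfl
    rw [h2, h3] at he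
    rw [he] at h1
    have h4 : ε * (x * y) * ((r - x - y) ^ 2 + (x - y) ^ 2) ≤ 0 := by linarith
    have h5 : 0 < ε * (x * y) := by positivity
    have h6 : (r - x - y) ^ 2 + (x - y) ^ 2 ≤ 0 := by
      by_contra h7
      have := mul_pos h5 (not_le.1 h7)
      linarith
    have h8 : (x - y) ^ 2 = 0 := by nlinarith [sq_nonneg (r - x - y), sq_nonneg (x - y)]
    have h9 : (r - x - y) ^ 2 = 0 := by nlinarith [sq_nonneg (r - x - y), sq_nonneg (x - y)]
    have h10 : x - y = 0 := pow_eq_zero_iff (two_ne_zero) |>.1 h8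
    have h11 : r - x - y = 0 := pow_eq_zero_iff (two_ne_zero) |>.1 h9
    linarith

/-! ## polynomials -/

section T
variable {α : Type} (R : Rg α) (n : ℕ)

def TeX (s p de : α) (j : ℕ) : α := R.mul de (TeP R n s p j)
def TrX (s p de : α) (j : ℕ) : α := R.mul de (TrP R s p j)
def TqX (s p de nu : α) (j : ℕ) : α :=
  R.sub (R.mul de (TqP R n s p j))
    (R.mul nu (R.mul (R.ofI (Int.ofNat j)) (Es R s p 1 (Nat.pred j))))

/-- kernel polynomial times `de` -/
def bppx (a : ℤ) (s p de nu : α) (H : List (ℕ × ℤ)) (M : List Mo) : List α :=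
  asm R (TeX R n s p de) (TrX R s p de) (TqX R n s p de nu)
    (R.mul de (R.ofI (Int.mul 2 a))) H M

/-- perturbed chord polynomial times `de` -/
def fl1x (a d ep : ℤ) (fs : List (ℕ × ℤ)) (s p de nu : α)
    (H : List (ℕ × ℤ)) (M : List Mo) : List α :=
  zadd R.add (mp (R.mul de) (zadd R.add (pert1 R ep s p)
      [R.mul (R.ofI 2) (R.mul p (fsm R s p fs)), R.mul (R.ofI (Int.mul (-2) d)) p]))
    (R.zero :: R.zero :: R.zero :: bppx R n a s p de nu H M)

end T

theorem kpx_mul (n : ℕ) (a r : ℝ) (L : List (ℝ × ℝ × ℕ)) (c d De Nu : ℝ)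
    (h1 : (c - d) ^ 2 * De = Nu * (2 * (1 - c * d))) (h2 : 1 - c * d = 0 → Nu = 0) :
    De * (2 * a + kpp n r L c d) - Nu * ksx r L c d = De * (2 * a + kpx n r L c d) := by
  unfold kpx
  have h3 : (c - d) ^ 2 / (2 * (1 - c * d)) * De = Nu := by
    by_cases h0 : 1 - c * d = 0
    · rw [h2 h0, h0]; simp
    · rw [div_mul_eq_mul_div, h1]
      field_simp
  rw [← h3]; ring

section piece
variable {n : ℕ} (hn : 4 ≤ n) (r : ℝ) (hr : 0 < r)
include hn hr

theorem bppx_eq {α : Type} {R : Rg α} {e : α → ℝ} (h : IsEv R e) (a : ℤ) (s p de nu : α)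
    (c d : ℝ) (hs : e s = c + d) (hp : e p = c * d)
    (h1 : (c - d) ^ 2 * e de = e nu * (2 * (1 - c * d))) (h2 : 1 - c * d = 0 → e nu = 0)
    (mon : List (ℤ × ℕ × ℕ)) :
    pev r ((bppx R n a s p de nu [(Nat.sub n 4, 1)] (mp (mo1 n) mon)).map e)
      = r ^ (n - 4) * (e de * (2 * a + kpx n r (mon.map (fun t => (rm n t).val r)) c d)) := by
  rw [bppx, asm_eq hn r hr h, h.mul, h.ofI, im_cast,
    ← kpx_mul n a r _ c d (e de) (e nu) h1 h2]
  congr 1
  generalize mon.map (fun t => (rm n t).val r) = L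
  have key : (L.map (fun v => v.1 * e (TeX R n s p de v.2.2) + v.2.1 * e (TrX R s p de v.2.2)
      + v.1 / r * e (TqX R n s p de nu v.2.2))).sum
      = e de * kpp n r L c d - e nu * ksx r L c d := by
    induction L with
    | nil => simp [kpp, ksx]
    | cons v L ih =>
      rw [List.map_cons, List.sum_cons, ih]
      have e1 : ksx r (v :: L) c d
          = v.1 / r * (v.2.2 * (c * d ^ (v.2.2 - 1) + c ^ (v.2.2 - 1) * d)) + ksx r L c d := by
        simp [ksx]
      have e2 : kpp n r (v :: L) c d = (v.1 * ((1 - n) * (c * d ^ v.2.2 + c ^ v.2.2 * d))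
          + v.2.1 * ((d ^ v.2.2 + c ^ v.2.2) - (c ^ 2 * d ^ v.2.2 + c ^ v.2.2 * d ^ 2))
          + v.1 / r * ((n - 2) * (d ^ v.2.2 + c ^ v.2.2)
            + (1 - v.2.2) * (c ^ 2 * d ^ v.2.2 + c ^ v.2.2 * d ^ 2)
            + v.2.2 * (c * d ^ (v.2.2 - 1) + c ^ (v.2.2 - 1) * d))) + kpp n r L c d := by
        simp [kpp]
      rw [e1, e2, TeX, TrX, TqX, h.mul, h.mul, h.sub, h.mul, h.mul, h.mul, h.ofI,
        eTeP n h s p c d hs hp, eTrP h s p c d hs hp, eTqP n h s p c d hs hp,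
        h.Es s p c d hs hp]
      change v.1 * (e de * ((1 - n) * (c * d ^ v.2.2 + c ^ v.2.2 * d)))
        + v.2.1 * (e de * ((d ^ v.2.2 + c ^ v.2.2) - (c ^ 2 * d ^ v.2.2 + c ^ v.2.2 * d ^ 2)))
        + v.1 / r * (e de * ((n - 2) * (d ^ v.2.2 + c ^ v.2.2)
            + (1 - v.2.2) * (c ^ 2 * d ^ v.2.2 + c ^ v.2.2 * d ^ 2)
            + v.2.2 * (c * d ^ (v.2.2 - 1) + c ^ (v.2.2 - 1) * d))
          - e nu * (((v.2.2 : ℤ) : ℝ) * (c ^ 1 * d ^ (v.2.2 - 1) + c ^ (v.2.2 - 1) * d ^ 1)))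
        + (e de * kpp n r L c d - e nu * ksx r L c d) = _
      push_cast
      ring
  rw [key]
  push_cast
  ring

theorem fl1x_eq {α : Type} {R : Rg α} {e : α → ℝ} (h : IsEv R e) (a d0 ep : ℤ)
    (fs : List (ℕ × ℤ)) (s p de nu : α) (c d : ℝ) (hs : e s = c + d) (hp : e p = c * d)
    (h1 : (c - d) ^ 2 * e de = e nu * (2 * (1 - c * d))) (h2 : 1 - c * d = 0 → e nu = 0)
    (mon : List (ℤ × ℕ × ℕ)) :
    pev r ((fl1x R n a d0 ep fs s p de nu [(Nat.sub n 4, 1)] (mp (mo1 n) mon)).map e)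
      = e de * ((2 * a + kpx n r (mon.map (fun t => (rm n t).val r)) c d) * r ^ (n - 1)
        - 2 * (c * d) * (d0 * r - sev c fs - sev d fs)
        - ep * (c * d) * ((r - c - d) ^ 2 + (c - d) ^ 2)) := by
  rw [fl1x, h.pev_add, h.pev_map_mul, h.pev_add, pert1_eq h ep s p r c d hs hp]
  simp only [List.map_cons, List.map_nil, pev]
  rw [bppx_eq hn r hr h a s p de nu c d hs hp h1 h2, h.mul, h.mul, h.mul, h.ofI, h.ofI, hp,
    efsm h s p c d hs hp, h.zero, im_cast]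
  have e1 : r ^ (n - 1) = r ^ (n - 4) * r ^ 3 := by
    rw [← pow_add]; congr 1; omega
  rw [e1]
  push_cast
  ring

end piece

/-! denominators and numerators with `(c-d)²/(2(1-cd)) = Nu/De` -/
def deI : List (List (List ℤ)) := R3.sub (R3.ofI 1) pI
def nuI : List (List (List ℤ)) := R3.mul (R3.mul (R3.ofI 2) (R3.mul X2 X2)) (R3.sub (R3.ofI 1) X3)
def deII : List (List (List ℤ)) := R3.sub (R3.ofI 2) (R3.mul X2 X3)
def nuII : List (List (List ℤ)) := R3.mul (R3.mul (R3.ofI 2) X2) (R3.sub (R3.ofI 1) X3)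
def sB : List (List (List ℤ)) := R3.mul (R3.mul (R3.ofI 2) X1) X2
def pB : List (List (List ℤ)) := R3.mul (R3.mul (R3.mul X1 X2) (R3.mul X1 X2)) X3
def deB : List (List (List ℤ)) := R3.sub (R3.ofI 1) pB
def nuB : List (List (List ℤ)) :=
  R3.mul (R3.mul (R3.ofI 2) (R3.mul (R3.mul X1 X2) (R3.mul X1 X2))) (R3.sub (R3.ofI 1) X3)

theorem ev_deI (t x y : ℝ) : ev3 t x y deI = 1 - x ^ 2 * y := by
  rw [deI, (isEv3 t x y).sub, (isEv3 t x y).ofI, ev_pI]; norm_num
theorem ev_nuI (t x y : ℝ) : ev3 t x y nuI = 2 * x ^ 2 * (1 - y) := by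
  simp only [nuI, (isEv3 t x y).mul, (isEv3 t x y).sub, (isEv3 t x y).ofI, ev_X2, ev_X3]
  push_cast; ring
theorem ev_deII (t x y : ℝ) : ev3 t x y deII = 2 - x * y := by
  simp only [deII, (isEv3 t x y).mul, (isEv3 t x y).sub, (isEv3 t x y).ofI, ev_X2, ev_X3]
  push_cast; ring
theorem ev_nuII (t x y : ℝ) : ev3 t x y nuII = 2 * x * (1 - y) := by
  simp only [nuII, (isEv3 t x y).mul, (isEv3 t x y).sub, (isEv3 t x y).ofI, ev_X2, ev_X3]
  push_cast; ring
theorem ev_sB (t x y : ℝ) : ev3 t x y sB = 2 * t * x := by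
  simp only [sB, (isEv3 t x y).mul, (isEv3 t x y).ofI, ev_X1, ev_X2]
  push_cast; ring
theorem ev_pB (t x y : ℝ) : ev3 t x y pB = (t * x) ^ 2 * y := by
  simp only [pB, (isEv3 t x y).mul, ev_X1, ev_X2, ev_X3]
  ring
theorem ev_deB (t x y : ℝ) : ev3 t x y deB = 1 - (t * x) ^ 2 * y := by
  rw [deB, (isEv3 t x y).sub, (isEv3 t x y).ofI, ev_pB]; norm_num
theorem ev_nuB (t x y : ℝ) : ev3 t x y nuB = 2 * (t * x) ^ 2 * (1 - y) := by
  simp only [nuB, (isEv3 t x y).mul, (isEv3 t x y).sub, (isEv3 t x y).ofI, ev_X1, ev_X2, ev_X3]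
  push_cast; ring

namespace Data
variable (D : Data)

def zB1 : List (List (List ℤ)) := hor R3 X1 (bppx R3 D.n D.am sI pI deI nuI D.H1 D.M1)
def zB2 : List (List (List ℤ)) := hor R3 X1 (bppx R3 D.n D.am sII pII deII nuII D.H1 D.M1)
def zFa : List (List (List ℤ)) :=
  hor R3 (R3.mul (R3.mul (R3.ofI 2) sI) X1)
    (fl1x R3 D.n D.a D.d D.ep D.fs sI pI deI nuI D.H1 D.M1)
def zFb : List (List (List ℤ)) :=
  hor R3 (R3.mul (R3.ofI 2) X1) (fl1x R3 D.n D.a D.d D.ep D.fs sB pB deB nuB D.H1 D.M1)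
def zFc : List (List (List ℤ)) :=
  hor R3 (R3.add (R3.ofI 2) X1) (fl1x R3 D.n D.a D.d D.ep D.fs sI pI deI nuI D.H1 D.M1)
def zF2 : List (List (List ℤ)) :=
  hor R3 (R3.mul sII X1) (fl1x R3 D.n D.a D.d D.ep D.fs sII pII deII nuII D.H1 D.M1)

end Data

/-- all kernel checks (one piece, sharper form) -/
structure ChksX (D : Data) : Prop where
  n5 : 5 ≤ D.n
  mj : ∀ t ∈ D.mon, t.2.2 ≠ 1 ∧ t.2.1 ≤ D.n - 5
  a0 : 0 < D.a
  am : D.am < D.a
  d0 : 0 < D.d
  ep : 0 < D.ep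
  B1 : Chk 0 2 D.zB1
  B2 : Chk 0 2 D.zB2
  Fa : Chk 1 2 D.zFa
  Fb : Chk 1 2 D.zFb
  Fc : Chk 0 2 D.zFc
  F2 : Chk 0 2 D.zF2
  M : Chk 0 1 D.qM
  N : Chk 0 1 D.qN
  E : Chk 0 1 D.qE
  C : Chk 0 1 D.qC
  f : Chk 0 1 D.qf

theorem nuI_spec (c d κ : ℝ) (hk : ((c + d) / 2) ^ 2 * κ = c * d) :
    (c - d) ^ 2 * (1 - ((c + d) / 2) ^ 2 * κ)
      = 2 * ((c + d) / 2) ^ 2 * (1 - κ) * (2 * (1 - c * d)) := by
  have e : 2 * ((c + d) / 2) ^ 2 * (1 - κ) = (c - d) ^ 2 / 2 := by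
    have : 2 * ((c + d) / 2) ^ 2 * (1 - κ) = 2 * ((c + d) / 2) ^ 2 - 2 * (((c + d) / 2) ^ 2 * κ) := by
      ring
    rw [this, hk]; ring
  rw [e, hk]; ring

theorem nuII_spec (c d κ : ℝ) (hk : ((1 - c + (1 - d)) / 2) ^ 2 * κ = (1 - c) * (1 - d)) :
    (c - d) ^ 2 * (2 - (1 - c + (1 - d)) / 2 * κ)
      = 2 * ((1 - c + (1 - d)) / 2) * (1 - κ) * (2 * (1 - c * d)) := by
  set X := (1 - c + (1 - d)) / 2 with hX
  have e1 : (c - d) ^ 2 = 4 * X ^ 2 - 4 * (X ^ 2 * κ) := by rw [hk, hX]; ring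
  have e2 : 1 - c * d = 2 * X - X ^ 2 * κ := by rw [hk, hX]; ring
  rw [e1, e2]; ring

theorem ChksX.cond {D : Data} (h : ChksX D) (r : ℝ) (hr : 0 < r) :
    CondX D.n D.a D.d D.ep (fun c => sev (min (max c 0) 1) D.fs) r
      ((D.mon.map (rm D.n)).map (fun m => m.val r)) := by
  have hn : 4 ≤ D.n := by have := h.n5; omega
  have hpw : 0 < r ^ (D.n - 4) := by positivity
  have ham : ((D.am : ℤ) : ℝ) < D.a := by exact_mod_cast h.am
  have key : ∀ x : ℝ, 0 ≤ r ^ (D.n - 4) * (2 * (D.am : ℝ) + x) → 0 < 2 * (D.a : ℝ) + x := by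
    intro x hx
    have := nonneg_of_mul_nonneg_right hx hpw
    linarith
  have key2 : ∀ x De : ℝ, 0 < De → 0 ≤ r ^ (D.n - 4) * (De * (2 * (D.am : ℝ) + x)) →
      0 < 2 * (D.a : ℝ) + x := by
    intro x De hDe hx
    have := nonneg_of_mul_nonneg_right (nonneg_of_mul_nonneg_right hx hpw) hDe
    linarith
  have hL : (D.mon.map (rm D.n)).map (fun m => m.val r) = D.mon.map (fun t => (rm D.n t).val r) := by
    rw [List.map_map]; rfl
  rw [hL]
  have hr' : (0 : ℝ) ≤ r := hr.le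
  have z1 : ((0 : ℕ) : ℝ) * r ≤ 1 := by simp
  constructor
  · intro t ht
    rw [List.mem_map] at ht
    obtain ⟨t', ht', rfl⟩ := ht
    exact (h.mj t' ht').1
  · intro c hc hc1
    have h1 := h.E.nonneg r c 0 hr' z1 hc (by simpa using hc1) le_rfl zero_le_one
    rw [Data.qE, (isEv3 r c 0).hor, ev_X1, Data.M1, pet_eq hn r hr (isEv3 r c 0), ev_X2] at h1
    exact nonneg_of_mul_nonneg_right h1 hpw
  · intro c hc hc1
    have h1 := h.C.nonneg r c 0 hr' z1 hc (by simpa using hc1) le_rfl zero_le_one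
    rw [Data.qC, (isEv3 r c 0).hor, ev_X1, Data.M1] at h1
    have h2 := pec_eq hn r hr (isEv3 r c 0) X2 D.mon (fun t ht => (h.mj t ht).1)
    rw [ev_X2] at h2
    have h3 := mul_nonneg h1 hc
    rw [h2] at h3
    by_contra h4
    have h5 := mul_pos hpw (not_le.1 h4)
    linarith
  · intro c d hc hc1 hd hd1
    rcases le_total (c + d) 1 with hcd | hcd
    · obtain ⟨κ, k0, k1, hk⟩ := exists_kap c d hc hd
      have hcd2 : c * d ≤ 1 / 2 := by nlinarith [sq_nonneg (c - d)]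
      have h1 := h.B1.nonneg r ((c + d) / 2) κ hr' z1 (by linarith) (by push_cast; linarith) k0 k1
      rw [Data.zB1, (isEv3 r _ κ).hor, ev_X1, Data.H1, Data.M1,
        bppx_eq hn r hr (isEv3 r _ κ) D.am sI pI deI nuI c d (by rw [ev_sI]; ring)
          (by rw [ev_pI, hk]) (by rw [ev_deI, ev_nuI]; exact nuI_spec c d κ hk)
          (fun h0 => absurd h0 (by linarith))] at h1
      refine key2 _ _ ?_ h1
      rw [ev_deI, hk]; linarith
    · obtain ⟨κ, k0, k1, hk⟩ := exists_kap (1 - c) (1 - d) (by linarith) (by linarith)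
      have hX0 : 0 ≤ (1 - c + (1 - d)) / 2 := by linarith
      have hX1 : (1 - c + (1 - d)) / 2 ≤ 1 / 2 := by linarith
      have h1 := h.B2.nonneg r ((1 - c + (1 - d)) / 2) κ hr' z1 hX0
        (by push_cast; linarith) k0 k1
      rw [Data.zB2, (isEv3 r _ κ).hor, ev_X1, Data.H1, Data.M1,
        bppx_eq hn r hr (isEv3 r _ κ) D.am sII pII deII nuII c d (by rw [ev_sII]; ring)
          (by rw [ev_pII, hk]; ring) (by rw [ev_deII, ev_nuII]; exact nuII_spec c d κ hk)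
          (fun h0 => by
            have h5 : c = 1 := by nlinarith
            have h6 : d = 1 := by nlinarith
            rw [ev_nuII, h5, h6]; norm_num)] at h1
      refine key2 _ _ ?_ h1
      rw [ev_deII]; nlinarith
  · intro c w hc hc1 hw hw1
    have h1 := h.M.nonneg r c w hr' z1 hc (by simpa using hc1) hw hw1
    rw [Data.qM, (isEv3 r c w).hor, ev_X1, Data.H1, Data.M1, bpm_eq hn r hr (isEv3 r c w),
      ev_X2, ev_X3] at h1
    exact key _ h1
  · intro v w hv hv1 hw hw1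
    have h1 := h.N.nonneg r v w hr' z1 hv (by simpa using hv1) hw hw1
    rw [Data.qN, (isEv3 r v w).hor, ev_X1, Data.H1, Data.M1, bmm_eq hn r hr (isEv3 r v w),
      ev_X2, ev_X3] at h1
    exact key _ h1
  · intro c d hc hc1 hd hd1
    have ec : min (max c 0) 1 = c := by rw [max_eq_left hc.le, min_eq_left hc1]
    have ed : min (max d 0) 1 = d := by rw [max_eq_left hd.le, min_eq_left hd1]
    simp only [ec, ed]
    rcases le_total (c + d) 1 with hcd | hcd
    · obtain ⟨κ, k0, k1, hk⟩ := exists_kap c d hc.le hd.le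
      have hX : 0 < (c + d) / 2 := by linarith
      have hX2 : ((2 : ℕ) : ℝ) * ((c + d) / 2) ≤ 1 := by push_cast; linarith
      have hcd2 : c * d ≤ 1 / 2 := by nlinarith [sq_nonneg (c - d)]
      have hDe : 0 < 1 - ((c + d) / 2) ^ 2 * κ := by rw [hk]; linarith
      rcases le_total r (4 * ((c + d) / 2)) with h4 | h4
      · have h1 := h.Fa.nonneg (r / (4 * ((c + d) / 2))) ((c + d) / 2) κ (by positivity)
          (by push_cast; rw [one_mul]; exact (div_le_one (by positivity)).2 h4) hX.le hX2 k0 k1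
        have er : ev3 (r / (4 * ((c + d) / 2))) ((c + d) / 2) κ
            (R3.mul (R3.mul (R3.ofI 2) sI) X1) = r := by
          rw [(isEv3 _ _ _).mul, (isEv3 _ _ _).mul, (isEv3 _ _ _).ofI, ev_sI, ev_X1]
          field_simp
          norm_num
        rw [Data.zFa, (isEv3 _ _ κ).hor, er, Data.H1, Data.M1,
          fl1x_eq hn r hr (isEv3 _ _ κ) D.a D.d D.ep D.fs sI pI deI nuI c d (by rw [ev_sI]; ring)
            (by rw [ev_pI, hk]) (by rw [ev_deI, ev_nuI]; exact nuI_spec c d κ hk)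
            (fun h0 => absurd h0 (by linarith))] at h1
        have h2 := nonneg_of_mul_nonneg_right h1 (by rw [ev_deI]; exact hDe)
        linarith
      · rcases le_total r 2 with h5 | h5
        · have h1 := h.Fb.nonneg (r / 2) (2 * ((c + d) / 2) / r) κ (by positivity)
            (by push_cast; linarith) (by positivity)
            (by push_cast; rw [mul_div_assoc', div_le_one hr]; linarith) k0 k1
          have er : ev3 (r / 2) (2 * ((c + d) / 2) / r) κ (R3.mul (R3.ofI 2) X1) = r := by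
            rw [(isEv3 _ _ _).mul, (isEv3 _ _ _).ofI, ev_X1]
            push_cast; ring
          have etx : r / 2 * (2 * ((c + d) / 2) / r) = (c + d) / 2 := by field_simp
          have es : ev3 (r / 2) (2 * ((c + d) / 2) / r) κ sB = c + d := by
            rw [ev_sB, mul_assoc, etx]; ring
          have ep : ev3 (r / 2) (2 * ((c + d) / 2) / r) κ pB = c * d := by
            rw [ev_pB, etx, hk]
          rw [Data.zFb, (isEv3 _ _ κ).hor, er, Data.H1, Data.M1,
            fl1x_eq hn r hr (isEv3 _ _ κ) D.a D.d D.ep D.fs _ _ deB nuB c d es ep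
              (by rw [ev_deB, ev_nuB, etx]; exact nuI_spec c d κ hk)
              (fun h0 => absurd h0 (by linarith))] at h1
          have h2 := nonneg_of_mul_nonneg_right h1 (by rw [ev_deB, etx]; exact hDe)
          linarith
        · have h1 := h.Fc.nonneg (r - 2) ((c + d) / 2) κ (by linarith) (by simp) hX.le hX2 k0 k1
          have er : ev3 (r - 2) ((c + d) / 2) κ (R3.add (R3.ofI 2) X1) = r := by
            rw [(isEv3 _ _ _).add, (isEv3 _ _ _).ofI, ev_X1]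
            push_cast; ring
          rw [Data.zFc, (isEv3 _ _ κ).hor, er, Data.H1, Data.M1,
            fl1x_eq hn r hr (isEv3 _ _ κ) D.a D.d D.ep D.fs sI pI deI nuI c d
              (by rw [ev_sI]; ring) (by rw [ev_pI, hk])
              (by rw [ev_deI, ev_nuI]; exact nuI_spec c d κ hk)
              (fun h0 => absurd h0 (by linarith))] at h1
          have h2 := nonneg_of_mul_nonneg_right h1 (by rw [ev_deI]; exact hDe)
          linarith
    · obtain ⟨κ, k0, k1, hk⟩ := exists_kap (1 - c) (1 - d) (by linarith) (by linarith)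
      have hX0 : 0 ≤ (1 - c + (1 - d)) / 2 := by linarith
      have hX1 : (1 - c + (1 - d)) / 2 ≤ 1 / 2 := by linarith
      have hX2 : ((2 : ℕ) : ℝ) * ((1 - c + (1 - d)) / 2) ≤ 1 := by push_cast; linarith
      have h1 := h.F2.nonneg (r / (c + d)) ((1 - c + (1 - d)) / 2) κ (by positivity)
        (by simp) hX0 hX2 k0 k1
      have er : ev3 (r / (c + d)) ((1 - c + (1 - d)) / 2) κ (R3.mul sII X1) = r := by
        rw [(isEv3 _ _ _).mul, ev_sII, ev_X1]
        have : c + d ≠ 0 := by positivity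
        field_simp
        ring
      rw [Data.zF2, (isEv3 _ _ κ).hor, er, Data.H1, Data.M1,
        fl1x_eq hn r hr (isEv3 _ _ κ) D.a D.d D.ep D.fs sII pII deII nuII c d
          (by rw [ev_sII]; ring)
          (by rw [ev_pII, hk]; ring) (by rw [ev_deII, ev_nuII]; exact nuII_spec c d κ hk)
          (fun h0 => by
            have h5 : c = 1 := by nlinarith
            have h6 : d = 1 := by nlinarith
            rw [ev_nuII, h5, h6]; norm_num)] at h1
      have h2 := nonneg_of_mul_nonneg_right h1 (by rw [ev_deII]; nlinarith)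
      linarith

/-- the rational form of the final condition when the odd moments cancel -/
def finc2 (n : ℕ) (a d : ℤ) (fs : List (ℕ × ℤ)) : Prop :=
  ((n : ℚ) * a + (fs.map (fun kz => (kz.2 : ℚ) * mq n 0 (kz.1 + 1))).sum ≤ d) ∧
  (fs.map (fun kz => (kz.2 : ℚ) * (mq n 1 (kz.1 + 1) - mq n 0 (kz.1 + 1)))).sum = 0

instance (n : ℕ) (a d : ℤ) (fs : List (ℕ × ℤ)) : Decidable (finc2 n a d fs) := by
  unfold finc2; infer_instance

theorem Im_lin {n : ℕ} (hn : 1 ≤ n) (e : Ev n) (he : ‖e‖ = 1) (m : ℕ) :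
    Im n e m = (mq n 0 m : ℝ) * om n + ((mq n 1 m - mq n 0 m : ℚ) : ℝ) * Im n e 1 := by
  induction m using Nat.twoStepInduction with
  | zero => rw [Im_zero hn e he]; simp [mq]
  | one => simp [mq]
  | more m ih _ =>
    rw [Im_rec hn e he, ih, mq, mq]
    push_cast
    ring

theorem fin_of2 (n : ℕ) (hn : 2 ≤ n) (a d : ℤ) (fs : List (ℕ × ℤ))
    (h : finc2 n a d fs) (e : Ev n) (he : ‖e‖ = 1) :
    (a : ℝ) * (n * om n) + ∫ ω : Metric.sphere (0 : Ev n) 1, |(inner ℝ (ω : Ev n) e : ℝ)|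
      * sev (min (max |(inner ℝ (ω : Ev n) e : ℝ)| 0) 1) fs
      ∂(volume : Measure (Ev n)).toSphere ≤ d * om n := by
  have hin : ∀ ω : Metric.sphere (0 : Ev n) 1, |(inner ℝ (ω : Ev n) e : ℝ)| ≤ 1 := by
    intro ω
    have h1 := abs_real_inner_le_norm (ω : Ev n) e
    have h2 : ‖(ω : Ev n)‖ = 1 := by simp
    rwa [h2, he, mul_one] at h1
  have e1 : (fun ω : Metric.sphere (0 : Ev n) 1 => |(inner ℝ (ω : Ev n) e : ℝ)|
      * sev (min (max |(inner ℝ (ω : Ev n) e : ℝ)| 0) 1) fs)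
      = fun ω : Metric.sphere (0 : Ev n) 1 => |(inner ℝ (ω : Ev n) e : ℝ)|
        * sev |(inner ℝ (ω : Ev n) e : ℝ)| fs := by
    funext ω
    rw [max_eq_left (abs_nonneg _), min_eq_left (hin ω)]
  rw [e1, (int_sev n e fs).2]
  obtain ⟨h1, h2⟩ := h
  have e2 : (fs.map (fun kz => (kz.2 : ℝ) * Im n e (kz.1 + 1))).sum
      = (((fs.map (fun kz => (kz.2 : ℚ) * mq n 0 (kz.1 + 1))).sum : ℚ) : ℝ) * om n
        + (((fs.map (fun kz => (kz.2 : ℚ) * (mq n 1 (kz.1 + 1) - mq n 0 (kz.1 + 1)))).sum : ℚ) : ℝ)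
          * Im n e 1 := by
    clear h1 h2 e1
    induction fs with
    | nil => simp
    | cons kz fs ih =>
      rw [List.map_cons, List.sum_cons, ih, Im_lin (by omega) e he (kz.1 + 1), List.map_cons,
        List.sum_cons, List.map_cons, List.sum_cons]
      push_cast
      ring
  rw [e2, h2, Rat.cast_zero, zero_mul, add_zero]
  have h4 : ((n : ℝ) * a + (((fs.map (fun kz => (kz.2 : ℚ) * mq n 0 (kz.1 + 1))).sum : ℚ) : ℝ))
      ≤ d := by exact_mod_cast h1
  have h5 := mul_le_mul_of_nonneg_right h4 (om_nonneg' n)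
  linarith

/-- from kernel checks to a strict raw certificate -/
theorem ChksX.strict {D : Data} (h : ChksX D) (hq : finc2 D.n D.a D.d D.fs) :
    ∃ c : RawCert D.n, c.Strict := by
  refine rawCert_ofX D.n D.a D.d D.ep (fun c => sev (min (max c 0) 1) D.fs)
    (D.mon.map (rm D.n)) ?_
    (by exact_mod_cast h.a0) (by exact_mod_cast h.d0) (by exact_mod_cast h.ep) ?_ ?_
    (fun r hr => h.cond r hr)
    (fun e he => fin_of2 D.n (by have := h.n5; omega) D.a D.d D.fs hq e he)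
  · intro m hm
    rw [List.mem_map] at hm
    obtain ⟨t, ht, rfl⟩ := hm
    refine rm_good D.n t (h.mj t ht).1 ?_
    have h1 := (h.mj t ht).2
    have h2 := h.n5
    simp only [ex]
    omega
  · exact (sev_cont D.fs).comp ((continuous_id.max continuous_const).min continuous_const)
  · intro c
    set x := min (max c 0) 1 with hx
    have hx0 : 0 ≤ x := le_min (le_max_right _ _) zero_le_one
    have hx1 : x ≤ 1 := min_le_right _ _
    have h1 := h.f.nonneg 0 x 0 le_rfl (by simp) hx0 (by simpa using hx1) le_rfl zero_le_one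
    rw [Data.qf, (isEv3 0 x 0).hor, ev_X2, (isEv3 0 x 0).spl, (isEv3 0 x 0).ofI] at h1
    simpa using h1

theorem ChksX.hasKer {D : Data} (h : ChksX D) (hq : finc2 D.n D.a D.d D.fs) :
    HasKer D.n := by
  obtain ⟨c, -⟩ := h.strict hq
  exact hasKer_of_raw (by have := h.n5; omega) c

end

end Vale.Agent.Lib.P219.Bern
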