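import Vale.Agent.Lib.P219.Ce.Build2

/-! # P219 certificates: dimension 10 -/

namespace Vale.Agent.Lib.P219.Bern

/-- certificate data in dimension 10 -/
def dat10 : Data where
  n := 10
  mon := [(2477440000000, 0, 0), ((-93950718400), 0, 2), (46100203520, 0, 4), ((-6291281495296), 1, 3),
    (2365957677440, 1, 5), (1351910207760, 2, 0), (653598468544, 2, 2), ((-3073812577472), 2, 4),
    (3546045839168, 3, 3), ((-526417104192), 3, 5), (931218397824, 4, 0), ((-1157605059156), 4, 2),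
    (229891013856, 4, 4)]
  a := 2052654034071
  am := 2052654034070
  d := 89187840000000
  ep := 1
  fs := [(1, 59458560000000), (3, 12643317747200), (5, 158198733643776), (7, (-289124833001984)),
    (9, 187856805373440), (11, (-42646448947200))]

theorem c10_qB1 : Chk 0 2 dat10.qB1 :=
  ⟨69, 4, 8,
    (.base (.n1 .leaf .leaf)),
    by decide +kernel⟩

theorem c10_qB2 : Chk 0 2 dat10.qB2 :=
  ⟨115, 4, 8,
    (.base (.n1 (.n1 .leaf .leaf) (.n2 (.n1 (.n2 (.n1 (.n2 (.n1 .leaf .leaf) (.n1 .leaf (.n1 .leaf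
    .leaf))) (.n1 (.n2 (.n1 .leaf .leaf) .leaf) .leaf)) (.n1 .leaf .leaf)) .leaf) (.n1 .leaf
    .leaf)))),
    by decide +kernel⟩

theorem c10_qFa : Chk 1 2 dat10.qFa :=
  ⟨92, 7, 14,
    (.base (.n1 .leaf .leaf)),
    by decide +kernel⟩

theorem c10_qFb : Chk 1 2 dat10.qFb :=
  ⟨84, 7, 14,
    (.base .leaf),
    by decide +kernel⟩

theorem c10_qFc : Chk 0 2 dat10.qFc :=
  ⟨82, 7, 14,
    (.base .leaf),
    by decide +kernel⟩

theorem c10_qF2 : Chk 0 2 dat10.qF2 :=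
  ⟨209, 7, 14,
    (.base (.n1 (.n1 .leaf (.n2 (.n1 .leaf (.n1 .leaf (.n2 (.n1 .leaf (.n2 .leaf (.n1 .leaf (.n1
    .leaf (.n2 (.n1 .leaf .leaf) (.n1 .leaf .leaf)))))) .leaf))) .leaf)) (.n1 (.n2 (.n1 (.n1 (.n2
    (.n1 (.n1 (.n2 .leaf .leaf) .leaf) .leaf) .leaf) .leaf) .leaf) .leaf) .leaf))),
    by decide +kernel⟩

theorem c10_qM : Chk 0 1 dat10.qM :=
  ⟨62, 3, 6,
    (.base (.n1 .leaf .leaf)),
    by decide +kernel⟩

theorem c10_qN : Chk 0 1 dat10.qN :=
  ⟨50, 3, 3,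
    (.base .leaf),
    by decide +kernel⟩

theorem c10_qE : Chk 0 1 dat10.qE :=
  ⟨60, 1, 6,
    (.base (.n1 (.n1 .leaf .leaf) .leaf)),
    by decide +kernel⟩

theorem c10_qC : Chk 0 1 dat10.qC :=
  ⟨75, 1, 4,
    (.base (.n1 (.n1 .leaf (.n2 (.n1 (.n2 (.n1 .leaf .leaf) .leaf) .leaf) .leaf)) (.n1 .leaf
    .leaf))),
    by decide +kernel⟩

theorem c10_qf : Chk 0 1 dat10.qf :=
  ⟨56, 1, 12,
    (.base .leaf),
    by decide +kernel⟩

theorem chks10 : Chks dat10 where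
  n5 := by decide
  mj := by decide +kernel
  a0 := by decide
  am := by decide
  d0 := by decide
  ep := by decide
  B1 := c10_qB1
  B2 := c10_qB2
  Fa := c10_qFa
  Fb := c10_qFb
  Fc := c10_qFc
  F2 := c10_qF2
  M := c10_qM
  N := c10_qN
  E := c10_qE
  C := c10_qC
  f := c10_qf

/-- a strict certificate in dimension 10 -/
theorem exists_strict_ten : ∃ c : RawCert 10, c.Strict :=
  chks10.strict 0 (by decide +kernel)

/-- certificates in dimension 10 -/
theorem hasKer_ten : HasKer 10 :=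
  chks10.hasKer 0 (by decide +kernel)

end Vale.Agent.Lib.P219.Bern
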