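import Vale.Agent.Lib.P219.Ce.Build2

/-! # P219 certificates: dimension 11 -/

namespace Vale.Agent.Lib.P219.Bern

/-- certificate data in dimension 11 -/
def dat11 : Data where
  n := 11
  mon := [(1003067412480000000, 0, 0), ((-535008828192491520), 0, 2), (2401443190684661760, 0, 3),
    ((-3734649679100497920), 0, 4), (1760650425754343424, 0, 5), ((-10681358137484783616), 1, 2),
    ((-1207230650242025472), 1, 3), (36244899571198187520, 1, 4), ((-25292642917318189056), 1, 5),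
    (672061097592073728, 2, 0), (11790787107034736640, 2, 2), (439734823263848448, 2, 3),
    ((-66930403932644732928), 2, 4), (53510475860023891968, 2, 5), (1630136156829672576, 3, 0),
    ((-10636060114670893056), 3, 2), (18920004784493912064, 3, 3), (14621695415894052864, 3, 4),
    ((-24808137383779190784), 3, 5), ((-1637844377624646912), 4, 0), (6475231050079597568, 4, 2),
    ((-8900320767798749184), 4, 3), ((-1332274036949194752), 4, 4), (6280999298314481664, 4, 5),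
    (748806959445150606, 5, 0), ((-3367979587817936384), 5, 2), (5408201577623394816, 5, 3),
    ((-2787994586496734208), 5, 4)]
  a := 704003416954788739
  am := 704003416954788738
  d := 36110426849280000000
  ep := 1
  fs := [(1, 24073617899520000000), (3, 9094794205443932160), (4, 142084411911540596736),
    (5, (-285444633653133115392)), (6, (-855139145772122781696)), (7, 3287333857213739483136),
    (8, (-2522292649854580738048)), (9, (-2758443193278506008576)), (10, 5925351237536984989696),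
    (11, (-3924398786907648688128)), (12, 992654256451986653184)]

theorem c11_qB1 : Chk 0 2 dat11.qB1 :=
  ⟨96, 4, 8,
    (.base (.n1 .leaf (.n1 .leaf .leaf))),
    by decide +kernel⟩

theorem c11_qB2 : Chk 0 2 dat11.qB2 :=
  ⟨158, 4, 8,
    (.base (.n1 (.n1 .leaf (.n2 (.n1 .leaf (.n2 (.n1 .leaf (.n2 .leaf (.n1 (.n2 .leaf (.n1 .leaf
    .leaf)) .leaf))) (.n1 .leaf .leaf))) .leaf)) (.n1 (.n2 (.n1 (.n2 (.n1 .leaf (.n2 .leaf (.n1 (.n2
    .leaf .leaf) (.n2 .leaf .leaf)))) (.n1 .leaf .leaf)) (.n2 (.n2 (.n1 (.n1 (.n2 .leaf .leaf)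
    .leaf) .leaf) .leaf) .leaf)) (.n1 .leaf .leaf)) .leaf))),
    by decide +kernel⟩

theorem c11_qFa : Chk 1 2 dat11.qFa :=
  ⟨118, 8, 15,
    (.base (.n1 .leaf .leaf)),
    by decide +kernel⟩

theorem c11_qFb : Chk 1 2 dat11.qFb :=
  ⟨108, 8, 15,
    (.base .leaf),
    by decide +kernel⟩

theorem c11_qFc : Chk 0 2 dat11.qFc :=
  ⟨106, 8, 15,
    (.base .leaf),
    by decide +kernel⟩

theorem c11_qF2 : Chk 0 2 dat11.qF2 :=
  ⟨339, 8, 15,
    (.n3 (.base (.n1 (.n1 .leaf (.n2 (.n1 .leaf (.n1 .leaf (.n2 (.n1 .leaf (.n1 .leaf .leaf))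
    .leaf))) (.n1 .leaf (.n1 .leaf (.n2 (.n1 .leaf (.n2 .leaf .leaf)) .leaf))))) (.n1 (.n2 .leaf
    (.n1 (.n2 (.n1 .leaf .leaf) .leaf) .leaf)) .leaf))) (.n3 (.base (.n1 (.n1 .leaf (.n1 .leaf (.n2
    (.n1 .leaf (.n1 .leaf (.n2 (.n1 .leaf (.n2 (.n1 .leaf .leaf) .leaf)) .leaf))) .leaf))) (.n1 (.n1
    (.n2 (.n1 (.n1 (.n2 .leaf .leaf) .leaf) .leaf) .leaf) .leaf) .leaf))) (.n3 (.base (.n1 (.n1
    .leaf (.n1 .leaf (.n2 (.n1 .leaf (.n1 .leaf (.n2 (.n1 .leaf (.n2 (.n1 .leaf (.n1 .leaf .leaf))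
    (.n1 .leaf .leaf))) .leaf))) .leaf))) (.n1 (.n1 (.n1 (.n2 (.n1 (.n2 (.n1 (.n1 (.n2 .leaf .leaf)
    .leaf) .leaf) .leaf) .leaf) .leaf) .leaf) .leaf) .leaf))) (.n3 (.base (.n1 (.n1 .leaf (.n1 .leaf
    (.n1 .leaf (.n2 (.n1 .leaf (.n2 (.n1 .leaf (.n1 .leaf (.n2 (.n1 .leaf (.n1 .leaf .leaf)) (.n1
    .leaf .leaf)))) .leaf)) .leaf)))) (.n1 (.n1 (.n1 (.n2 (.n1 (.n1 (.n2 (.n1 (.n2 .leaf .leaf)
    .leaf) .leaf) .leaf) .leaf) .leaf) .leaf) .leaf) .leaf))) (.base (.n1 (.n1 .leaf (.n1 .leaf (.n1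
    .leaf (.n1 .leaf (.n2 (.n1 .leaf (.n2 (.n1 .leaf (.n2 (.n1 .leaf (.n1 .leaf (.n2 .leaf (.n1
    .leaf (.n1 .leaf (.n2 .leaf (.n1 .leaf (.n1 .leaf .leaf)))))))) (.n1 .leaf (.n1 .leaf .leaf))))
    .leaf)) .leaf))))) (.n1 (.n1 (.n1 (.n1 (.n2 (.n1 (.n2 (.n1 (.n2 (.n1 (.n1 (.n1 (.n2 .leaf (.n1
    (.n1 (.n2 .leaf .leaf) .leaf) .leaf)) .leaf) .leaf) .leaf) .leaf) .leaf) .leaf) .leaf) .leaf)
    .leaf) .leaf) .leaf) .leaf))))))),
    by decide +kernel⟩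

theorem c11_qM : Chk 0 1 dat11.qM :=
  ⟨92, 3, 6,
    (.base (.n1 (.n1 .leaf .leaf) (.n1 .leaf .leaf))),
    by decide +kernel⟩

theorem c11_qN : Chk 0 1 dat11.qN :=
  ⟨80, 3, 3,
    (.base (.n1 .leaf .leaf)),
    by decide +kernel⟩

theorem c11_qE : Chk 0 1 dat11.qE :=
  ⟨115, 1, 6,
    (.base (.n1 (.n1 .leaf (.n2 .leaf (.n2 .leaf (.n1 .leaf (.n2 .leaf (.n1 .leaf .leaf))))))
    .leaf)),
    by decide +kernel⟩

theorem c11_qC : Chk 0 1 dat11.qC :=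
  ⟨152, 1, 4,
    (.base (.n1 (.n1 (.n1 (.n2 (.n1 (.n1 (.n2 .leaf (.n1 (.n1 (.n2 (.n1 (.n1 (.n2 .leaf (.n1 (.n1
    (.n2 .leaf .leaf) .leaf) .leaf)) .leaf) .leaf) .leaf) .leaf) .leaf)) .leaf) .leaf) (.n2 .leaf
    (.n2 .leaf .leaf))) (.n2 .leaf (.n2 .leaf (.n2 (.n1 (.n2 (.n1 (.n2 .leaf .leaf) (.n2 .leaf (.n1
    (.n2 .leaf .leaf) .leaf))) (.n1 .leaf .leaf)) (.n2 .leaf .leaf)) .leaf)))) (.n2 .leaf (.n2 .leaf
    (.n1 .leaf (.n2 .leaf (.n1 (.n2 .leaf (.n1 (.n1 .leaf .leaf) .leaf)) .leaf)))))) (.n1 (.n2 (.n2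
    .leaf (.n1 .leaf .leaf)) (.n1 .leaf (.n2 (.n1 (.n2 .leaf .leaf) (.n2 .leaf (.n1 (.n2 .leaf
    .leaf) (.n2 .leaf (.n1 .leaf .leaf))))) (.n1 .leaf (.n2 (.n1 .leaf (.n2 (.n1 (.n2 .leaf .leaf)
    (.n2 .leaf .leaf)) .leaf)) .leaf))))) (.n2 .leaf (.n1 (.n2 .leaf (.n1 (.n2 (.n1 (.n2 .leaf
    .leaf) .leaf) .leaf) .leaf)) .leaf))))),
    by decide +kernel⟩

theorem c11_qf : Chk 0 1 dat11.qf :=
  ⟨79, 1, 13,
    (.base .leaf),
    by decide +kernel⟩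

theorem chks11 : Chks dat11 where
  n5 := by decide
  mj := by decide +kernel
  a0 := by decide
  am := by decide
  d0 := by decide
  ep := by decide
  B1 := c11_qB1
  B2 := c11_qB2
  Fa := c11_qFa
  Fb := c11_qFb
  Fc := c11_qFc
  F2 := c11_qF2
  M := c11_qM
  N := c11_qN
  E := c11_qE
  C := c11_qC
  f := c11_qf

/-- a strict certificate in dimension 11 -/
theorem exists_strict_eleven : ∃ c : RawCert 11, c.Strict :=
  chks11.strict (693 / 256) (by decide +kernel)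

/-- certificates in dimension 11 -/
theorem hasKer_eleven : HasKer 11 :=
  chks11.hasKer (693 / 256) (by decide +kernel)

end Vale.Agent.Lib.P219.Bern
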