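import Vale.Agent.Lib.P219.Ce.Build4

/-! # P219 certificates: dimension 12 -/

namespace Vale.Agent.Lib.P219.Bern

/-- certificate data in dimension 12 -/
def dat12 : Data where
  n := 12
  mon := [(150144628233600000000, 0, 0), ((-31143884641519890240), 0, 2), (368643784613109445440, 0, 3),
    ((-1530922075172307417600), 0, 4), (2144862619209579709440, 0, 5),
    ((-974435979676144265280), 0, 6), ((-1495181704602601960560), 1, 2),
    (6647069742814844703360, 1, 3), ((-1575083378965977840960), 1, 4),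
    ((-12680395210650444076800), 1, 5), (9294176803734420998400, 1, 6),
    (100764144765731983536, 2, 0), ((-2246113249837420803840), 2, 2),
    ((-19595283767471599387200), 2, 3), (30620382137780530455360, 2, 4),
    (13036574498719336044480, 2, 5), ((-23098262624996291853120), 2, 6),
    (226156714228780986420, 3, 0), (9631319164302797881920, 3, 2), (876558723483141578880, 3, 3),
    ((-23452196875511520916800), 3, 4), ((-9846361661022187741440), 3, 5),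
    (24002068709757960581760, 3, 6), (16965576655278471792, 4, 0),
    ((-5533669774762218048960), 4, 2), (7615778080285447712640, 4, 3),
    (1641019317382449164160, 4, 4), (7062113998120323542400, 4, 5),
    ((-11615692400595962078400), 4, 6), ((-259632213349993379280), 5, 0),
    ((-351596838056482304748), 5, 2), (3164915224531937036160, 5, 3),
    ((-6258719580847315021440), 5, 4), (2601720051453320878080, 5, 5),
    (1348149487748338154880, 5, 6), (153184797407758749919, 6, 0), ((-56229029215779420), 6, 2),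
    ((-695744626314732492960), 6, 3), (1148577073625222120880, 6, 4),
    ((-605848555222937389440), 6, 5)]
  a := 90777611811913231517
  am := 90777611811913231516
  d := 5405206616409600000000
  ep := 1
  fs := [(1, 3603471077606400000000), (3, 969845292653439121920), (4, 19499181858284318023680),
    (5, (-61603569409610206218240)), (6, 285364053152552147558400),
    (7, (-659644390826171445606912)), (8, (-557689953425899513443840)),
    (9, 3780847963624721838031872), (10, (-3417429293421976379441664)),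
    (11, (-2327257853441659765186560)), (12, 5294216909733320531128320),
    (13, (-2792361988897431304273920)), (14, 436647607367882803200000)]

theorem c12_zB1 : Chk 0 2 dat12.zB1 :=
  ⟨121, 6, 11,
    (.base (.n1 .leaf (.n1 .leaf (.n1 .leaf .leaf)))),
    by decide +kernel⟩

theorem c12_zB2 : Chk 0 2 dat12.zB2 :=
  ⟨202, 6, 10,
    (.n3 (.base (.n1 (.n1 .leaf (.n2 (.n1 .leaf .leaf) .leaf)) (.n1 (.n1 (.n2 (.n2 (.n1 .leaf (.n2
    .leaf (.n1 (.n2 .leaf .leaf) (.n2 .leaf .leaf)))) (.n1 (.n2 (.n1 .leaf (.n2 .leaf .leaf)) .leaf)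
    (.n2 (.n1 (.n2 .leaf .leaf) .leaf) .leaf))) .leaf) (.n2 (.n2 (.n2 (.n1 (.n1 .leaf .leaf) .leaf)
    .leaf) .leaf) .leaf)) (.n1 (.n2 .leaf (.n2 (.n1 .leaf .leaf) (.n1 (.n1 .leaf .leaf) .leaf)))
    .leaf)))) (.base (.n1 (.n1 .leaf (.n2 (.n1 .leaf (.n1 .leaf (.n2 (.n1 .leaf .leaf) (.n1 (.n2
    (.n1 .leaf (.n2 (.n1 .leaf .leaf) .leaf)) .leaf) (.n2 .leaf .leaf))))) (.n1 .leaf .leaf))) (.n1
    (.n2 (.n1 (.n2 (.n1 .leaf (.n2 .leaf (.n1 .leaf (.n2 .leaf .leaf)))) (.n1 .leaf (.n2 (.n1 .leaf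
    .leaf) .leaf))) (.n2 (.n2 (.n1 (.n1 .leaf .leaf) .leaf) (.n1 .leaf .leaf)) .leaf)) .leaf)
    .leaf)))),
    by decide +kernel⟩

theorem c12_zFa : Chk 1 2 dat12.zFa :=
  ⟨137, 10, 19,
    (.base (.n1 .leaf .leaf)),
    by decide +kernel⟩

theorem c12_zFb : Chk 1 2 dat12.zFb :=
  ⟨128, 10, 19,
    (.base .leaf),
    by decide +kernel⟩

theorem c12_zFc : Chk 0 2 dat12.zFc :=
  ⟨167, 10, 19,
    (.base (.n1 .leaf (.n2 .leaf (.n1 .leaf .leaf)))),
    by decide +kernel⟩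

theorem c12_zF2 : Chk 0 2 dat12.zF2 :=
  ⟨271, 10, 18,
    (.n3 (.n3 (.base (.n1 (.n1 .leaf (.n2 (.n1 .leaf (.n1 .leaf (.n1 .leaf (.n2 (.n2 .leaf (.n1
    .leaf .leaf)) .leaf)))) (.n1 .leaf (.n1 .leaf (.n2 (.n1 .leaf (.n2 (.n1 .leaf .leaf) .leaf))
    .leaf))))) (.n1 (.n2 .leaf (.n1 .leaf .leaf)) (.n1 (.n2 .leaf (.n1 (.n2 .leaf (.n1 .leaf .leaf))
    .leaf)) .leaf)))) (.base (.n1 (.n1 .leaf (.n2 (.n1 .leaf (.n1 .leaf (.n2 .leaf .leaf))) (.n1
    .leaf (.n1 .leaf (.n2 (.n1 .leaf (.n2 .leaf .leaf)) .leaf))))) (.n1 (.n2 .leaf .leaf) .leaf))))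
    (.base (.n1 (.n1 .leaf (.n2 (.n1 .leaf (.n1 .leaf (.n2 .leaf .leaf))) (.n1 .leaf .leaf))) (.n1
    (.n2 .leaf .leaf) .leaf)))),
    by decide +kernel⟩

theorem c12_qM : Chk 0 1 dat12.qM :=
  ⟨108, 3, 7,
    (.base (.n1 (.n1 .leaf .leaf) (.n1 .leaf (.n1 .leaf .leaf)))),
    by decide +kernel⟩

theorem c12_qN : Chk 0 1 dat12.qN :=
  ⟨89, 3, 3,
    (.base (.n1 .leaf .leaf)),
    by decide +kernel⟩

theorem c12_qE : Chk 0 1 dat12.qE :=
  ⟨154, 1, 7,
    (.base (.n1 (.n1 .leaf (.n2 .leaf (.n1 .leaf (.n2 .leaf (.n1 .leaf (.n2 .leaf (.n1 .leaf (.n2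
    .leaf (.n1 .leaf .leaf))))))))) (.n1 .leaf .leaf))),
    by decide +kernel⟩

theorem c12_qC : Chk 0 1 dat12.qC :=
  ⟨192, 1, 5,
    (.base (.n1 (.n1 (.n1 (.n2 (.n2 (.n1 (.n1 (.n2 .leaf (.n1 (.n2 (.n1 (.n1 (.n2 (.n1 (.n1 (.n1
    (.n2 .leaf .leaf) .leaf) .leaf) .leaf) .leaf) .leaf) .leaf) .leaf) .leaf)) .leaf) .leaf) (.n1
    (.n2 .leaf .leaf) (.n2 (.n1 .leaf .leaf) (.n1 (.n2 (.n1 .leaf (.n2 .leaf .leaf)) .leaf) (.n2
    (.n1 (.n2 .leaf .leaf) .leaf) .leaf))))) (.n2 .leaf (.n1 (.n1 (.n2 (.n1 (.n2 (.n1 (.n1 (.n2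
    .leaf (.n1 (.n1 (.n1 (.n1 (.n2 .leaf .leaf) .leaf) .leaf) .leaf) .leaf)) .leaf) .leaf) .leaf)
    .leaf) .leaf) .leaf) .leaf))) (.n2 (.n2 .leaf .leaf) (.n2 .leaf (.n2 .leaf (.n1 (.n1 (.n2 .leaf
    (.n1 .leaf .leaf)) .leaf) .leaf))))) (.n2 (.n1 .leaf (.n2 (.n1 .leaf (.n1 .leaf (.n2 (.n1 .leaf
    (.n2 (.n1 (.n2 (.n1 (.n2 (.n1 .leaf .leaf) .leaf) .leaf) .leaf) .leaf) .leaf)) .leaf))) .leaf))
    (.n2 (.n1 .leaf .leaf) (.n2 (.n1 (.n1 (.n2 (.n1 (.n2 .leaf .leaf) (.n2 (.n1 .leaf .leaf) (.n1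
    (.n2 .leaf .leaf) (.n2 .leaf .leaf)))) .leaf) (.n2 .leaf .leaf)) .leaf) .leaf)))) (.n1 (.n2 (.n2
    (.n1 .leaf .leaf) (.n1 (.n1 .leaf (.n2 .leaf (.n1 .leaf (.n2 .leaf .leaf)))) (.n1 (.n2 .leaf
    (.n1 (.n2 .leaf (.n1 (.n2 (.n1 .leaf .leaf) (.n1 .leaf .leaf)) .leaf)) .leaf)) .leaf))) (.n1
    .leaf (.n2 (.n1 (.n2 (.n1 .leaf .leaf) .leaf) .leaf) .leaf))) (.n1 (.n2 .leaf (.n1 (.n2 .leaf
    (.n1 (.n2 .leaf (.n1 .leaf .leaf)) .leaf)) .leaf)) .leaf)))),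
    by decide +kernel⟩

theorem c12_qf : Chk 0 1 dat12.qf :=
  ⟨89, 1, 15,
    (.base .leaf),
    by decide +kernel⟩

theorem chks12 : ChksX dat12 where
  n5 := by decide
  mj := by decide +kernel
  a0 := by decide
  am := by decide
  d0 := by decide
  ep := by decide
  B1 := c12_zB1
  B2 := c12_zB2
  Fa := c12_zFa
  Fb := c12_zFb
  Fc := c12_zFc
  F2 := c12_zF2
  M := c12_qM
  N := c12_qN
  E := c12_qE
  C := c12_qC
  f := c12_qf

/-- a strict certificate in dimension 12 -/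
theorem exists_strict_twelve : ∃ c : RawCert 12, c.Strict :=
  chks12.strict (by decide +kernel)

/-- certificates in dimension 12 -/
theorem hasKer_twelve : HasKer 12 :=
  chks12.hasKer (by decide +kernel)

end Vale.Agent.Lib.P219.Bern
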