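import Vale.Agent.Lib.P219.Ce.Cutoff
import Vale.Agent.Lib.P219.Ce.Sphere

/-! # P219 certificates: dimension 4 (Croke) -/

namespace Vale.Agent.Lib.P219

open MeasureTheory Set Filter Topology

/-- Croke's inequality `r^3 - 12 c c' r + 8 c c' (c + c') ≥ 0` -/
private theorem n4_chord (r c c' : ℝ) (hr : 0 ≤ r) (hc : 0 ≤ c) (hc' : 0 ≤ c') :
    c * c' * (12 * r - 8 * c - 8 * c') ≤ r ^ 3 := by
  have h1 : 0 ≤ (r - (c + c')) ^ 2 * (r + 2 * (c + c')) := by positivity
  have h2 : 0 ≤ (c - c') ^ 2 * r := by positivity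
  by_cases h : 3 * r ≤ 2 * (c + c')
  · have h3 : 12 * r - 8 * c - 8 * c' ≤ 0 := by linarith
    have h4 : c * c' * (12 * r - 8 * c - 8 * c') ≤ 0 :=
      mul_nonpos_of_nonneg_of_nonpos (mul_nonneg hc hc') h3
    have h5 : 0 ≤ r ^ 3 := by positivity
    linarith
  · have h3 : 0 ≤ 12 * r - 8 * c - 8 * c' := by linarith
    have h4 : c * c' ≤ (c + c') ^ 2 / 4 := by nlinarith [sq_nonneg (c - c')]
    have h5 : c * c' * (12 * r - 8 * c - 8 * c') ≤ (c + c') ^ 2 / 4 * (12 * r - 8 * c - 8 * c') :=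
      mul_le_mul_of_nonneg_right h4 h3
    nlinarith

/-- `η = 0`, `a = 1`, `d = 12`, `f c = 8 |c|` -/
theorem nonempty_rawCert_four : Nonempty (RawCert 4) := by
  refine ⟨{
    η := fun _ _ => 0
    ηr := fun _ _ => 0
    ηc := fun _ _ => 0
    smooth := contDiffOn_const
    deriv_r := fun _ _ _ => hasDerivAt_const _ _
    deriv_c := fun _ _ _ => hasDerivAt_const _ _
    bound := fun δ _ => ⟨0, fun r c _ _ => by simp⟩
    η_nonneg := fun _ _ _ _ => le_refl _
    a := 1
    a_pos := by norm_num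
    d := 12
    d_pos := by norm_num
    f := fun c => 8 * |c|
    f_cont := by fun_prop
    f_nonneg := fun c => by positivity
    B_nonneg := fun r c c' _ _ _ => by simp
    B_lower := ?_
    final := ?_ }⟩
  · intro r c c' hr hc hc1 hc' hc'1
    have h := n4_chord r c c' hr.le hc.le hc'.le
    rw [abs_of_pos hc, abs_of_pos hc']
    simp only [abs_zero, mul_zero, zero_mul, zero_div, sub_zero, add_zero, one_mul]
    exact h
  · intro e he
    have h2 := sphere_moment_two (n := 4) (by norm_num) e he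
    have e1 : (fun ω : Metric.sphere (0 : Ev 4) 1 => |(inner ℝ (ω : Ev 4) e : ℝ)|
        * (8 * |(|(inner ℝ (ω : Ev 4) e : ℝ)|)|))
        = fun ω : Metric.sphere (0 : Ev 4) 1 => 8 * (inner ℝ (ω : Ev 4) e : ℝ) ^ 2 := by
      funext ω
      rw [abs_abs]
      generalize (inner ℝ (ω : Ev 4) e : ℝ) = t
      have a2 : |t| ^ 2 = t ^ 2 := sq_abs t
      calc |t| * (8 * |t|) = 8 * |t| ^ 2 := by ring
        _ = _ := by rw [a2]
    rw [e1, integral_const_mul, h2]
    push_cast
    ring_nf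
    exact le_refl _

theorem hasKer_four : HasKer 4 := by
  obtain ⟨c⟩ := nonempty_rawCert_four
  exact hasKer_of_raw (by norm_num) c

end Vale.Agent.Lib.P219
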