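import Mathlib.Algebra.Ring.IsFormallyReal
import Vale.Agent.Lib.P219.Ce.Cutoff
import Vale.Agent.Lib.P219.Ce.Sphere
import Vale.Agent.Lib.P219.Ri.Defs

/-! # P219 certificates: dimension 4, strict certificate -/

namespace Vale.Agent.Lib.P219

open MeasureTheory Set Filter Topology

private theorem n4s_id (r c c' : ℝ) :
    r ^ 3 - c * c' * (12 * r - 8 * c - 8 * c')
      = (r - (c + c')) ^ 2 * (r + 2 * (c + c')) + (3 * r - 2 * (c + c')) * (c - c') ^ 2 := by
  ring

private theorem n4s_chord (r c c' : ℝ) (hr : 0 < r) (hc : 0 < c) (hc' : 0 < c') :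
    c * c' * (12 * r - 8 * c - 8 * c') ≤ r ^ 3 ∧
      (c * c' * (12 * r - 8 * c - 8 * c') = r ^ 3 → r = 2 * c') := by
  have h0 : 0 < r ^ 3 := by positivity
  by_cases h : 3 * r ≤ 2 * (c + c')
  · have h3 : 12 * r - 8 * c - 8 * c' ≤ 0 := by linarith
    have h4 : c * c' * (12 * r - 8 * c - 8 * c') ≤ 0 :=
      mul_nonpos_of_nonneg_of_nonpos (mul_pos hc hc').le h3
    exact ⟨by linarith, fun h5 => by linarith⟩
  · have h3 : 0 < 3 * r - 2 * (c + c') := by linarith
    have hid := n4s_id r c c'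
    have h1 : 0 ≤ (r - (c + c')) ^ 2 * (r + 2 * (c + c')) := by positivity
    have h2 : 0 ≤ (3 * r - 2 * (c + c')) * (c - c') ^ 2 := by positivity
    refine ⟨by linarith, fun h5 => ?_⟩
    have h6 : (r - (c + c')) ^ 2 * (r + 2 * (c + c')) = 0 := by linarith
    have h7 : (3 * r - 2 * (c + c')) * (c - c') ^ 2 = 0 := by linarith
    have h8 : (c - c') ^ 2 = 0 := by
      rcases mul_eq_zero.1 h7 with h | h
      · exact absurd h h3.ne'
      · exact h
    have h9 : (r - (c + c')) ^ 2 = 0 := by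
      rcases mul_eq_zero.1 h6 with h | h
      · exact h
      · exfalso
        have : 0 < r + 2 * (c + c') := by positivity
        linarith
    have h10 := pow_eq_zero_iff (two_ne_zero) |>.1 h8
    have h11 := pow_eq_zero_iff (two_ne_zero) |>.1 h9
    linarith

private theorem n4s_exists : ∃ C : RawCert 4, (∀ r y, C.η r y = 0) ∧ (∀ r y, C.ηr r y = 0) ∧
    (∀ r y, C.ηc r y = 0) ∧ C.a = 1 ∧ C.d = 12 ∧ ∀ s, C.f s = 8 * |s| := by
  refine ⟨{
    η := fun _ _ => 0
    ηr := fun _ _ => 0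
    ηc := fun _ _ => 0
    smooth := contDiffOn_const
    deriv_r := fun _ _ _ => hasDerivAt_const _ _
    deriv_c := fun _ _ _ => hasDerivAt_const _ _
    bound := fun δ _ => ⟨0, fun r c _ _ => by simp⟩
    η_nonneg := fun _ _ _ _ => le_refl _
    a := 1
    a_pos := by norm_num
    d := 12
    d_pos := by norm_num
    f := fun c => 8 * |c|
    f_cont := by fun_prop
    f_nonneg := fun c => by positivity
    B_nonneg := fun r c c' _ _ _ => by simp
    B_lower := ?_
    final := ?_ }, fun _ _ => rfl, fun _ _ => rfl, fun _ _ => rfl, rfl, rfl, fun _ => rfl⟩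
  · intro r c c' hr hc hc1 hc' hc'1
    have h := (n4s_chord r c c' hr hc hc').1
    rw [abs_of_pos hc, abs_of_pos hc']
    simp only [abs_zero, mul_zero, zero_mul, zero_div, sub_zero, add_zero, one_mul]
    exact h
  · intro e he
    have h2 := sphere_moment_two (n := 4) (by norm_num) e he
    have e1 : (fun ω : Metric.sphere (0 : Ev 4) 1 => |(inner ℝ (ω : Ev 4) e : ℝ)|
        * (8 * |(|(inner ℝ (ω : Ev 4) e : ℝ)|)|))
        = fun ω : Metric.sphere (0 : Ev 4) 1 => 8 * (inner ℝ (ω : Ev 4) e : ℝ) ^ 2 := by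
      funext ω
      rw [abs_abs]
      generalize (inner ℝ (ω : Ev 4) e : ℝ) = t
      have a2 : |t| ^ 2 = t ^ 2 := sq_abs t
      calc |t| * (8 * |t|) = 8 * |t| ^ 2 := by ring
        _ = _ := by rw [a2]
    rw [e1, integral_const_mul, h2]
    push_cast
    ring_nf
    exact le_refl _

/-- a strict certificate in dimension four -/
theorem exists_strict_four : ∃ c : RawCert 4, c.Strict := by
  obtain ⟨C, hη, hηr, hηc, ha, hd, hf⟩ := n4s_exists
  have hB : ∀ r x y, C.B r x y = 1 := by
    intro r x y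
    unfold RawCert.B
    rw [hη, hη, hηr, hηr, hηc, hηc, ha]
    simp
  refine ⟨C, ?_, ?_⟩
  · intro r x y _ _ _
    rw [hB]
    exact one_pos
  · intro r x y hr hx _ hy _ h
    rw [hB, hd, hf, hf, abs_of_pos hx, abs_of_pos hy, one_mul] at h
    exact (n4s_chord r x y hr hx hy).2 h.symm

end Vale.Agent.Lib.P219
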