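import Vale.Agent.Lib.P219.Ce.Build3

/-! # P219 certificates: dimension 5 -/

namespace Vale.Agent.Lib.P219.Bern

/-- certificate data in dimension 5 -/
def dat5 : Data where
  n := 5
  mon := [(356796000000000, 0, 0), ((-8090201811600), 0, 2), (18151960820400, 0, 3),
    ((-11469385818000), 0, 4), ((-192522254953644), 1, 0), ((-247651354328400), 1, 2),
    ((-3606967471971600), 1, 3), (2892646216627200, 1, 4), (104684370271740, 2, 0),
    (1548262365804000, 2, 2), (4718253035073600, 2, 3), ((-4877146639015200), 2, 4),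
    ((-13337675983665), 3, 0), ((-2527058059154640), 3, 2), (171786748518000, 3, 3),
    (1652267721891600, 3, 4), (9418665502845, 4, 0), (824455514906600, 4, 2),
    ((-717021841575600), 4, 3)]
  a := 770089019814576
  am := 770089019814575
  d := 12844656000000000
  ep := 1
  fs := [(1, 8563104000000000), (3, 1777342414492800), (4, 1691027419904064), (5, 39469676171904000),
    (6, (-165492969438202560)), (7, 139155282244817280), (8, 143376632418032640),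
    (9, (-257036225129382400)), (10, 97764369355699200)]

theorem c5_pB1 : Chk 1 2 dat5.pB1 :=
  ⟨73, 4, 7,
    (.base .leaf),
    by decide +kernel⟩

theorem c5_pB2 : Chk 1 2 dat5.pB2 :=
  ⟨83, 4, 7,
    (.base (.n1 .leaf .leaf)),
    by decide +kernel⟩

theorem c5_qFa : Chk 1 2 dat5.qFa :=
  ⟨97, 7, 13,
    (.base (.n1 .leaf .leaf)),
    by decide +kernel⟩

theorem c5_qFb : Chk 1 2 dat5.qFb :=
  ⟨88, 7, 13,
    (.base .leaf),
    by decide +kernel⟩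

theorem c5_pF2a : Chk 1 2 dat5.pF2a :=
  ⟨110, 7, 13,
    (.base (.n2 .leaf .leaf)),
    by decide +kernel⟩

theorem c5_pF2b : Chk 1 2 dat5.pF2b :=
  ⟨114, 7, 13,
    (.base (.n2 (.n2 .leaf .leaf) .leaf)),
    by decide +kernel⟩

theorem c5_pM : Chk 1 1 dat5.pM :=
  ⟨66, 3, 5,
    (.base .leaf),
    by decide +kernel⟩

theorem c5_pN : Chk 1 1 dat5.pN :=
  ⟨62, 3, 3,
    (.base .leaf),
    by decide +kernel⟩

theorem c5_pE : Chk 1 1 dat5.pE :=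
  ⟨69, 1, 5,
    (.base (.n1 .leaf .leaf)),
    by decide +kernel⟩

theorem c5_pC : Chk 1 1 dat5.pC :=
  ⟨149, 1, 3,
    (.base (.n1 (.n1 (.n1 (.n1 (.n1 (.n2 .leaf (.n1 (.n1 (.n1 (.n1 (.n1 (.n1 (.n2 (.n1 (.n1 (.n2
    (.n1 (.n1 (.n2 .leaf (.n1 (.n1 (.n2 .leaf .leaf) .leaf) .leaf)) .leaf) .leaf) .leaf) .leaf)
    .leaf) .leaf) .leaf) .leaf) .leaf) .leaf) .leaf) .leaf)) .leaf) .leaf) (.n2 (.n2 (.n1 .leaf (.n2
    (.n1 (.n2 (.n2 (.n1 (.n2 (.n1 .leaf .leaf) .leaf) .leaf) .leaf) .leaf) .leaf) .leaf)) .leaf)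
    .leaf)) (.n2 .leaf .leaf)) (.n1 (.n2 .leaf (.n2 .leaf .leaf)) (.n2 .leaf (.n1 (.n2 .leaf (.n2
    (.n1 (.n2 (.n1 .leaf (.n2 .leaf .leaf)) .leaf) (.n2 (.n1 (.n2 .leaf (.n1 (.n2 .leaf .leaf)
    .leaf)) .leaf) (.n1 (.n2 (.n1 (.n2 (.n1 .leaf (.n2 .leaf .leaf)) .leaf) (.n2 (.n1 (.n2 (.n1 (.n2
    .leaf (.n1 .leaf (.n2 .leaf .leaf))) (.n2 .leaf (.n1 (.n2 .leaf .leaf) (.n2 .leaf .leaf))))
    .leaf) (.n2 .leaf .leaf)) .leaf)) .leaf) (.n2 (.n1 (.n2 .leaf .leaf) .leaf) .leaf)))) .leaf))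
    (.n2 .leaf (.n2 (.n1 (.n2 .leaf .leaf) .leaf) (.n1 (.n2 .leaf .leaf) .leaf)))))))),
    by decide +kernel⟩

theorem c5_qf : Chk 0 1 dat5.qf :=
  ⟨64, 1, 11,
    (.base .leaf),
    by decide +kernel⟩

theorem c5_xB1 : Chk 1 2 dat5.xB1 :=
  ⟨70, 4, 7,
    (.base .leaf),
    by decide +kernel⟩

theorem c5_xB2 : Chk 1 2 dat5.xB2 :=
  ⟨72, 4, 7,
    (.base .leaf),
    by decide +kernel⟩

theorem c5_xF1 : Chk 1 2 dat5.xF1 :=
  ⟨84, 7, 13,
    (.base .leaf),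
    by decide +kernel⟩

theorem c5_xF2 : Chk 1 2 dat5.xF2 :=
  ⟨170, 7, 13,
    (.base (.n2 (.n1 .leaf (.n2 (.n1 .leaf (.n1 .leaf .leaf)) (.n1 .leaf (.n2 (.n1 (.n1 .leaf (.n2
    .leaf (.n1 .leaf .leaf))) (.n1 (.n2 .leaf (.n1 (.n2 .leaf .leaf) .leaf)) .leaf)) (.n1 (.n1 .leaf
    .leaf) .leaf))))) (.n1 .leaf (.n2 (.n1 .leaf .leaf) .leaf)))),
    by decide +kernel⟩

theorem c5_xM : Chk 1 1 dat5.xM :=
  ⟨64, 3, 5,
    (.base .leaf),
    by decide +kernel⟩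

theorem c5_xN : Chk 1 1 dat5.xN :=
  ⟨62, 3, 3,
    (.base .leaf),
    by decide +kernel⟩

theorem c5_xE : Chk 1 1 dat5.xE :=
  ⟨60, 1, 5,
    (.base .leaf),
    by decide +kernel⟩

theorem c5_xC : Chk 1 1 dat5.xC :=
  ⟨61, 1, 3,
    (.base .leaf),
    by decide +kernel⟩

theorem chks5 : Chks2 dat5 where
  n5 := by decide
  mj := by decide +kernel
  a0 := by decide
  am := by decide
  d0 := by decide
  ep := by decide
  B1 := c5_pB1
  B2 := c5_pB2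
  Fa := c5_qFa
  Fb := c5_qFb
  F2a := c5_pF2a
  F2b := c5_pF2b
  M := c5_pM
  N := c5_pN
  E := c5_pE
  C := c5_pC
  f := c5_qf
  yB1 := c5_xB1
  yB2 := c5_xB2
  yF1 := c5_xF1
  yF2 := c5_xF2
  yM := c5_xM
  yN := c5_xN
  yE := c5_xE
  yC := c5_xC

/-- a strict certificate in dimension 5 -/
theorem exists_strict_five : ∃ c : RawCert 5, c.Strict :=
  chks5.strict (15 / 8) (by decide +kernel)

/-- certificates in dimension 5 -/
theorem hasKer_five : HasKer 5 :=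
  chks5.hasKer (15 / 8) (by decide +kernel)

end Vale.Agent.Lib.P219.Bern
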