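import Mathlib.Algebra.Order.Star.Real
import Mathlib.Tactic.Positivity

/-! # P219 certificates: the polynomial inequality in dimension 6 -/

namespace Vale.Agent.Lib.P219

/-- the chord inequality in dimension 6 for all `c, c' ≥ 0`. With `s = (c + c') / 2`,
`w = ((c - c') / 2)²` the polynomial is concave in `w ∈ [0, s²]` (coefficient `-288 s` of `w²`), and
nonnegative for `w = 0` and for `w = s²`. -/
private theorem n6_all (r c c' : ℝ) (hr : 0 ≤ r) (hc : 0 ≤ c) (hc' : 0 ≤ c') :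
    0 ≤ 17 * r ^ 5 - 25 * (c + c') * r ^ 4 + 10 * (3 + c ^ 2 + c' ^ 2) * r ^ 3
      - 360 * c * c' * r + 240 * c * c' * (c + c') + 48 * c * c' * (c ^ 3 + c' ^ 3) := by
  rcases eq_or_lt_of_le (add_nonneg hc hc') with h0 | h0
  · have h1 : c = 0 := by linarith
    have h2 : c' = 0 := by linarith
    subst h1
    subst h2
    have h3 : 0 ≤ 17 * r ^ 5 + 30 * r ^ 3 := by positivity
    calc 0 ≤ 17 * r ^ 5 + 30 * r ^ 3 := h3
      _ = _ := by ring
  · have hs : 0 < (c + c') / 2 := by linarith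
    have key : ((c + c') / 2) ^ 2 * (17 * r ^ 5 - 25 * (c + c') * r ^ 4
        + 10 * (3 + c ^ 2 + c' ^ 2) * r ^ 3
        - 360 * c * c' * r + 240 * c * c' * (c + c') + 48 * c * c' * (c ^ 3 + c' ^ 3))
        = (c * c') * ((r - (c + c')) ^ 2 * (30 * (r + 2 * (c + c')) + 17 * r ^ 3
            + 9 * (c + c') * r ^ 2 + 6 * (c + c') ^ 2 * r + 3 * (c + c') ^ 3))
          + ((c - c') / 2) ^ 2 * (r ^ 3 * (17 * r ^ 2 - 25 * (c + c') * r + 30
            + 10 * (c + c') ^ 2))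
          + 288 * ((c + c') / 2) ^ 3 * ((c - c') / 2) ^ 2 * (c * c') := by
      ring
    have h1 : 0 ≤ 17 * r ^ 2 - 25 * (c + c') * r + 30 + 10 * (c + c') ^ 2 := by
      have h2 := sq_nonneg (34 * r - 25 * (c + c'))
      have h3 := sq_nonneg (c + c')
      nlinarith
    have h4 : 0 ≤ ((c + c') / 2) ^ 2 * (17 * r ^ 5 - 25 * (c + c') * r ^ 4
        + 10 * (3 + c ^ 2 + c' ^ 2) * r ^ 3
        - 360 * c * c' * r + 240 * c * c' * (c + c') + 48 * c * c' * (c ^ 3 + c' ^ 3)) := by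
      rw [key]
      have h5 : 0 ≤ c + c' := h0.le
      positivity
    exact nonneg_of_mul_nonneg_right h4 (pow_pos hs 2)

/-- endpoint `c = 1` -/
theorem n6_end (r D : ℝ) (hr : 0 ≤ r) (hD : 0 ≤ D) (hD1 : D ≤ 1) :
    0 ≤ 17 * r ^ 5 - 25 * (1 + D) * r ^ 4 + (40 + 10 * D ^ 2) * r ^ 3 - 360 * D * r
      + 288 * D + 240 * D ^ 2 + 48 * D ^ 4 := by
  have h := n6_all r 1 D hr zero_le_one hD
  calc (0 : ℝ) ≤ _ := h
    _ = _ := by ring

/-- the chord inequality in dimension 6 -/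
theorem n6_chord (r c c' : ℝ) (hr : 0 ≤ r) (hc : 0 ≤ c) (hc1 : c ≤ 1) (hc' : 0 ≤ c')
    (hc'1 : c' ≤ 1) :
    0 ≤ 17 * r ^ 5 - 25 * (c + c') * r ^ 4 + 10 * (3 + c ^ 2 + c' ^ 2) * r ^ 3
      - 360 * c * c' * r + 240 * c * c' * (c + c') + 48 * c * c' * (c ^ 3 + c' ^ 3) :=
  n6_all r c c' hr hc hc'

end Vale.Agent.Lib.P219
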