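import Vale.Agent.Lib.P219.Ce.Cutoff
import Vale.Agent.Lib.P219.Ce.Sphere
import Vale.Agent.Lib.P219.Ce.N6Poly

/-! # P219 certificates: dimension 6 -/

namespace Vale.Agent.Lib.P219

open MeasureTheory Set Filter Topology

private theorem n6_br (r c c' : ℝ) (hr : 0 < r) :
    (17 : ℝ) + ((-10 / r ^ 2 * (1 - c ^ 2) + 10 / r / r * (((6 : ℕ) : ℝ) - 2 + c ^ 2)
        - |c| * |(0 : ℝ)| * Real.sqrt ((1 - c ^ 2) * (1 - c' ^ 2)) / r
          - (((6 : ℕ) : ℝ) - 1) * c * (10 / r))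
      + (-10 / r ^ 2 * (1 - c' ^ 2) + 10 / r / r * (((6 : ℕ) : ℝ) - 2 + c' ^ 2)
        - |c'| * |(0 : ℝ)| * Real.sqrt ((1 - c' ^ 2) * (1 - c ^ 2)) / r
          - (((6 : ℕ) : ℝ) - 1) * c' * (10 / r))) / 2
    = ((17 * r ^ 2 - 50 * c * r + (30 + 20 * c ^ 2))
        + (17 * r ^ 2 - 50 * c' * r + (30 + 20 * c' ^ 2))) / (2 * r ^ 2) := by
  rw [abs_zero]
  push_cast
  field_simp
  ring

private theorem n6_q (r c : ℝ) (hc : |c| ≤ 1) : 0 ≤ 17 * r ^ 2 - 50 * c * r + (30 + 20 * c ^ 2) := by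
  have hc2 : c ^ 2 ≤ 1 := by
    rw [← sq_abs]
    exact pow_le_one₀ (abs_nonneg c) hc
  nlinarith [sq_nonneg (17 * r - 25 * c)]

/-- `η = 10 / r`, `a = 17`, `d = 360`, `f c = 240 c + 48 c^3` (for `c ≥ 0`) -/
theorem nonempty_rawCert_six : Nonempty (RawCert 6) := by
  refine ⟨{
    η := fun r _ => 10 / r
    ηr := fun r _ => -10 / r ^ 2
    ηc := fun _ _ => 0
    smooth := ?_
    deriv_r := ?_
    deriv_c := ?_
    bound := ?_
    η_nonneg := ?_
    a := 17
    a_pos := by norm_num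
    d := 360
    d_pos := by norm_num
    f := fun c => 240 * |c| + 48 * |c| ^ 3
    f_cont := by fun_prop
    f_nonneg := fun c => by positivity
    B_nonneg := ?_
    B_lower := ?_
    final := ?_ }⟩
  · refine contDiffOn_const.div contDiff_fst.contDiffOn ?_
    rintro ⟨r, c⟩ ⟨hr, -⟩
    exact (ne_of_gt hr)
  · intro r c hr
    have h := (hasDerivAt_inv hr.ne').const_mul (10 : ℝ)
    have e : (10 : ℝ) * (-(r ^ 2)⁻¹) = -10 / r ^ 2 := by
      rw [div_eq_mul_inv]; ring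
    rw [e] at h
    simpa [div_eq_mul_inv] using h
  · intro r c _
    exact hasDerivAt_const _ _
  · intro δ hδ
    refine ⟨10 / δ + 10 / δ ^ 2, fun r c hr _ => ⟨?_, ?_, ?_⟩⟩
    · have h1 : 10 / r ≤ 10 / δ := div_le_div_of_nonneg_left (by norm_num) hδ hr
      have h2 : 0 ≤ 10 / δ ^ 2 := by positivity
      linarith
    · have hr0 : 0 < r := hδ.trans_le hr
      have h1 : 10 / r ^ 2 ≤ 10 / δ ^ 2 :=
        div_le_div_of_nonneg_left (by norm_num) (by positivity) (pow_le_pow_left₀ hδ.le hr 2)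
      have h2 : 0 ≤ 10 / δ := by positivity
      rw [abs_div, abs_neg, abs_of_pos (show (0 : ℝ) < r ^ 2 by positivity),
        abs_of_pos (show (0 : ℝ) < 10 by norm_num)]
      linarith
    · rw [abs_zero]
      positivity
  · intro r c hr _
    positivity
  · intro r c c' hr hc hc'
    rw [n6_br r c c' hr]
    have h1 := n6_q r c hc
    have h2 := n6_q r c' hc'
    positivity
  · intro r c c' hr hc hc1 hc' hc'1
    rw [n6_br r c c' hr]
    have h := n6_chord r c c' hr.le hc.le hc1 hc'.le hc'1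
    rw [abs_of_pos hc, abs_of_pos hc']
    have e : ((17 * r ^ 2 - 50 * c * r + (30 + 20 * c ^ 2))
        + (17 * r ^ 2 - 50 * c' * r + (30 + 20 * c' ^ 2))) / (2 * r ^ 2) * r ^ (6 - 1)
        = 17 * r ^ 5 - 25 * (c + c') * r ^ 4 + 10 * (3 + c ^ 2 + c' ^ 2) * r ^ 3 := by
      rw [show (6 - 1 : ℕ) = 5 by norm_num]
      field_simp
      ring
    rw [e]
    nlinarith [h]
  · intro e he
    have h2 := sphere_moment_two (n := 6) (by norm_num) e he
    have h4 := sphere_moment_four (n := 6) (by norm_num) e he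
    have hc : Continuous (fun ω : Metric.sphere (0 : Ev 6) 1 => (inner ℝ (ω : Ev 6) e : ℝ)) := by
      fun_prop
    have i2 : Integrable (fun ω : Metric.sphere (0 : Ev 6) 1 => (inner ℝ (ω : Ev 6) e : ℝ) ^ 2)
        (volume : Measure (Ev 6)).toSphere :=
      (hc.pow 2).integrable_of_hasCompactSupport (HasCompactSupport.of_compactSpace _)
    have i4 : Integrable (fun ω : Metric.sphere (0 : Ev 6) 1 => (inner ℝ (ω : Ev 6) e : ℝ) ^ 4)
        (volume : Measure (Ev 6)).toSphere :=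
      (hc.pow 4).integrable_of_hasCompactSupport (HasCompactSupport.of_compactSpace _)
    have e1 : (fun ω : Metric.sphere (0 : Ev 6) 1 => |(inner ℝ (ω : Ev 6) e : ℝ)|
        * (240 * |(|(inner ℝ (ω : Ev 6) e : ℝ)|)| + 48 * |(|(inner ℝ (ω : Ev 6) e : ℝ)|)| ^ 3))
        = fun ω : Metric.sphere (0 : Ev 6) 1 =>
          240 * (inner ℝ (ω : Ev 6) e : ℝ) ^ 2 + 48 * (inner ℝ (ω : Ev 6) e : ℝ) ^ 4 := by
      funext ω
      rw [abs_abs]
      generalize (inner ℝ (ω : Ev 6) e : ℝ) = t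
      have a2 : |t| ^ 2 = t ^ 2 := sq_abs t
      have a4 : |t| ^ 4 = t ^ 4 := by
        have : |t| ^ 4 = (|t| ^ 2) ^ 2 := by ring
        rw [this, a2]; ring
      calc |t| * (240 * |t| + 48 * |t| ^ 3) = 240 * |t| ^ 2 + 48 * |t| ^ 4 := by ring
        _ = _ := by rw [a2, a4]
    rw [e1, integral_add (i2.const_mul 240) (i4.const_mul 48), integral_const_mul,
      integral_const_mul, h2, h4]
    push_cast
    ring_nf
    exact le_refl _

theorem hasKer_six : HasKer 6 := by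
  obtain ⟨c⟩ := nonempty_rawCert_six
  exact hasKer_of_raw (by norm_num) c

end Vale.Agent.Lib.P219
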