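import Vale.Agent.Lib.P219.Ce.Build3

/-! # P219 certificates: dimension 7 -/

namespace Vale.Agent.Lib.P219.Bern

/-- certificate data in dimension 7 -/
def dat7 : Data where
  n := 7
  mon := [(35814240000000, 0, 0), ((-6119225583660), 0, 2), (50182193221776, 0, 3),
    ((-150805348293600), 0, 4), (171686389666176, 0, 5), ((-66181352562864), 0, 6),
    ((-87218834117184), 1, 2), (88397111868912, 1, 3), (392130593670816, 1, 4),
    ((-716754582548928), 1, 5), (322404541029648, 1, 6), (14885437437549, 2, 0),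
    (13790043796464, 2, 2), (167971897857456, 2, 3), ((-835200540155520), 2, 4),
    (1092555795260160, 2, 5), ((-443668853694528), 2, 6), (3210847293808, 3, 0),
    ((-161437917817946), 3, 2), (489815774852481, 3, 3), ((-522067156125284), 3, 4),
    (188753854422672, 3, 5)]
  a := 49135427896170
  am := 49135427896169
  d := 1289312640000000
  ep := 1
  fs := [(1, 859541760000000), (3, 220862156669280), (4, 793315027213632), (5, 78417645685344),
    (6, (-15493915868392192)), (7, 37410543893430432), (8, (-14705218313838976)),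
    (9, (-43673627274320736)), (10, 53663680902250496), (11, (-17995831398978048))]

theorem c7_pB1 : Chk 1 2 dat7.pB1 :=
  ⟨73, 5, 9,
    (.base .leaf),
    by decide +kernel⟩

theorem c7_pB2 : Chk 1 2 dat7.pB2 :=
  ⟨85, 5, 9,
    (.base (.n2 (.n1 .leaf .leaf) .leaf)),
    by decide +kernel⟩

theorem c7_qFa : Chk 1 2 dat7.qFa :=
  ⟨94, 7, 14,
    (.base (.n1 .leaf .leaf)),
    by decide +kernel⟩

theorem c7_qFb : Chk 1 2 dat7.qFb :=
  ⟨88, 7, 14,
    (.base .leaf),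
    by decide +kernel⟩

theorem c7_pF2a : Chk 1 2 dat7.pF2a :=
  ⟨92, 7, 14,
    (.base .leaf),
    by decide +kernel⟩

theorem c7_pF2b : Chk 1 2 dat7.pF2b :=
  ⟨110, 7, 14,
    (.base (.n2 .leaf .leaf)),
    by decide +kernel⟩

theorem c7_pM : Chk 1 1 dat7.pM :=
  ⟨64, 3, 7,
    (.base .leaf),
    by decide +kernel⟩

theorem c7_pN : Chk 1 1 dat7.pN :=
  ⟨58, 3, 3,
    (.base .leaf),
    by decide +kernel⟩

theorem c7_pE : Chk 1 1 dat7.pE :=
  ⟨59, 1, 7,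
    (.base .leaf),
    by decide +kernel⟩

theorem c7_pC : Chk 1 1 dat7.pC :=
  ⟨119, 1, 5,
    (.base (.n2 (.n1 (.n1 (.n1 (.n1 (.n2 (.n1 (.n1 (.n2 .leaf (.n1 (.n1 (.n2 .leaf (.n1 (.n1 (.n1
    (.n2 .leaf .leaf) .leaf) .leaf) .leaf)) .leaf) .leaf)) .leaf) .leaf) .leaf) .leaf) .leaf) .leaf)
    .leaf) (.n2 (.n1 (.n1 (.n2 (.n1 .leaf (.n2 .leaf (.n1 .leaf (.n2 .leaf .leaf)))) (.n1 .leaf (.n1
    .leaf .leaf))) (.n2 .leaf .leaf)) .leaf) (.n1 (.n1 (.n1 (.n2 .leaf (.n1 (.n1 (.n2 (.n1 (.n1 (.n2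
    .leaf .leaf) .leaf) .leaf) .leaf) .leaf) .leaf)) .leaf) (.n2 .leaf (.n2 .leaf (.n1 .leaf
    .leaf)))) (.n2 .leaf (.n2 .leaf (.n1 (.n2 (.n1 .leaf (.n2 .leaf .leaf)) .leaf) (.n2 (.n1 (.n2
    .leaf .leaf) .leaf) .leaf)))))))),
    by decide +kernel⟩

theorem c7_qf : Chk 0 1 dat7.qf :=
  ⟨61, 1, 12,
    (.base .leaf),
    by decide +kernel⟩

theorem c7_xB1 : Chk 1 2 dat7.xB1 :=
  ⟨81, 5, 9,
    (.base (.n1 .leaf .leaf)),
    by decide +kernel⟩

theorem c7_xB2 : Chk 1 2 dat7.xB2 :=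
  ⟨100, 5, 9,
    (.base (.n2 .leaf (.n1 .leaf (.n2 .leaf .leaf)))),
    by decide +kernel⟩

theorem c7_xF1 : Chk 1 2 dat7.xF1 :=
  ⟨88, 7, 14,
    (.base .leaf),
    by decide +kernel⟩

theorem c7_xF2 : Chk 1 2 dat7.xF2 :=
  ⟨128, 7, 14,
    (.base (.n2 .leaf (.n2 .leaf (.n1 .leaf .leaf)))),
    by decide +kernel⟩

theorem c7_xM : Chk 1 1 dat7.xM :=
  ⟨66, 3, 7,
    (.base .leaf),
    by decide +kernel⟩

theorem c7_xN : Chk 1 1 dat7.xN :=
  ⟨60, 3, 3,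
    (.base .leaf),
    by decide +kernel⟩

theorem c7_xE : Chk 1 1 dat7.xE :=
  ⟨70, 1, 7,
    (.base (.n2 .leaf .leaf)),
    by decide +kernel⟩

theorem c7_xC : Chk 1 1 dat7.xC :=
  ⟨116, 1, 5,
    (.base (.n2 .leaf (.n2 (.n2 .leaf (.n1 (.n1 (.n2 (.n1 (.n2 (.n1 (.n1 (.n2 (.n1 (.n1 (.n1 (.n2
    .leaf .leaf) .leaf) .leaf) .leaf) .leaf) .leaf) .leaf) .leaf) .leaf) .leaf) .leaf) .leaf)) (.n2
    .leaf (.n2 .leaf .leaf))))),
    by decide +kernel⟩

theorem chks7 : Chks2 dat7 where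
  n5 := by decide
  mj := by decide +kernel
  a0 := by decide
  am := by decide
  d0 := by decide
  ep := by decide
  B1 := c7_pB1
  B2 := c7_pB2
  Fa := c7_qFa
  Fb := c7_qFb
  F2a := c7_pF2a
  F2b := c7_pF2b
  M := c7_pM
  N := c7_pN
  E := c7_pE
  C := c7_pC
  f := c7_qf
  yB1 := c7_xB1
  yB2 := c7_xB2
  yF1 := c7_xF1
  yF2 := c7_xF2
  yM := c7_xM
  yN := c7_xN
  yE := c7_xE
  yC := c7_xC

/-- a strict certificate in dimension 7 -/
theorem exists_strict_seven : ∃ c : RawCert 7, c.Strict :=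
  chks7.strict (35 / 16) (by decide +kernel)

/-- certificates in dimension 7 -/
theorem hasKer_seven : HasKer 7 :=
  chks7.hasKer (35 / 16) (by decide +kernel)

end Vale.Agent.Lib.P219.Bern
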