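import Vale.Agent.Lib.P219.Ce.Build2

/-! # P219 certificates: dimension 8 -/

namespace Vale.Agent.Lib.P219.Bern

/-- certificate data in dimension 8 -/
def dat8 : Data where
  n := 8
  mon := [(350, 0, 0), ((-280), 0, 2), (196, 2, 0)]
  a := 393
  am := 392
  d := 12600
  ep := 1
  fs := [(1, 8400), (3, 3920), (5, (-960))]

theorem c8_qB1 : Chk 0 2 dat8.qB1 :=
  ⟨27, 3, 5,
    (.base (.n1 .leaf .leaf)),
    by decide +kernel⟩

theorem c8_qB2 : Chk 0 2 dat8.qB2 :=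
  ⟨39, 3, 5,
    (.base (.n1 .leaf (.n1 (.n2 (.n1 .leaf .leaf) .leaf) .leaf))),
    by decide +kernel⟩

theorem c8_qFa : Chk 1 2 dat8.qFa :=
  ⟨43, 4, 8,
    (.base (.n1 .leaf .leaf)),
    by decide +kernel⟩

theorem c8_qFb : Chk 1 2 dat8.qFb :=
  ⟨34, 4, 8,
    (.base .leaf),
    by decide +kernel⟩

theorem c8_qFc : Chk 0 2 dat8.qFc :=
  ⟨35, 4, 8,
    (.base .leaf),
    by decide +kernel⟩

theorem c8_qF2 : Chk 0 2 dat8.qF2 :=
  ⟨44, 4, 8,
    (.base (.n1 .leaf .leaf)),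
    by decide +kernel⟩

theorem c8_qM : Chk 0 1 dat8.qM :=
  ⟨24, 3, 3,
    (.base (.n1 .leaf .leaf)),
    by decide +kernel⟩

theorem c8_qN : Chk 0 1 dat8.qN :=
  ⟨17, 3, 3,
    (.base .leaf),
    by decide +kernel⟩

theorem c8_qE : Chk 0 1 dat8.qE :=
  ⟨12, 1, 3,
    (.base .leaf),
    by decide +kernel⟩

theorem c8_qC : Chk 0 1 dat8.qC :=
  ⟨12, 1, 1,
    (.base .leaf),
    by decide +kernel⟩

theorem c8_qf : Chk 0 1 dat8.qf :=
  ⟨18, 1, 6,
    (.base .leaf),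
    by decide +kernel⟩

theorem chks8 : Chks dat8 where
  n5 := by decide
  mj := by decide +kernel
  a0 := by decide
  am := by decide
  d0 := by decide
  ep := by decide
  B1 := c8_qB1
  B2 := c8_qB2
  Fa := c8_qFa
  Fb := c8_qFb
  Fc := c8_qFc
  F2 := c8_qF2
  M := c8_qM
  N := c8_qN
  E := c8_qE
  C := c8_qC
  f := c8_qf

/-- a strict certificate in dimension 8 -/
theorem exists_strict_eight : ∃ c : RawCert 8, c.Strict :=
  chks8.strict 0 (by decide +kernel)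

/-- certificates in dimension 8 -/
theorem hasKer_eight : HasKer 8 :=
  chks8.hasKer 0 (by decide +kernel)

end Vale.Agent.Lib.P219.Bern
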