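import Vale.Agent.Lib.P219.Ce.Build2

/-! # P219 certificates: dimension 9 -/

namespace Vale.Agent.Lib.P219.Bern

/-- certificate data in dimension 9 -/
def dat9 : Data where
  n := 9
  mon := [(1298224200000000, 0, 0), ((-574263440100), 0, 2), (3115738080, 0, 3), ((-61016537400), 0, 4),
    (99184328880, 0, 5), ((-44658912480), 0, 6), ((-4888448035876860), 1, 2),
    ((-176602501000380), 1, 3), (44737562926531020, 1, 4), ((-76715160218221980), 1, 5),
    (35241466387938720, 1, 6), (636215997516015, 2, 0), (1542810143637786, 2, 2),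
    ((-1326475246283460), 2, 3), ((-21942830922596220), 2, 4), (43609238495986800, 2, 5),
    ((-21447050395166760), 2, 6), (814741144579180, 3, 0), ((-7874577345441105), 3, 2),
    (23166522911326977, 3, 3), ((-24891950813080260), 3, 4), (9156240745628886, 3, 5)]
  a := 1252827779463845
  am := 1252827779463844
  d := 46736071200000000
  ep := 1
  fs := [(1, 31157380800000000), (3, 6236070267520800), (4, 78215131185172800),
    (5, (-30600221783917632)), (6, (-1020390497776079040)), (7, 2360380671185297184),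
    (8, (-476318071728695040)), (9, (-3247442246580552384)), (10, 3296468178373144320),
    (11, (-952908946788332352))]

theorem c9_qB1 : Chk 0 2 dat9.qB1 :=
  ⟨85, 5, 9,
    (.base (.n1 .leaf (.n1 .leaf .leaf))),
    by decide +kernel⟩

theorem c9_qB2 : Chk 0 2 dat9.qB2 :=
  ⟨131, 5, 9,
    (.base (.n1 .leaf (.n1 (.n2 (.n1 (.n2 (.n2 (.n1 .leaf (.n2 .leaf (.n1 .leaf .leaf))) (.n1 .leaf
    .leaf)) .leaf) (.n2 (.n2 (.n1 (.n2 (.n1 .leaf .leaf) .leaf) .leaf) .leaf) .leaf)) .leaf)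
    .leaf))),
    by decide +kernel⟩

theorem c9_qFa : Chk 1 2 dat9.qFa :=
  ⟨101, 7, 14,
    (.base (.n1 .leaf .leaf)),
    by decide +kernel⟩

theorem c9_qFb : Chk 1 2 dat9.qFb :=
  ⟨93, 7, 14,
    (.base .leaf),
    by decide +kernel⟩

theorem c9_qFc : Chk 0 2 dat9.qFc :=
  ⟨92, 7, 14,
    (.base .leaf),
    by decide +kernel⟩

theorem c9_qF2 : Chk 0 2 dat9.qF2 :=
  ⟨222, 7, 14,
    (.base (.n1 (.n2 (.n1 .leaf (.n1 .leaf (.n1 .leaf (.n2 (.n1 .leaf (.n1 .leaf (.n2 (.n1 .leaf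
    (.n1 .leaf (.n2 (.n1 .leaf (.n1 .leaf .leaf)) (.n1 .leaf .leaf)))) .leaf))) .leaf)))) .leaf)
    (.n2 (.n1 (.n1 (.n1 (.n2 (.n1 (.n1 (.n2 (.n1 (.n1 (.n2 .leaf .leaf) .leaf) .leaf) .leaf) .leaf)
    .leaf) .leaf) .leaf) .leaf) .leaf) (.n1 (.n1 (.n2 (.n1 (.n2 (.n1 .leaf .leaf) .leaf) .leaf)
    .leaf) .leaf) .leaf)))),
    by decide +kernel⟩

theorem c9_qM : Chk 0 1 dat9.qM :=
  ⟨71, 3, 7,
    (.base (.n1 .leaf .leaf)),
    by decide +kernel⟩

theorem c9_qN : Chk 0 1 dat9.qN :=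
  ⟨59, 3, 3,
    (.base .leaf),
    by decide +kernel⟩

theorem c9_qE : Chk 0 1 dat9.qE :=
  ⟨65, 1, 7,
    (.base (.n1 .leaf .leaf)),
    by decide +kernel⟩

theorem c9_qC : Chk 0 1 dat9.qC :=
  ⟨120, 1, 5,
    (.base (.n1 (.n2 (.n2 .leaf (.n1 (.n1 (.n2 .leaf (.n1 (.n1 .leaf .leaf) .leaf)) .leaf) .leaf))
    .leaf) (.n2 .leaf (.n1 (.n2 .leaf .leaf) (.n2 (.n2 (.n1 .leaf (.n1 .leaf (.n2 .leaf (.n1 .leaf
    (.n1 .leaf (.n2 (.n1 .leaf (.n1 .leaf (.n2 .leaf .leaf))) .leaf)))))) .leaf) (.n2 .leaf (.n1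
    .leaf (.n2 .leaf (.n1 .leaf .leaf))))))))),
    by decide +kernel⟩

theorem c9_qf : Chk 0 1 dat9.qf :=
  ⟨67, 1, 12,
    (.base .leaf),
    by decide +kernel⟩

theorem chks9 : Chks dat9 where
  n5 := by decide
  mj := by decide +kernel
  a0 := by decide
  am := by decide
  d0 := by decide
  ep := by decide
  B1 := c9_qB1
  B2 := c9_qB2
  Fa := c9_qFa
  Fb := c9_qFb
  Fc := c9_qFc
  F2 := c9_qF2
  M := c9_qM
  N := c9_qN
  E := c9_qE
  C := c9_qC
  f := c9_qf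

/-- a strict certificate in dimension 9 -/
theorem exists_strict_nine : ∃ c : RawCert 9, c.Strict :=
  chks9.strict (315 / 128) (by decide +kernel)

/-- certificates in dimension 9 -/
theorem hasKer_nine : HasKer 9 :=
  chks9.hasKer (315 / 128) (by decide +kernel)

end Vale.Agent.Lib.P219.Bern
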